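import Vale.Agent.P011.MPQ.Defs
import Vale.Agent.P011.Arith.LocalA

/-!
Quaternions of norm one which are close to one at a ramified place are close to `e`-th powers.
-/

open NumberField IsDedekindDomain

namespace Vale.Agent.P011.Two

open Vale.Agent.P011.Arith Vale.Agent.P011.MPQ

section newton

variable {E : Type*} [Field E] (V : Valuation E Z0)

theorem z0_val_nat_le (n : ℕ) : V (n : E) ≤ 1 := by
  induction n with
  | zero => rw [Nat.cast_zero, map_zero]; exact zero_le
  | succ n ih => rw [Nat.cast_succ]; exact V.map_add_le ih (by rw [map_one])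

theorem exists_expand {x y : E} (hx : V x ≤ 1) (hy : V y ≤ 1) (n : ℕ) :
    ∃ k : E, V k ≤ 1 ∧ (x + y) ^ n = x ^ n + n * x ^ (n - 1) * y + k * y ^ 2 := by
  obtain ⟨k, hk⟩ := Polynomial.powAddExpansion (⟨x, hx⟩ : V.integer) ⟨y, hy⟩ n
  exact ⟨k, k.2, congrArg Subtype.val hk⟩

theorem newton_pow {e : ℕ} (he : V (e : E) ≠ 0) {μ : E}
    (hμ : V (μ - 1) < V (e : E) ^ 2) {γ : Z0} (hγ : γ ≠ 0) :
    ∃ ν : E, V ν = 1 ∧ V (ν ^ e - μ) < γ := by
  have hle := z0_val_nat_le V e
  have hb : ∀ ν : E, V (ν - 1) < V (e : E) → V ν = 1 := by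
    intro ν h
    have h1 := V.map_one_add_of_lt (lt_of_lt_of_le h hle)
    rwa [add_sub_cancel] at h1
  have key : ∀ n : ℕ, ∃ ν : E, V (ν - 1) < V (e : E) ∧
      V (ν ^ e - μ) ≤ V (e : E) ^ 2 * WithZero.exp (-(n + 1 : ℤ)) := by
    intro n
    induction n with
    | zero =>
      refine ⟨1, by rw [sub_self, map_zero]; exact zero_lt_iff.mpr he, ?_⟩
      rw [one_pow, Valuation.map_sub_swap]
      simpa using (z0_lt_iff_le_mul (pow_ne_zero 2 he)).mp hμ
    | succ n ih =>
      obtain ⟨ν, h1, h2⟩ := ih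
      have hν := hb ν h1
      have hν0 : ν ≠ 0 := by
        rintro rfl
        rw [map_zero] at hν
        exact zero_ne_one hν
      have heE : (e : E) ≠ 0 := (Valuation.ne_zero_iff V).mp he
      obtain ⟨h, hh⟩ : ∃ h : E, h = -(ν ^ e - μ) / (e * ν ^ (e - 1)) := ⟨_, rfl⟩
      have hVh : V h ≤ V (e : E) * WithZero.exp (-(n + 1 : ℤ)) := by
        rw [hh, map_div₀, Valuation.map_neg, map_mul, map_pow, hν, one_pow, mul_one,
          div_le_iff₀ (zero_lt_iff.mpr he)]
        refine h2.trans (le_of_eq ?_)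
        rw [pow_two, mul_right_comm]
      have hexp : (WithZero.exp (-(n + 1 : ℤ)) : Z0) < 1 := by
        rw [← WithZero.exp_zero, WithZero.exp_lt_exp]; omega
      have hVh' : V h < V (e : E) := by
        refine lt_of_le_of_lt hVh ?_
        calc V (e : E) * WithZero.exp (-(n + 1 : ℤ)) < V (e : E) * 1 :=
              mul_lt_mul_of_pos_left hexp (zero_lt_iff.mpr he)
          _ = V (e : E) := mul_one _
      obtain ⟨k, hk1, hk2⟩ := exists_expand V hν.le (hVh'.le.trans hle) e
      refine ⟨ν + h, ?_, ?_⟩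
      · rw [add_sub_right_comm]
        exact V.map_add_lt h1 hVh'
      · have e1 : (ν + h) ^ e - μ = k * h ^ 2 := by
          rw [hk2, hh]
          field_simp
          ring
        rw [e1, map_mul, map_pow]
        calc V k * V h ^ 2 ≤ 1 * (V (e : E) * WithZero.exp (-(n + 1 : ℤ))) ^ 2 :=
              mul_le_mul' hk1 (pow_le_pow_left' hVh 2)
          _ = V (e : E) ^ 2 * WithZero.exp (-(n + 1 : ℤ)) ^ 2 := by rw [one_mul, mul_pow]
          _ ≤ V (e : E) ^ 2 * WithZero.exp (-((n + 1 : ℕ) + 1 : ℤ)) := by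
              refine mul_le_mul_right ?_ _
              rw [← WithZero.exp_nsmul, WithZero.exp_le_exp]
              simp only [nsmul_eq_mul]
              push_cast
              omega
  obtain ⟨ν, h1, h2⟩ := key (WithZero.log γ).natAbs
  refine ⟨ν, hb ν h1, lt_of_le_of_lt h2 ?_⟩
  calc V (e : E) ^ 2 * WithZero.exp (-(((WithZero.log γ).natAbs : ℕ) + 1 : ℤ)) ≤
        1 * WithZero.exp (-(((WithZero.log γ).natAbs : ℕ) + 1 : ℤ)) :=
        mul_le_mul_left (pow_le_one' hle 2) _
    _ < γ := by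
        rw [one_mul]
        conv_rhs => rw [← WithZero.exp_log hγ]
        rw [WithZero.exp_lt_exp]
        omega

end newton

section loc

variable {F : Type} [Field F] [CharZero F] {w : Valuation F Z0} {a b : Fˣ}

/-- A pure quaternion whose square is a local square splits the algebra. -/
theorem mem_of_pure {p q r : F} {δ : Fˣ}
    (hδ : (δ : F) = a * p ^ 2 + b * q ^ 2 - a * b * r ^ 2) (h : δ ∈ LS w) :
    b ∈ NF a ⊔ LS w := by
  have ha0 : (a : F) ≠ 0 := a.ne_zero
  have hb0 : (b : F) ≠ 0 := b.ne_zero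
  have hδ0 : (δ : F) ≠ 0 := δ.ne_zero
  by_cases hm : q ^ 2 - a * r ^ 2 = 0
  · have h1 : (δ : F) = a * p ^ 2 := by linear_combination hδ + (b : F) * hm
    have hp : p ≠ 0 := by
      rintro rfl
      apply hδ0
      rw [h1]; ring
    have ha : a ∈ LS w := by
      have e : a = δ * ((Units.mk0 p hp) ^ 2)⁻¹ := by
        ext
        rw [Units.val_mul, Units.val_inv_eq_inv_val, Units.val_pow_eq_pow_val, Units.val_mk0, h1]
        field_simp
      rw [e]
      exact Subgroup.mul_mem _ h (Subgroup.inv_mem _ (sq_mem_LS _))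
    rw [NF_sup_of_mem' a ha]
    exact Subgroup.mem_top _
  · have hbm : (b : F) * (q ^ 2 - a * r ^ 2) ≠ 0 := mul_ne_zero hb0 hm
    have hw1 : w ((b : F) * (q ^ 2 - a * r ^ 2)) ≠ 0 := (Valuation.ne_zero_iff w).mpr hbm
    have hw2 : w (δ : F) ≠ 0 := (Valuation.ne_zero_iff w).mpr hδ0
    have hw4 : w (4 : F) ≠ 0 := val_four_ne w
    obtain ⟨y, hy⟩ := LS_newton' (w := w) h (γ := min 1 (w 4 * w ((b : F) * (q ^ 2 - a * r ^ 2)) / w (δ : F)))
      (ne_of_gt (lt_min zero_lt_one (zero_lt_iff.mpr (div_ne_zero (mul_ne_zero hw4 hw1) hw2))))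
    have hy0 : (y : F) ≠ 0 := y.ne_zero
    obtain ⟨η, hη⟩ : ∃ η : F, η = (δ : F) / (y : F) ^ 2 - 1 := ⟨_, rfl⟩
    rw [← hη] at hy
    have hη1 : w η < 1 := lt_of_lt_of_le hy (min_le_left _ _)
    have hη2 : w η < w 4 * w ((b : F) * (q ^ 2 - a * r ^ 2)) / w (δ : F) :=
      lt_of_lt_of_le hy (min_le_right _ _)
    have hyδ : (δ : F) = (y : F) ^ 2 * (1 + η) := by rw [hη]; field_simp; ring
    have hwy : w ((y : F) ^ 2) = w (δ : F) := by
      rw [hyδ, map_mul, w.map_one_add_of_lt hη1, mul_one]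
    have h3 : w ((y : F) ^ 2 * η) < w 4 * w ((b : F) * (q ^ 2 - a * r ^ 2)) := by
      rw [map_mul, hwy, mul_comm]
      exact (lt_div_iff₀ (zero_lt_iff.mpr hw2)).mp hη2
    have h3' : w ((y : F) ^ 2 * η) < w ((b : F) * (q ^ 2 - a * r ^ 2)) :=
      lt_of_lt_of_le h3 (mul_le_of_le_one_left' (val_four_le w))
    have h4 : (y : F) ^ 2 - a * p ^ 2 = (b : F) * (q ^ 2 - a * r ^ 2) - (y : F) ^ 2 * η := by
      linear_combination (-1 : F) * hyδ + hδ
    have h5 : w ((y : F) ^ 2 - a * p ^ 2) = w ((b : F) * (q ^ 2 - a * r ^ 2)) := by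
      rw [h4]
      exact Valuation.map_sub_eq_of_lt_left w h3'
    have hn0 : (y : F) ^ 2 - a * p ^ 2 ≠ 0 := by
      intro h0
      rw [h0, map_zero] at h5
      exact hw1 h5.symm
    have hn : Units.mk0 _ hn0 ∈ NF a := ⟨y, p, rfl⟩
    have hm' : Units.mk0 _ hm ∈ NF a := ⟨q, r, rfl⟩
    have h6 : b * Units.mk0 _ hm / Units.mk0 _ hn0 ∈ LS w := by
      apply LS_of_close
      rw [Units.val_div_eq_div_val, Units.val_mul, Units.val_mk0, Units.val_mk0,
        div_sub_one hn0, map_div₀, h5, div_lt_iff₀ (zero_lt_iff.mpr hw1)]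
      rw [h4, sub_sub_cancel]
      exact h3
    have e : b = b * Units.mk0 _ hm / Units.mk0 _ hn0 * (Units.mk0 _ hn0 * (Units.mk0 _ hm)⁻¹) := by
      rw [← mul_assoc, div_mul_cancel, mul_inv_cancel_right]
    rw [e]
    exact Subgroup.mul_mem _ (Subgroup.mem_sup_right h6)
      (Subgroup.mem_sup_left (Subgroup.mul_mem _ hn (Subgroup.inv_mem _ hm')))

/-- At a ramified place elements of integral norm have integral trace. -/
theorem trd_le (hw : b ∉ NF a ⊔ LS w) {z : Qt a b} (hz : w (nrd z) ≤ 1) : w (2 * z.re) ≤ 1 := by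
  by_contra hcon
  push Not at hcon
  apply hw
  have hr0 : 2 * z.re ≠ 0 := by
    intro h0
    rw [h0, map_zero] at hcon
    exact not_lt_zero hcon
  have hT : (1 : Z0) < w ((2 * z.re) ^ 2) := by
    rw [map_pow]
    exact one_lt_pow₀ hcon two_ne_zero
  have h1 : w (4 * nrd z) < w ((2 * z.re) ^ 2) := by
    refine lt_of_le_of_lt ?_ hT
    rw [map_mul]
    exact mul_le_one' (val_four_le w) hz
  have hd0 : (2 * z.re) ^ 2 - 4 * nrd z ≠ 0 := by
    intro h0
    have h2 := Valuation.map_sub_eq_of_lt_left w h1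
    rw [h0, map_zero] at h2
    exact (Valuation.ne_zero_iff w).mpr (pow_ne_zero 2 hr0) h2.symm
  refine mem_of_pure (w := w) (δ := Units.mk0 _ hd0) (p := 2 * z.imI) (q := 2 * z.imJ)
    (r := 2 * z.imK) ?_ ?_
  · rw [Units.val_mk0, nrd]
    ring
  · refine ⟨Units.mk0 _ hr0, ?_⟩
    rw [Units.val_mk0, Units.val_mk0, sub_div, div_self (pow_ne_zero 2 hr0), sub_sub_cancel_left,
      Valuation.map_neg, map_div₀, map_mul, div_lt_iff₀ (lt_trans zero_lt_one hT)]
    refine mul_lt_mul_of_pos_left (lt_of_le_of_lt hz hT) (zero_lt_iff.mpr (val_four_ne w))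

omit [CharZero F] in
theorem nrd_star (x : Qt a b) : nrd (star x) = nrd x := by
  simp only [nrd, QuaternionAlgebra.re_star, QuaternionAlgebra.imI_star,
    QuaternionAlgebra.imJ_star, QuaternionAlgebra.imK_star]
  ring

omit [CharZero F] in
theorem star_mul_self' (x : Qt a b) : star x * x = nrd x • (1 : Qt a b) := by
  ext <;> simp [nrd] <;> ring

omit [CharZero F] in
theorem nrd_smul (c : F) (x : Qt a b) : nrd (c • x) = c ^ 2 * nrd x := by
  simp only [nrd, QuaternionAlgebra.re_smul, QuaternionAlgebra.imI_smul,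
    QuaternionAlgebra.imJ_smul, QuaternionAlgebra.imK_smul, smul_eq_mul]
  ring

omit [CharZero F] in
theorem nrd_one_add (x : Qt a b) : nrd (1 + x) = 1 + 2 * x.re + nrd x := by
  simp only [nrd, QuaternionAlgebra.re_add, QuaternionAlgebra.imI_add,
    QuaternionAlgebra.imJ_add, QuaternionAlgebra.imK_add, QuaternionAlgebra.re_one,
    QuaternionAlgebra.imI_one, QuaternionAlgebra.imJ_one, QuaternionAlgebra.imK_one]
  ring

/-- The valuation of a quaternion algebra at a ramified place. -/
noncomputable def qv (hab : Aniso a b) (hw : b ∉ NF a ⊔ LS w) : Valuation (Qt a b) Z0 where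
  toFun x := w (nrd x)
  map_zero' := by simp [nrd]
  map_one' := by rw [nrd_one, map_one]
  map_mul' x y := by rw [nrd_mul, map_mul]
  map_add_le_max' x y := by
    have key : ∀ x y : Qt a b, y ≠ 0 → w (nrd x) ≤ w (nrd y) → w (nrd (x + y)) ≤ w (nrd y) := by
      intro x y hy hxy
      have hn : nrd y ≠ 0 := fun h => hy (hab y h)
      have hwn : w (nrd y) ≠ 0 := (Valuation.ne_zero_iff w).mpr hn
      obtain ⟨z, hz⟩ : ∃ z : Qt a b, z = (nrd y)⁻¹ • (x * star y) := ⟨_, rfl⟩
      have e1 : x + y = (1 + z) * y := by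
        rw [add_mul, one_mul, hz, smul_mul_assoc, mul_assoc, star_mul_self', mul_smul_comm,
          mul_one, smul_smul, inv_mul_cancel₀ hn, one_smul, add_comm]
      have e2 : nrd z = nrd x / nrd y := by
        rw [hz, nrd_smul, nrd_mul, nrd_star]
        field_simp
      have h1 : w (nrd z) ≤ 1 := by
        rw [e2, map_div₀]
        exact div_le_one_of_le₀ hxy zero_le
      rw [e1, nrd_mul, map_mul, nrd_one_add]
      calc _ ≤ 1 * w (nrd y) := by
            refine mul_le_mul_left ?_ _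
            exact w.map_add_le (w.map_add_le (by rw [map_one]) (trd_le hw h1)) h1
        _ = w (nrd y) := one_mul _
    by_cases hy : y = 0
    · subst hy
      rw [add_zero]
      exact le_max_left _ _
    by_cases hx : x = 0
    · subst hx
      rw [zero_add]
      exact le_max_right _ _
    rcases le_total (w (nrd x)) (w (nrd y)) with h | h
    · exact (key x y hy h).trans (le_max_right _ _)
    · rw [add_comm]
      exact (key y x hx h).trans (le_max_left _ _)

theorem qv_apply (hab : Aniso a b) (hw : b ∉ NF a ⊔ LS w) (x : Qt a b) :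
    qv hab hw x = w (nrd x) := rfl

end loc

/-- 2A0. Quaternions of norm one close to one at a ramified place are close to `e`-th powers. -/
theorem near_pow {F : Type} [Field F] [NumberField F] {a b : Fˣ} (hab : Aniso a b) (e : ℕ)
    (he : 0 < e) (g : SL1 a b) (w : HeightOneSpectrum (𝓞 F)) (hw : Ram a b w)
    (hg : w.valuation F (2 - 2 * ((g : (Qt a b)ˣ) : Qt a b).re) < w.valuation F (4 * (e : F) ^ 4))
    (ε : Z0) (hε : ε ≠ 0) : ∃ h : SL1 a b, w.valuation F
      (nrd (((g : (Qt a b)ˣ) : Qt a b) - (((h ^ e : SL1 a b) : (Qt a b)ˣ) : Qt a b))) < ε := by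
  classical
  obtain ⟨g, hg1⟩ := g
  obtain ⟨x, hx⟩ : ∃ x : Qt a b, x = (g : Qt a b) := ⟨_, rfl⟩
  have hx1 : nrd x = 1 := by rw [hx]; exact hg1
  change w.valuation F (2 - 2 * (g : Qt a b).re) < _ at hg
  rw [← hx] at hg
  obtain ⟨t, ht⟩ : ∃ t : F, t = 2 * x.re := ⟨_, rfl⟩
  rw [← ht] at hg
  have hnx : x.re ^ 2 - a * x.imI ^ 2 - b * x.imJ ^ 2 + a * b * x.imK ^ 2 = 1 := hx1
  -- the central case
  by_cases hcen : ∃ r : F, r ^ 2 = -1 + t * r
  · obtain ⟨r, hr⟩ := hcen
    have e1 : nrd (x - r • (1 : Qt a b)) = 0 := by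
      simp only [nrd, QuaternionAlgebra.re_sub, QuaternionAlgebra.imI_sub,
        QuaternionAlgebra.imJ_sub, QuaternionAlgebra.imK_sub, QuaternionAlgebra.re_smul,
        QuaternionAlgebra.imI_smul, QuaternionAlgebra.imJ_smul, QuaternionAlgebra.imK_smul,
        QuaternionAlgebra.re_one, QuaternionAlgebra.imI_one, QuaternionAlgebra.imJ_one,
        QuaternionAlgebra.imK_one, smul_eq_mul, mul_one, mul_zero, sub_zero]
      linear_combination hnx + hr + r * ht
    have e2 : x = r • (1 : Qt a b) := sub_eq_zero.mp (hab _ e1)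
    have e3 : (r - 1) * (r + 1) = 0 := by
      rw [e2, nrd_smul, nrd_one] at hx1
      linear_combination hx1
    have e4 : t = 2 * r := by
      rw [ht, e2]
      simp
    rcases mul_eq_zero.mp e3 with h | h
    · have hr1 : r = 1 := sub_eq_zero.mp h
      refine ⟨1, ?_⟩
      rw [one_pow]
      change w.valuation F (nrd ((g : Qt a b) - ((1 : (Qt a b)ˣ) : Qt a b))) < ε
      rw [← hx, e2, hr1, one_smul, Units.val_one, sub_self]
      simp only [nrd, QuaternionAlgebra.re_zero, QuaternionAlgebra.imI_zero,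
        QuaternionAlgebra.imJ_zero, QuaternionAlgebra.imK_zero, ne_eq, OfNat.ofNat_ne_zero,
        not_false_eq_true, zero_pow, mul_zero, sub_self, add_zero, map_zero]
      exact zero_lt_iff.mpr hε
    · exfalso
      have hr1 : r = -1 := eq_neg_of_add_eq_zero_left h
      rw [e4, hr1, show (2 : F) - 2 * -1 = 4 by norm_num, map_mul, map_pow] at hg
      refine absurd hg (not_lt.mpr ?_)
      calc _ ≤ w.valuation F (4 : F) * 1 :=
            mul_le_mul_right (pow_le_one' (z0_val_nat_le _ e) 4) _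
        _ = _ := mul_one _
  · push Not at hcen
    have hfact : Fact (∀ r : F, r ^ 2 ≠ -1 + t * r) := ⟨hcen⟩
    have hxx : x * x = (-1 : F) • (1 : Qt a b) + t • x := by
      ext
      · simp only [QuaternionAlgebra.re_mul, QuaternionAlgebra.re_add, QuaternionAlgebra.re_smul,
          QuaternionAlgebra.re_one, smul_eq_mul]
        linear_combination (-1 : F) * hnx - x.re * ht
      · simp only [QuaternionAlgebra.imI_mul, QuaternionAlgebra.imI_add,
          QuaternionAlgebra.imI_smul, QuaternionAlgebra.imI_one, smul_eq_mul]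
        linear_combination (-x.imI) * ht
      · simp only [QuaternionAlgebra.imJ_mul, QuaternionAlgebra.imJ_add,
          QuaternionAlgebra.imJ_smul, QuaternionAlgebra.imJ_one, smul_eq_mul]
        linear_combination (-x.imJ) * ht
      · simp only [QuaternionAlgebra.imK_mul, QuaternionAlgebra.imK_add,
          QuaternionAlgebra.imK_smul, QuaternionAlgebra.imK_one, smul_eq_mul]
        linear_combination (-x.imK) * ht
    let φ : QuadraticAlgebra F (-1) t →ₐ[F] Qt a b := QuadraticAlgebra.lift ⟨x, hxx⟩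
    have hφ : ∀ z, φ z = z.re • (1 : Qt a b) + z.im • x := fun z => rfl
    let V : Valuation (QuadraticAlgebra F (-1) t) Z0 :=
      (qv hab hw).comap (φ : QuadraticAlgebra F (-1) t →+* Qt a b)
    have hnφ : ∀ z, nrd (φ z) = QuadraticAlgebra.norm z := by
      intro z
      rw [hφ, QuadraticAlgebra.norm_def]
      simp only [nrd, QuaternionAlgebra.re_add, QuaternionAlgebra.imI_add,
        QuaternionAlgebra.imJ_add, QuaternionAlgebra.imK_add, QuaternionAlgebra.re_smul,
        QuaternionAlgebra.imI_smul, QuaternionAlgebra.imJ_smul, QuaternionAlgebra.imK_smul,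
        QuaternionAlgebra.re_one, QuaternionAlgebra.imI_one, QuaternionAlgebra.imJ_one,
        QuaternionAlgebra.imK_one, smul_eq_mul, mul_one, mul_zero, zero_add]
      linear_combination z.im ^ 2 * hnx - z.re * z.im * ht
    have hV : ∀ z, V z = w.valuation F (QuadraticAlgebra.norm z) := by
      intro z
      rw [← hnφ]
      rfl
    have hVs : ∀ z, V (star z) = V z := by
      intro z
      rw [hV, hV, QuadraticAlgebra.norm_star]
    have hVe : V (e : QuadraticAlgebra F (-1) t) = w.valuation F (e : F) ^ 2 := by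
      rw [hV, QuadraticAlgebra.norm_natCast, map_pow]
    have he0 : w.valuation F (e : F) ≠ 0 :=
      (Valuation.ne_zero_iff _).mpr (Nat.cast_ne_zero.mpr he.ne')
    have h40 : w.valuation F (4 : F) ≠ 0 := val_four_ne _
    have h2F : (2 : F) ≠ 0 := two_ne_zero
    let ω : QuadraticAlgebra F (-1) t := ⟨0, 1⟩
    let μ : QuadraticAlgebra F (-1) t := ⟨1 / 2, 1 / 2⟩
    have hμ : V (μ - 1) < V (e : QuadraticAlgebra F (-1) t) ^ 2 := by
      rw [hVe, hV]
      have e1 : QuadraticAlgebra.norm (μ - 1) = (2 - t) / 4 := by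
        rw [QuadraticAlgebra.norm_def]
        simp only [μ, QuadraticAlgebra.re_sub, QuadraticAlgebra.im_sub, QuadraticAlgebra.re_one,
          QuadraticAlgebra.im_one]
        ring
      rw [e1, map_div₀, div_lt_iff₀ (zero_lt_iff.mpr h40)]
      refine lt_of_lt_of_le hg (le_of_eq ?_)
      rw [map_mul, map_pow, mul_comm, ← pow_mul]
    obtain ⟨ν, hν1, hν2⟩ := newton_pow V (by rw [hVe]; exact pow_ne_zero 2 he0) hμ hε
    have hμ1 : V μ = 1 := by
      have h1 := V.map_one_add_of_lt (x := μ - 1) (lt_of_lt_of_le hμ (by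
        rw [hVe]; exact pow_le_one' (pow_le_one' (z0_val_nat_le _ e) 2) 2))
      rwa [add_sub_cancel] at h1
    have hne : ∀ z, V z = 1 → z ≠ 0 := by
      rintro z hz rfl
      rw [map_zero] at hz
      exact zero_ne_one hz
    have hν0 := hne ν hν1
    have hνs : V (star ν) = 1 := by rw [hVs, hν1]
    have hμs : V (star μ) = 1 := by rw [hVs, hμ1]
    have hνs0 := hne _ hνs
    have hμs0 := hne _ hμs
    have hωμ : ω * star μ = μ := by
      ext
      · simp only [ω, μ, QuadraticAlgebra.re_mul, QuadraticAlgebra.re_star,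
          QuadraticAlgebra.im_star]
        ring
      · simp only [ω, μ, QuadraticAlgebra.im_mul, QuadraticAlgebra.re_star,
          QuadraticAlgebra.im_star]
        ring
    have hφω : φ ω = x := by
      rw [hφ]
      simp [ω]
    obtain ⟨h, hh⟩ : ∃ h, h = ν / star ν := ⟨_, rfl⟩
    have hh0 : h ≠ 0 := by rw [hh]; exact div_ne_zero hν0 hνs0
    have hnh : QuadraticAlgebra.norm h = 1 := by
      have h1 : QuadraticAlgebra.norm h * QuadraticAlgebra.norm (star ν) =
          QuadraticAlgebra.norm ν := by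
        rw [← map_mul, hh, div_mul_cancel₀ _ hνs0]
      rw [QuadraticAlgebra.norm_star] at h1
      exact mul_right_cancel₀ (QuadraticAlgebra.norm_eq_zero_iff_eq_zero.not.mpr hν0)
        (by rw [h1, one_mul])
    refine ⟨⟨Units.map (φ : QuadraticAlgebra F (-1) t →* Qt a b) (Units.mk0 h hh0), ?_⟩, ?_⟩
    · change nrd (φ h) = 1
      rw [hnφ, hnh]
    · change w.valuation F (nrd ((g : Qt a b) - ((Units.map
        (φ : QuadraticAlgebra F (-1) t →* Qt a b) (Units.mk0 h hh0) ^ e : (Qt a b)ˣ) :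
        Qt a b))) < ε
      rw [← hx, Units.val_pow_eq_pow_val, Units.coe_map, Units.val_mk0]
      change w.valuation F (nrd (x - φ h ^ e)) < ε
      rw [← hφω, ← map_pow, ← map_sub, hnφ, ← hV]
      have e1 : ω - h ^ e = (μ * star (ν ^ e - μ) - (ν ^ e - μ) * star μ) /
          (star μ * star ν ^ e) := by
        rw [eq_div_iff (mul_ne_zero hμs0 (pow_ne_zero e hνs0)), star_sub, star_pow, hh, div_pow]
        field_simp
        linear_combination star ν ^ e * hωμ
      rw [e1, map_div₀, map_mul, map_pow, hμs, hνs, one_pow, mul_one, div_one]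
      refine V.map_sub_lt ?_ ?_
      · rw [map_mul, hμ1, one_mul, hVs]
        exact hν2
      · rw [map_mul, hμs, mul_one]
        exact hν2

end Vale.Agent.P011.Two
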