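import Vale.Agent.P011.Arith.Quad
import Vale.Agent.P011.Arith.Places
import Vale.Agent.P011.Arith.SUnit

/-!
An algebraic integer, large at infinity, all of whose prime divisors split in a given quadratic
extension.
-/

open NumberField IsDedekindDomain

namespace Vale.Agent.P011.Two

open Vale.Agent.P011.Arith

variable {k : Type} [Field k] [NumberField k]

theorem val_int_le (v : HeightOneSpectrum (𝓞 k)) (x : 𝓞 k) : v.valuation k (x : k) ≤ 1 :=
  v.valuation_le_one x

theorem val_nat_le (v : HeightOneSpectrum (𝓞 k)) (n : ℕ) : v.valuation k (n : k) ≤ 1 := by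
  have := val_int_le v (n : 𝓞 k)
  simpa using this

/-- a natural number divisible by finitely many given primes -/
theorem exists_nat_lt (T : Finset (HeightOneSpectrum (𝓞 k))) :
    ∃ M : ℕ, 0 < M ∧ ∀ v ∈ T, v.valuation k (M : k) < 1 := by
  classical
  refine ⟨∏ v ∈ T, Ideal.absNorm v.asIdeal, ?_, fun v hv => ?_⟩
  · refine Finset.prod_pos fun v _ => Nat.pos_of_ne_zero ?_
    rw [Ne, Ideal.absNorm_eq_zero_iff]
    exact v.ne_bot
  · have h1 : ((∏ v ∈ T, Ideal.absNorm v.asIdeal : ℕ) : 𝓞 k) ∈ v.asIdeal := by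
      rw [← Finset.mul_prod_erase T _ hv, Nat.cast_mul]
      exact Ideal.mul_mem_right _ _ (Ideal.absNorm_mem v.asIdeal)
    have h2 := (v.valuation_lt_one_iff_mem (K := k) _).mpr h1
    simpa using h2

/-- the Chinese remainder theorem -/
theorem crt (T : Finset (HeightOneSpectrum (𝓞 k))) (x : HeightOneSpectrum (𝓞 k) → 𝓞 k) (n : ℕ) :
    ∃ y : 𝓞 k, ∀ v ∈ T, v.valuation k ((y : k) - (x v : k)) ≤ WithZero.exp (-(n : ℤ)) := by
  obtain ⟨y, hy⟩ := IsDedekindDomain.exists_forall_sub_mem_ideal (s := T)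
    (fun v : HeightOneSpectrum (𝓞 k) => v.asIdeal) (fun _ => n)
    (fun v _ => Ideal.prime_of_isPrime v.ne_bot v.isPrime)
    (fun v _ w _ hvw h => hvw (HeightOneSpectrum.ext h)) (fun v => x v)
  refine ⟨y, fun v hv => ?_⟩
  have h1 := (v.intValuation_le_pow_iff_mem _ n).mpr (hy v hv)
  rw [← HeightOneSpectrum.valuation_of_algebraMap (K := k)] at h1
  exact h1

/-- a multiple of an element by a natural number is integral -/
theorem exists_nat_mul_int (x : k) : ∃ m : ℕ, 0 < m ∧ ∃ y : 𝓞 k, (y : k) = m * x := by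
  have h1 : IsAlgebraic ℤ x :=
    (IsFractionRing.isAlgebraic_iff ℤ ℚ k).mpr (Algebra.IsAlgebraic.isAlgebraic (R := ℚ) x)
  obtain ⟨y, hy0, hy⟩ := h1.exists_integral_multiple
  refine ⟨y.natAbs, Int.natAbs_pos.mpr hy0, ?_⟩
  have h2 : IsIntegral ℤ ((y.natAbs : k) * x) := by
    have h3 : ((y.natAbs : ℤ) : k) = (y.natAbs : k) := Int.cast_natCast _
    rw [zsmul_eq_mul] at hy
    rcases Int.natAbs_eq y with h | h
    · rw [← h3, ← h]
      exact hy
    · have h4 : ((y.natAbs : ℤ) : k) = -(y : k) := by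
        rw [← Int.cast_neg, h, neg_neg, Int.natAbs_neg, Int.natAbs_natCast]
      rw [← h3, h4, neg_mul]
      exact hy.neg
  exact ⟨⟨_, h2⟩, rfl⟩

/-- 2C0. An algebraic integer which is large at infinity and prime to all nonsplit primes. -/
theorem exists_split_elt' (d : kˣ) :
    ∃ a : 𝓞 k, (∀ v : HeightOneSpectrum (𝓞 k), d ∉ LS (v.valuation k) →
      v.valuation k (a : k) = 1) ∧ ∀ w : InfinitePlace k, 2 ≤ w (a : k) := by
  classical
  -- an integral multiple of `d` by a square
  obtain ⟨m, hm, d', hd'⟩ := exists_nat_mul_int (d : k)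
  have hm0 : (m : k) ≠ 0 := Nat.cast_ne_zero.mpr hm.ne'
  let D : 𝓞 k := m * d'
  have hD : (D : k) = d * (m : k) ^ 2 := by
    change algebraMap (𝓞 k) k (m * d') = _
    rw [map_mul, map_natCast]
    change (m : k) * (d' : k) = _
    rw [hd']
    ring
  have hD0 : (D : k) ≠ 0 := by
    rw [hD]
    exact mul_ne_zero d.ne_zero (pow_ne_zero _ hm0)
  let Du : kˣ := Units.mk0 (D : k) hD0
  let two : kˣ := Units.mk0 2 two_ne_zero
  have hfin := (finite_ne_one Du).union (finite_ne_one two)
  let T := hfin.toFinset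
  have hT : ∀ v, v ∉ T → v.valuation k (D : k) = 1 ∧ v.valuation k (2 : k) = 1 := by
    intro v hv
    rw [Set.Finite.mem_toFinset, Set.mem_union, not_or] at hv
    exact ⟨not_not.mp hv.1, not_not.mp hv.2⟩
  -- residues
  let r : HeightOneSpectrum (𝓞 k) → 𝓞 k := fun v => if v.valuation k (D : k) < 1 then 1 else 0
  obtain ⟨x₀, hx₀⟩ := crt T r 1
  obtain ⟨M, hM, hMT⟩ := exists_nat_lt (k := k) T
  -- `x = x₀ + n M`
  obtain ⟨B, hB⟩ : ∃ B : ℕ, ∀ w : InfinitePlace k, w (x₀ : k) + w (D : k) + 2 ≤ B := by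
    obtain ⟨B, hB⟩ := exists_nat_ge (∑ w : InfinitePlace k, (w (x₀ : k) + w (D : k) + 2))
    refine ⟨B, fun w => le_trans ?_ hB⟩
    refine Finset.single_le_sum (f := fun w : InfinitePlace k => w (x₀ : k) + w (D : k) + 2)
      (fun w _ => ?_) (Finset.mem_univ w)
    have h1 := w.1.nonneg (x₀ : k)
    have h2 := w.1.nonneg (D : k)
    change 0 ≤ w.1 (x₀ : k) + w.1 (D : k) + 2
    linarith
  let x : 𝓞 k := x₀ + (B + B : ℕ) * M
  have hxT : ∀ v ∈ T, v.valuation k ((x : k) - (r v : k)) < 1 := by
    intro v hv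
    have e : (x : k) - (r v : k) = ((x₀ : k) - (r v : k)) + ((B + B : ℕ) : k) * (M : k) := by
      change ((x₀ + (B + B : ℕ) * M : 𝓞 k) : k) - _ = _
      push_cast
      ring
    rw [e]
    refine (v.valuation k).map_add_lt ?_ ?_
    · refine lt_of_le_of_lt (hx₀ v hv) ?_
      rw [← WithZero.exp_zero, WithZero.exp_lt_exp]
      norm_num
    · rw [map_mul]
      exact lt_of_le_of_lt (mul_le_of_le_one_left' (val_nat_le v _)) (hMT v hv)
  refine ⟨x ^ 2 - D, fun v hv => ?_, fun w => ?_⟩
  · have ea : ((x ^ 2 - D : 𝓞 k) : k) = (x : k) ^ 2 - D := by push_cast; ring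
    rw [ea]
    by_cases hvT : v ∈ T
    · have h1 := hxT v hvT
      by_cases h2 : v.valuation k (D : k) < 1
      · have h3 : r v = 1 := if_pos h2
        rw [h3] at h1
        have h1' : v.valuation k ((x : k) - 1) < 1 := by simpa using h1
        have e : (x : k) ^ 2 - D = 1 + (((x : k) - 1) * ((x : k) + 1) - D) := by ring
        rw [e]
        refine Valuation.map_one_add_of_lt _ ?_
        refine (v.valuation k).map_sub_lt ?_ h2
        rw [map_mul]
        refine lt_of_le_of_lt (mul_le_of_le_one_right' ?_) h1'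
        have := val_int_le v (x + 1)
        simpa using this
      · have h3 : r v = 0 := if_neg h2
        rw [h3] at h1
        have h1' : v.valuation k (x : k) < 1 := by simpa using h1
        have h4 : v.valuation k (D : k) = 1 := le_antisymm (val_int_le v D) (not_lt.mp h2)
        have h5 : v.valuation k ((x : k) ^ 2) < v.valuation k (D : k) := by
          rw [h4, map_pow]
          exact pow_lt_one₀ zero_le h1' two_ne_zero
        rw [Valuation.map_sub_eq_of_lt_right _ h5, h4]
    · obtain ⟨h1, h2⟩ := hT v hvT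
      by_contra h3
      have h4 : v.valuation k ((x : k) ^ 2 - D) < 1 := by
        refine lt_of_le_of_ne ?_ h3
        have := val_int_le v (x ^ 2 - D)
        rwa [ea] at this
      -- then `d` is a square at `v`
      apply hv
      have h5 : v.valuation k ((x : k) ^ 2) = 1 := by
        have h6 : v.valuation k ((x : k) ^ 2 - D) < v.valuation k (D : k) := by rwa [h1]
        have := Valuation.map_add_eq_of_lt_left _ h6
        rw [add_sub_cancel] at this
        rw [this, h1]
      have hx0 : (x : k) ≠ 0 := by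
        intro h
        rw [h] at h5
        simp at h5
      have h7 : (m : k) ≠ 0 := hm0
      refine ⟨Units.mk0 ((x : k) / m) (div_ne_zero hx0 h7), ?_⟩
      have h8 : v.valuation k (4 : k) = 1 := by
        have : (4 : k) = 2 * 2 := by norm_num
        rw [this, map_mul, h2, one_mul]
      rw [h8, Units.val_mk0]
      have e : (d : k) / ((x : k) / m) ^ 2 - 1 = -(((x : k) ^ 2 - D) / (x : k) ^ 2) := by
        rw [hD]
        field_simp
        ring
      rw [e, Valuation.map_neg, map_div₀, h5, div_one]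
      exact h4
  · have ea : ((x ^ 2 - D : 𝓞 k) : k) = (x : k) ^ 2 - D := by push_cast; ring
    rw [ea]
    have h1 : (B : ℝ) ≤ w (x : k) := by
      have e : (((B + B : ℕ) : k) * (M : k)) = (x : k) - x₀ := by
        change _ = ((x₀ + (B + B : ℕ) * M : 𝓞 k) : k) - _
        push_cast
        ring
      have h2 : w (((B + B : ℕ) : k) * (M : k)) ≤ w (x : k) + w (x₀ : k) := by
        rw [e]
        exact w.1.sub_le_add _ _
      rw [map_mul, InfinitePlace.map_natCast, InfinitePlace.map_natCast] at h2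
      have h3 : (1 : ℝ) ≤ M := by exact_mod_cast hM
      have h4 := hB w
      have h5 : (0 : ℝ) ≤ w (D : k) := w.1.nonneg _
      have h6 : ((B + B : ℕ) : ℝ) ≤ ((B + B : ℕ) : ℝ) * M :=
        le_mul_of_one_le_right (Nat.cast_nonneg _) h3
      push_cast at h6 h2
      linarith
    have h2 : w ((x : k) ^ 2) ≤ w ((x : k) ^ 2 - D) + w (D : k) := by
      have := w.1.add_le ((x : k) ^ 2 - D) D
      rw [sub_add_cancel] at this
      exact this
    rw [map_pow] at h2
    have h3 := hB w
    have h4 : (0 : ℝ) ≤ w (x₀ : k) := w.1.nonneg _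
    have h5 : (0 : ℝ) ≤ w (D : k) := w.1.nonneg _
    nlinarith

/-- 2C0. An element with split support which is large at infinity. -/
theorem exists_split_elt (d : kˣ) (_S : Finset (HeightOneSpectrum (𝓞 k))) :
    ∃ a : k, (∀ v : HeightOneSpectrum (𝓞 k), d ∉ LS (v.valuation k) → v.valuation k a = 1) ∧
      ∀ w : InfinitePlace k, 2 ≤ w a := by
  obtain ⟨a, h1, h2⟩ := exists_split_elt' d
  exact ⟨a, h1, h2⟩

end Vale.Agent.P011.Two
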