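import Vale.Agent.P011.Two.Step
import Vale.Agent.P011.Two.NearPow

/-!
# P011, rank two, block 2A: the core of a subgroup of finite index has the property `HQ`
-/

open NumberField IsDedekindDomain Module

set_option linter.unusedSectionVars false

namespace Vale.Agent.P011.Two

open Vale.Agent.P011.Arith Vale.Agent.P011.Even Vale.Agent.P011.MPQ

/-- The statement of the theorem for quaternion algebras (target of MPQ). -/
def MPQStatement : Prop :=
  ∀ (F : Type) [Field F] [NumberField F] (a b : Fˣ) (_ : Aniso a b) (N : Subgroup (SL1 a b))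
    (_ : N.Normal) (_ : N.index ≠ 0) (e : ℕ) (_ : 0 < e) (_ : ∀ g : SL1 a b, g ^ e ∈ N)
    (g : SL1 a b), (∀ w : HeightOneSpectrum (𝓞 F), Ram a b w → ∀ ε : Z0, ε ≠ 0 →
      ∃ h ∈ Subgroup.closure {x : SL1 a b | ∃ y : SL1 a b, x = y ^ e},
        w.valuation F (nrd (((g : (Qt a b)ˣ) : Qt a b) - ((h : (Qt a b)ˣ) : Qt a b))) < ε) → g ∈ N

variable {k K D : Type} [Field k] [NumberField k] [Field K] [StarRing K]
  [DivisionRing D] [StarRing D] [Algebra k K] [Algebra k D] [Algebra K D] [IsScalarTower k K D]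
  {d : kˣ} {s : K}

/-- The plane element is determined by its parameters. -/
theorem planeElt_unique {g : D} (hg : star g = g) (han : An g) {F : Type} [Field F]
    [NumberField F] [Algebra k F] {ι : F →ₐ[k] D} {b : Fˣ} {p₀ p₁ q₀ q₁ : F} {y w : D × D}
    {u u' : (D × D) ≃ₗ[D] (D × D)} (h : PlaneElt d s g ι b p₀ p₁ q₀ q₁ y w u)
    (h' : PlaneElt d s g ι b p₀ p₁ q₀ q₁ y w u') : u = u' := by
  have hy : y ≠ 0 := by
    rintro rfl
    have := h.yy
    simp [hh] at this
  have hw : w ≠ 0 := by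
    rintro rfl
    have h0 : ι (b : F) ≠ 0 := by
      rw [ne_eq, map_eq_zero]
      exact b.ne_zero
    apply h0
    rw [← h.ww]
    simp [hh]
  obtain ⟨E, hE⟩ := exists_basis hg han hy hw h.yw
  ext1 x
  obtain ⟨⟨a, c⟩, rfl⟩ := E.surjective x
  rw [hE, map_add, map_smul, map_smul, map_add, map_smul, map_smul, h.uy, h'.uy, h.uw, h'.uw]

/-- Composition of plane elements. -/
theorem planeElt_mul (hS : Setting k K D d s) {g : D} {F : Type} [Field F]
    [NumberField F] [Algebra k F] {ι : F →ₐ[k] D} {b : Fˣ} {p₀ p₁ q₀ q₁ p₀' p₁' q₀' q₁' : F}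
    {y w : D × D} {u u' : (D × D) ≃ₗ[D] (D × D)} (h : PlaneElt d s g ι b p₀ p₁ q₀ q₁ y w u)
    (h' : PlaneElt d s g ι b p₀' p₁' q₀' q₁' y w u')
    {P₀ P₁ Q₀ Q₁ : F}
    (e1 : P₀ = p₀' * p₀ + algebraMap k F d * (p₁' * p₁) -
      b * (q₀' * q₀ - algebraMap k F d * (q₁' * q₁)))
    (e2 : P₁ = p₀' * p₁ + p₁' * p₀ - b * (q₁' * q₀ - q₀' * q₁))
    (e3 : Q₀ = p₀' * q₀ + algebraMap k F d * (p₁' * q₁) + (q₀' * p₀ - algebraMap k F d * (q₁' * p₁)))
    (e4 : Q₁ = p₀' * q₁ + p₁' * q₀ + (q₁' * p₀ - q₀' * p₁)) :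
    PlaneElt d s g ι b P₀ P₁ Q₀ Q₁ y w (u * u') := by
  have hy := h.uy
  have hw := h.uw
  have hy' := h'.uy
  have hw' := h'.uw
  change u y = lc ι s p₀ p₁ • y + lc ι s q₀ q₁ • w at hy
  change u' y = lc ι s p₀' p₁' • y + lc ι s q₀' q₁' • w at hy'
  have hR : ∀ a c : F, -(ι b * (ι a - ι c * algebraMap K D s)) = lc ι s (-(b * a)) (b * c) := by
    intro a c
    unfold lc
    simp only [map_neg, map_mul]
    noncomm_ring
  have hP : ∀ a c : F, ι a - ι c * algebraMap K D s = lc ι s a (-c) := by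
    intro a c
    unfold lc
    simp only [map_neg]
    noncomm_ring
  rw [hR, hP] at hw hw'
  refine ⟨h.sym, h.yy, h.yw, h.ww, ?_, ?_, ?_⟩
  · have n1 := h.nrm
    have n2 := h'.nrm
    subst e1 e2 e3 e4
    linear_combination n1 * (p₀' ^ 2 - algebraMap k F d * p₁' ^ 2 +
      b * (q₀' ^ 2 - algebraMap k F d * q₁' ^ 2)) + n2
  · change u (u' y) = lc ι s P₀ P₁ • y + lc ι s Q₀ Q₁ • w
    rw [hy', map_add, map_smul, map_smul, hy, hw, smul_add, smul_add, smul_smul, smul_smul,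
      smul_smul, smul_smul, lc_mul ι hS, lc_mul ι hS, lc_mul ι hS, lc_mul ι hS]
    have : ∀ a c e f : D, a • y + c • w + (e • y + f • w) = (a + e) • y + (c + f) • w := by
      intro a c e f
      rw [add_smul, add_smul]
      abel
    rw [this, lc_add, lc_add]
    congr 3
    · rw [e1]
      ring
    · rw [e2]
      ring
    · rw [e3]
      ring
    · rw [e4]
      ring
  · change u (u' w) = _
    rw [hR, hP, hw', map_add, map_smul, map_smul, hy, hw, smul_add, smul_add, smul_smul,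
      smul_smul, smul_smul, smul_smul, lc_mul ι hS, lc_mul ι hS, lc_mul ι hS, lc_mul ι hS]
    have : ∀ a c e f : D, a • y + c • w + (e • y + f • w) = (a + e) • y + (c + f) • w := by
      intro a c e f
      rw [add_smul, add_smul]
      abel
    rw [this, lc_add, lc_add]
    congr 3
    · rw [e3]
      ring
    · rw [e4]
      ring
    · rw [e1]
      ring
    · rw [e2]
      ring

/-- Plane elements are isometries. -/
theorem planeElt_mem (hS : Setting k K D d s) {g : D} (hg : star g = g) (han : An g) {F : Type}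
    [Field F] [NumberField F] [Algebra k F] {ι : F →ₐ[k] D} {b : Fˣ} {p₀ p₁ q₀ q₁ : F}
    {y w : D × D} {u : (D × D) ≃ₗ[D] (D × D)} (h : PlaneElt d s g ι b p₀ p₁ q₀ q₁ y w u) :
    u ∈ Uh g := by
  have hy : y ≠ 0 := by
    rintro rfl
    have := h.yy
    simp [hh] at this
  have hw0 : w ≠ 0 := by
    rintro rfl
    have h0 : ι (b : F) ≠ 0 := by
      rw [ne_eq, map_eq_zero]
      exact b.ne_zero
    apply h0
    rw [← h.ww]
    simp [hh]
  obtain ⟨E, hE⟩ := exists_basis hg han hy hw0 h.yw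
  have huy := h.uy
  have huw := h.uw
  change u y = lc ι s p₀ p₁ • y + lc ι s q₀ q₁ • w at huy
  have hR : ∀ a c : F, -(ι b * (ι a - ι c * algebraMap K D s)) = lc ι s (-(b * a)) (b * c) := by
    intro a c
    unfold lc
    simp only [map_neg, map_mul]
    noncomm_ring
  have hP : ∀ a c : F, ι a - ι c * algebraMap K D s = lc ι s a (-c) := by
    intro a c
    unfold lc
    simp only [map_neg]
    noncomm_ring
  rw [hR, hP] at huw
  have hwy : hh g w y = 0 := by rw [← hh_star hg, h.yw, star_zero]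
  have hb : ι (b : F) = lc ι s (b : F) 0 := (lc_zero_right ι (b : F)).symm
  have n1 := h.nrm
  -- the four values
  have v1 : hh g (u y) (u y) = 1 := by
    rw [huy]
    simp only [hh_add_left, hh_add_right, hh_smul_left, hh_smul_right, h.yy, h.yw, h.ww, hwy,
      star_lc ι hS h.sym, hb, mul_one, mul_zero, add_zero, zero_add]
    rw [lc_mul ι hS, lc_mul ι hS, lc_mul ι hS, lc_add, ← lc_one ι (s := s)]
    congr 1
    · linear_combination n1
    · ring
  have v2 : hh g (u y) (u w) = 0 := by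
    rw [huy, huw]
    simp only [hh_add_left, hh_add_right, hh_smul_left, hh_smul_right, h.yy, h.yw, h.ww, hwy,
      star_lc ι hS h.sym, hb, mul_one, mul_zero, add_zero, zero_add]
    rw [lc_mul ι hS, lc_mul ι hS, lc_mul ι hS, lc_add, ← lc_zero ι (s := s)]
    congr 1
    · ring
    · ring
  have v3 : hh g (u w) (u w) = ι b := by
    rw [huw]
    simp only [hh_add_left, hh_add_right, hh_smul_left, hh_smul_right, h.yy, h.yw, h.ww, hwy,
      star_lc ι hS h.sym, hb, mul_one, mul_zero, add_zero, zero_add]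
    rw [lc_mul ι hS, lc_mul ι hS, lc_mul ι hS, lc_add]
    congr 1
    · linear_combination (b : F) * n1
    · ring
  have v2' : hh g (u w) (u y) = 0 := by rw [← hh_star hg, v2, star_zero]
  intro x x'
  obtain ⟨⟨a, c⟩, rfl⟩ := E.surjective x
  obtain ⟨⟨a', c'⟩, rfl⟩ := E.surjective x'
  rw [hE, hE]
  simp only [map_add, map_smul, hh_add_left, hh_add_right, hh_smul_left, hh_smul_right, v1, v2,
    v2', v3, h.yy, h.yw, hwy, h.ww]

/-- Conjugates of plane elements. -/
theorem planeElt_conj {g : D} {F : Type} [Field F]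
    [NumberField F] [Algebra k F] {ι : F →ₐ[k] D} {b : Fˣ} {p₀ p₁ q₀ q₁ : F} {y w : D × D}
    {u : (D × D) ≃ₗ[D] (D × D)} (h : PlaneElt d s g ι b p₀ p₁ q₀ q₁ y w u)
    {v : (D × D) ≃ₗ[D] (D × D)} (hv : v ∈ Uh g) :
    PlaneElt d s g ι b p₀ p₁ q₀ q₁ (v y) (v w) (v * u * v⁻¹) := by
  have hvi : ∀ x, v⁻¹ (v x) = x := fun x => v.symm_apply_apply x
  refine ⟨h.sym, ?_, ?_, ?_, h.nrm, ?_, ?_⟩
  · rw [hv, h.yy]
  · rw [hv, h.yw]
  · rw [hv, h.ww]
  · change v (u (v⁻¹ (v y))) = _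
    rw [hvi, h.uy, map_add, map_smul, map_smul]
  · change v (u (v⁻¹ (v w))) = _
    rw [hvi, h.uw, map_add, map_smul, map_smul]

section hom

variable {F : Type} [Field F] [NumberField F] [Algebra k F]

/-- The quaternion algebra of the plane is a division algebra. -/
theorem aniso_plane (hS : Setting k K D d s) {g : D} (hg : star g = g) (han : An g)
    {ι : F →ₐ[k] D} (sym : ∀ x, star (ι x) = ι x) {b : Fˣ} {y w : D × D} (yy : hh g y y = 1)
    (yw : hh g y w = 0) (ww : hh g w w = ι b) : Aniso (inc k F d) (-b) := by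
  intro x hx
  have hwy : hh g w y = 0 := by rw [← hh_star hg, yw, star_zero]
  have hb : ι (b : F) = lc ι s (b : F) 0 := (lc_zero_right ι (b : F)).symm
  have hy : y ≠ 0 := by
    rintro rfl
    simp [hh] at yy
  have hw0 : w ≠ 0 := by
    rintro rfl
    have h0 : ι (b : F) ≠ 0 := by
      rw [ne_eq, map_eq_zero]
      exact b.ne_zero
    apply h0
    rw [← ww]
    simp [hh]
  obtain ⟨E, hE⟩ := exists_basis hg han hy hw0 yw
  have hn : x.re ^ 2 - algebraMap k F d * x.imI ^ 2 +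
      b * (x.imJ ^ 2 - algebraMap k F d * x.imK ^ 2) = 0 := by
    have : nrd x = x.re ^ 2 - algebraMap k F d * x.imI ^ 2 +
        b * (x.imJ ^ 2 - algebraMap k F d * x.imK ^ 2) := by
      simp only [nrd, inc, Units.coe_map, Units.val_neg]
      change x.re ^ 2 - algebraMap k F d * x.imI ^ 2 - -(b : F) * x.imJ ^ 2 +
        algebraMap k F d * -(b : F) * x.imK ^ 2 = _
      ring
    rw [← this, hx]
  have h0 : E (lc ι s x.re x.imI, lc ι s x.imJ x.imK) = 0 := by
    apply han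
    rw [hE]
    simp only [hh_add_left, hh_add_right, hh_smul_left, hh_smul_right, yy, yw, ww, hwy,
      star_lc ι hS sym, hb, mul_one, mul_zero, add_zero, zero_add]
    rw [lc_mul ι hS, lc_mul ι hS, lc_mul ι hS, lc_add, ← lc_zero ι (s := s)]
    congr 1
    · linear_combination hn
    · ring
  have h1 : (lc ι s x.re x.imI, lc ι s x.imJ x.imK) = 0 := by
    apply E.injective
    rw [h0, map_zero]
  have hsD : algebraMap K D s ≠ 0 := by
    rw [ne_eq, map_eq_zero]
    intro h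
    have := hS.sq
    rw [h, zero_pow two_ne_zero] at this
    exact d.ne_zero ((map_eq_zero _).mp this.symm)
  have key : ∀ p q : F, lc ι s p q = 0 → p = 0 ∧ q = 0 := by
    intro p q h
    have h' := congrArg star h
    rw [star_lc ι hS sym, star_zero] at h'
    have h2 : lc ι s p q + lc ι s p (-q) = 0 := by rw [h, h', add_zero]
    rw [lc_add, add_neg_cancel, lc_zero_right, map_eq_zero] at h2
    have hp : p = 0 := by
      have : (2 : F) * p = 0 := by rw [two_mul]; exact h2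
      exact (mul_eq_zero.mp this).resolve_left two_ne_zero
    refine ⟨hp, ?_⟩
    rw [hp] at h
    unfold lc at h
    rw [map_zero, zero_add] at h
    have := (mul_eq_zero.mp h).resolve_right hsD
    rwa [map_eq_zero] at this
  rw [Prod.mk_eq_zero] at h1
  obtain ⟨h2, h3⟩ := h1
  obtain ⟨r1, r2⟩ := key _ _ h2
  obtain ⟨r3, r4⟩ := key _ _ h3
  ext <;> assumption

end hom

section quat

variable {F : Type} [Field F] {a b : Fˣ} {A B : F}

theorem qt_re (ha : (a : F) = A) (hb : (b : F) = -B) (x y : Qt a b) :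
    (x * y).re = x.re * y.re + A * (x.imI * y.imI) - B * (x.imJ * y.imJ - A * (x.imK * y.imK)) := by
  rw [QuaternionAlgebra.re_mul]
  linear_combination (x.imI * y.imI - b * (x.imK * y.imK)) * ha +
    (x.imJ * y.imJ - A * (x.imK * y.imK)) * hb

theorem qt_imI (hb : (b : F) = -B) (x y : Qt a b) :
    (x * y).imI = x.re * y.imI + x.imI * y.re - B * (x.imK * y.imJ - x.imJ * y.imK) := by
  rw [QuaternionAlgebra.imI_mul]
  linear_combination (x.imK * y.imJ - x.imJ * y.imK) * hb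

theorem qt_imJ (ha : (a : F) = A) (x y : Qt a b) :
    (x * y).imJ = x.re * y.imJ + A * (x.imI * y.imK) + (x.imJ * y.re - A * (x.imK * y.imI)) := by
  rw [QuaternionAlgebra.imJ_mul]
  linear_combination (x.imI * y.imK - x.imK * y.imI) * ha

theorem qt_imK (x y : Qt a b) :
    (x * y).imK = x.re * y.imK + x.imI * y.imJ + (x.imK * y.re - x.imJ * y.imI) := by
  rw [QuaternionAlgebra.imK_mul]
  ring

/-- The unit with given coordinates and norm one. -/
def mkUnit (ha : (a : F) = A) (hb : (b : F) = -B) (p₀ p₁ q₀ q₁ : F)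
    (n : p₀ ^ 2 - A * p₁ ^ 2 + B * (q₀ ^ 2 - A * q₁ ^ 2) = 1) : (Qt a b)ˣ where
  val := ⟨p₀, p₁, q₀, q₁⟩
  inv := ⟨p₀, -p₁, -q₀, -q₁⟩
  val_inv := by
    ext
    · rw [qt_re ha hb, QuaternionAlgebra.re_one]
      linear_combination n
    · rw [qt_imI hb, QuaternionAlgebra.imI_one]
      ring
    · rw [qt_imJ ha, QuaternionAlgebra.imJ_one]
      ring
    · rw [qt_imK, QuaternionAlgebra.imK_one]
      ring
  inv_val := by
    ext
    · rw [qt_re ha hb, QuaternionAlgebra.re_one]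
      linear_combination n
    · rw [qt_imI hb, QuaternionAlgebra.imI_one]
      ring
    · rw [qt_imJ ha, QuaternionAlgebra.imJ_one]
      ring
    · rw [qt_imK, QuaternionAlgebra.imK_one]
      ring

end quat

/-- The core of a subgroup. -/
def coreOf {G : Type} [Group G] (U N₀ : Subgroup G) : Subgroup G where
  carrier := {x | ∀ v ∈ U, v * x * v⁻¹ ∈ N₀}
  mul_mem' := by
    intro x x' hx hx' v hv
    have h := N₀.mul_mem (hx v hv) (hx' v hv)
    have e1 : v * x * v⁻¹ * (v * x' * v⁻¹) = v * (x * x') * v⁻¹ := by group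
    rwa [e1] at h
  one_mem' := by
    intro v hv
    rw [mul_one, mul_inv_cancel]
    exact N₀.one_mem
  inv_mem' := by
    intro x hx v hv
    have h := N₀.inv_mem (hx v hv)
    have e1 : (v * x * v⁻¹)⁻¹ = v * x⁻¹ * v⁻¹ := by group
    rwa [e1] at h

theorem coreOf_le {G : Type} [Group G] (U N₀ : Subgroup G) : coreOf U N₀ ≤ N₀ := by
  intro x hx
  have h := hx 1 U.one_mem
  rwa [one_mul, inv_one, mul_one] at h

theorem coreOf_normal {G : Type} [Group G] (U N₀ : Subgroup G) :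
    ∀ v ∈ U, ∀ x ∈ coreOf U N₀, v * x * v⁻¹ ∈ coreOf U N₀ := by
  intro v hv x hx v' hv'
  have h := hx (v' * v) (U.mul_mem hv' hv)
  have e1 : v' * v * x * (v' * v)⁻¹ = v' * (v * x * v⁻¹) * v'⁻¹ := by group
  rwa [e1] at h

/-- The core of a subgroup of finite index has the property `HQ`, with the explicit core. -/
theorem hq_coreOf (hM : MPQStatement) (hS : Setting k K D d s) {g : D} (hg : star g = g)
    (han : An g) (G₀ N₀ : Subgroup ((D × D) ≃ₗ[D] (D × D)))
    (hGp : ∀ (F : Type) [Field F] [NumberField F] [Algebra k F] (ι : F →ₐ[k] D) (b : Fˣ)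
      (p₀ p₁ q₀ q₁ : F) (y w : D × D) (u : (D × D) ≃ₗ[D] (D × D)),
      PlaneElt d s g ι b p₀ p₁ q₀ q₁ y w u → u ∈ G₀)
    (hNn : ∀ v ∈ G₀, ∀ x ∈ N₀, v * x * v⁻¹ ∈ N₀) (hfin : N₀.relIndex G₀ ≠ 0)
    (e : ℕ) (he : 0 < e) (hexp : ∀ x ∈ G₀, x ^ e ∈ N₀) :
    HQ d s g e (coreOf (Uh g) N₀) := by
  -- the elements close to one lie in `N₀`
  have key : ∀ (F : Type) [Field F] [NumberField F] [Algebra k F] (ι : F →ₐ[k] D) (b : Fˣ)
      (p₀ p₁ q₀ q₁ : F) (y w : D × D) (u : (D × D) ≃ₗ[D] (D × D)),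
      PlaneElt d s g ι b p₀ p₁ q₀ q₁ y w u →
      (∀ ω : HeightOneSpectrum (𝓞 F), -b ∉ NF (inc k F d) ⊔ LS (ω.valuation F) →
        ω.valuation F (2 - 2 * p₀) < ω.valuation F (4 * (e : F) ^ 4)) → u ∈ N₀ := by
    intro F _ _ _ ι b p₀ p₁ q₀ q₁ y w u hu hloc
    have hA : Aniso (inc k F d) (-b) := aniso_plane hS hg han hu.sym hu.yy hu.yw hu.ww
    have hnrd : ∀ x : Qt (inc k F d) (-b), nrd x = x.re ^ 2 - algebraMap k F d * x.imI ^ 2 +
        b * (x.imJ ^ 2 - algebraMap k F d * x.imK ^ 2) := by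
      intro x
      simp only [nrd, inc, Units.coe_map, Units.val_neg]
      change x.re ^ 2 - algebraMap k F d * x.imI ^ 2 - -(b : F) * x.imJ ^ 2 +
        algebraMap k F d * -(b : F) * x.imK ^ 2 = _
      ring
    have hd : ((inc k F d : Fˣ) : F) = algebraMap k F d := rfl
    have hb : ((-b : Fˣ) : F) = -(b : F) := rfl
    have hex : ∀ x : SL1 (inc k F d) (-b), ∃ v : (D × D) ≃ₗ[D] (D × D),
        PlaneElt d s g ι b (((x : (Qt (inc k F d) (-b))ˣ) : Qt (inc k F d) (-b))).re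
          (((x : (Qt (inc k F d) (-b))ˣ) : Qt (inc k F d) (-b))).imI
          (((x : (Qt (inc k F d) (-b))ˣ) : Qt (inc k F d) (-b))).imJ
          (((x : (Qt (inc k F d) (-b))ˣ) : Qt (inc k F d) (-b))).imK y w v := by
      intro x
      refine exists_rot ι hS hg han hu.sym b _ _ _ _ hu.yy hu.yw hu.ww ?_
      rw [← hnrd]
      exact x.2
    choose Ψ hΨ using hex
    have hmul : ∀ x x' : SL1 (inc k F d) (-b), Ψ (x * x') = Ψ x' * Ψ x := by
      intro x x'
      refine planeElt_unique hg han (hΨ _) (planeElt_mul hS (hΨ x') (hΨ x) ?_ ?_ ?_ ?_)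
      · rw [Subgroup.coe_mul, Units.val_mul, qt_re hd hb]
      · rw [Subgroup.coe_mul, Units.val_mul, qt_imI hb]
      · rw [Subgroup.coe_mul, Units.val_mul, qt_imJ hd]
      · rw [Subgroup.coe_mul, Units.val_mul, qt_imK]
    have hone : Ψ 1 = 1 := by
      have h := hmul 1 1
      rw [mul_one] at h
      exact (mul_eq_left.mp h.symm)
    let Φ : SL1 (inc k F d) (-b) →* ((D × D) ≃ₗ[D] (D × D)) :=
      { toFun := fun x => Ψ x⁻¹
        map_one' := by rw [inv_one, hone]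
        map_mul' := fun x x' => by rw [mul_inv_rev, hmul] }
    have hΦG : ∀ x, Φ x ∈ G₀ := fun x => hGp F ι b _ _ _ _ y w _ (hΨ x⁻¹)
    have hΦi : ∀ x, Φ x = (Ψ x)⁻¹ := by
      intro x
      have h := hmul x x⁻¹
      rw [mul_inv_cancel, hone] at h
      exact (inv_eq_of_mul_eq_one_left h.symm).symm
    set N' : Subgroup (SL1 (inc k F d) (-b)) := N₀.comap Φ with hN'
    have hnorm : N'.Normal := by
      refine ⟨fun x hx v => ?_⟩
      rw [hN', Subgroup.mem_comap, map_mul, map_mul, map_inv]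
      exact hNn _ (hΦG v) _ hx
    have hindex : N'.index ≠ 0 := by
      rw [hN', Subgroup.index_comap]
      intro h
      apply hfin
      apply Subgroup.relIndex_eq_zero_of_le_right _ h
      rintro _ ⟨x, rfl⟩
      exact hΦG x
    have hpow : ∀ x, x ^ e ∈ N' := by
      intro x
      rw [hN', Subgroup.mem_comap, map_pow]
      exact hexp _ (hΦG x)
    have hq : nrd (⟨p₀, p₁, q₀, q₁⟩ : Qt (inc k F d) (-b)) = 1 := by
      rw [hnrd]
      exact hu.nrm
    let x₀ : (Qt (inc k F d) (-b))ˣ := mkUnit hd hb p₀ p₁ q₀ q₁ hu.nrm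
    let x₁ : SL1 (inc k F d) (-b) := ⟨x₀, hq⟩
    have hmem : x₁ ∈ N' := by
      refine hM F _ _ hA N' hnorm hindex e he hpow x₁ fun ω hω ε hε => ?_
      obtain ⟨h, hh⟩ := near_pow hA e he x₁ ω hω (hloc ω hω) ε hε
      exact ⟨h ^ e, Subgroup.subset_closure ⟨h, rfl⟩, hh⟩
    have h1 : Φ x₁ ∈ N₀ := hmem
    rw [hΦi] at h1
    have h2 : u = Ψ x₁ := planeElt_unique hg han hu (hΨ x₁)
    rw [h2]
    exact (N₀.inv_mem_iff).mp h1
  intro F _ _ _ ι b p₀ p₁ q₀ q₁ y w u hu hloc v hv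
  exact key F ι b p₀ p₁ q₀ q₁ _ _ _ (planeElt_conj hu hv) hloc

/-- 2A. The core of a subgroup of finite index has the property `HQ`. -/
theorem hq_core (hM : MPQStatement) (hS : Setting k K D d s) {g : D} (hg : star g = g)
    (han : An g) (G₀ N₀ : Subgroup ((D × D) ≃ₗ[D] (D × D))) (_hG : G₀ ≤ Uh g)
    (_hGn : ∀ v ∈ Uh g, ∀ x ∈ G₀, v * x * v⁻¹ ∈ G₀)
    (hGp : ∀ (F : Type) [Field F] [NumberField F] [Algebra k F] (ι : F →ₐ[k] D) (b : Fˣ)
      (p₀ p₁ q₀ q₁ : F) (y w : D × D) (u : (D × D) ≃ₗ[D] (D × D)),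
      PlaneElt d s g ι b p₀ p₁ q₀ q₁ y w u → u ∈ G₀)
    (_hN : N₀ ≤ G₀) (hNn : ∀ v ∈ G₀, ∀ x ∈ N₀, v * x * v⁻¹ ∈ N₀) (hfin : N₀.relIndex G₀ ≠ 0)
    (e : ℕ) (he : 0 < e) (hexp : ∀ x ∈ G₀, x ^ e ∈ N₀) :
    ∃ N ≤ N₀, (∀ v ∈ Uh g, ∀ x ∈ N, v * x * v⁻¹ ∈ N) ∧ HQ d s g e N := by
  exact ⟨coreOf (Uh g) N₀, coreOf_le _ _, coreOf_normal _ _,
    hq_coreOf hM hS hg han G₀ N₀ hGp hNn hfin e he hexp⟩

end Vale.Agent.P011.Two
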