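import Vale.Agent.P011.Even.Pattern
import Vale.Agent.P011.Arith.Quad

/-!
# P011, rank two: elements of given norm close to the square root (for block 2B)
-/

open NumberField IsDedekindDomain

namespace Vale.Agent.P011.Two

open Vale.Agent.P011.Arith Vale.Agent.P011.Even

section loc

variable {F : Type} [Field F] [CharZero F] (w : Valuation F Z0)

/-- An element close to `1` has an approximate square root close to `1`. -/
theorem exists_sqrt (c : F) (hc : w (1 - c) < w 4) {β : Z0} (hβ : β ≠ 0) :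
    ∃ γ : F, w (γ - 1) < w 2 ∧ w (c - γ ^ 2) < β := by
  have h4 : w 4 ≤ 1 := val_four_le w
  have hc1 : w c = 1 := by
    have h1 : w (c - 1) < 1 := by
      rw [← w.map_neg, neg_sub]
      exact lt_of_lt_of_le hc h4
    have := w.map_one_add_of_lt h1
    rwa [add_sub_cancel] at this
  have hc0 : c ≠ 0 := by
    rintro rfl
    simp at hc1
  have hLS : Units.mk0 c hc0 ∈ LS w := by
    refine LS_of_close ?_
    rw [Units.val_mk0, ← w.map_neg, neg_sub]
    exact hc
  have hβ0 : 0 < β := zero_lt_iff.mpr hβ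
  have h40 : 0 < w (4 : F) := zero_lt_iff.mpr (val_four_ne w)
  obtain ⟨y, hy⟩ := LS_newton' hLS (γ := min β (w 4)) (lt_min hβ0 h40).ne'
  rw [Units.val_mk0, lt_min_iff] at hy
  have hyu : w ((c : F) / (y : F) ^ 2) = 1 := by
    have := w.map_one_add_of_lt (x := (c : F) / (y : F) ^ 2 - 1) (lt_of_lt_of_le hy.2 h4)
    rwa [add_sub_cancel] at this
  have hy1 : w ((y : F) ^ 2) = 1 := by
    have h0 : (y : F) ≠ 0 := y.ne_zero
    rw [map_div₀, hc1, div_eq_one_iff_eq] at hyu
    · exact hyu.symm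
    · rw [Valuation.ne_zero_iff]
      exact pow_ne_zero 2 h0
  have hcy : ∀ {δ : Z0}, w ((c : F) / (y : F) ^ 2 - 1) < δ → w (c - (y : F) ^ 2) < δ := by
    intro δ hδ
    have h0 : (y : F) ≠ 0 := y.ne_zero
    have e : c - (y : F) ^ 2 = (c / (y : F) ^ 2 - 1) * (y : F) ^ 2 := by
      field_simp
    rw [e, map_mul, hy1, mul_one]
    exact hδ
  have h1 : w (((y : F) - 1) * ((y : F) + 1)) < w 4 := by
    have e : ((y : F) - 1) * ((y : F) + 1) = -(c - (y : F) ^ 2) - (1 - c) := by ring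
    rw [e]
    refine w.map_sub_lt ?_ hc
    rw [w.map_neg]
    exact hcy hy.2
  have h2 : w ((y : F) - 1) < w 2 ∨ w ((y : F) + 1) < w 2 := by
    by_contra hcon
    push Not at hcon
    have : w 4 ≤ w (((y : F) - 1) * ((y : F) + 1)) := by
      rw [map_mul, val_four_eq, sq]
      exact mul_le_mul' hcon.1 hcon.2
    exact absurd h1 (not_lt.mpr this)
  rcases h2 with h2 | h2
  · exact ⟨y, h2, hcy hy.1⟩
  · refine ⟨-y, ?_, ?_⟩
    · have : (-(y : F) - 1) = -((y : F) + 1) := by ring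
      rw [this, w.map_neg]
      exact h2
    · rw [neg_sq]
      exact hcy hy.1

/-- The local estimate. -/
theorem local_est {d c a₀ a₁ lam γ τ : F} (hτ : w τ ≤ w 4) (hc : w (1 - c) < w τ)
    (hlam : (w 2 ≤ w (1 + a₀) ∧ w (lam * a₁ * d) < 1 ∧ w (lam ^ 2 * d * a₀) < w 2 ∧
        w (lam ^ 2 * d) < w 2) ∨
      (w (1 + a₀) < w 2 ∧ w a₁ < w lam ∧ 1 ≤ w (lam ^ 2 * d)))
    (hγ : w (γ - 1) < w 2) (hΔ : w (c - γ ^ 2) < w τ)
    (hΔ' : w ((c - γ ^ 2) * (1 - d * lam ^ 2)) < w 4)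
    (M : F) (A : F) (hA : A = (γ + a₀) + 2 * lam * a₁ * d + lam ^ 2 * d * (a₀ - γ))
    (hM : M = 2 * γ * A + (c - γ ^ 2) * (1 - d * lam ^ 2)) :
    M ≠ 0 ∧ w (2 - 2 * (γ + (c - γ ^ 2) * A / M)) < w τ := by
  have h2le : w 2 ≤ 1 := val_two_le w
  have h20 : w (2 : F) ≠ 0 := val_two_ne w
  have h2pos : 0 < w (2 : F) := zero_lt_iff.mpr h20
  have hγ1 : w γ = 1 := by
    have := w.map_one_add_of_lt (x := γ - 1) (lt_of_lt_of_le hγ h2le)
    rwa [add_sub_cancel] at this
  -- `A` is not small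
  have hA2 : w 2 ≤ w A := by
    rcases hlam with ⟨h1, h2, h3, h4⟩ | ⟨h1, h2, h3⟩
    · have e1 : w (γ + a₀) = w (1 + a₀) := by
        have : γ + a₀ = (1 + a₀) + (γ - 1) := by ring
        rw [this]
        exact w.map_add_eq_of_lt_left (lt_of_lt_of_le hγ h1)
      have e2 : w (2 * lam * a₁ * d) < w 2 := by
        have : 2 * lam * a₁ * d = 2 * (lam * a₁ * d) := by ring
        rw [this, map_mul]
        exact mul_lt_of_lt_one_right h2pos h2
      have e3 : w (lam ^ 2 * d * (a₀ - γ)) < w 2 := by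
        rw [mul_sub]
        refine w.map_sub_lt h3 ?_
        rw [map_mul, hγ1, mul_one]
        exact h4
      have e4 : w (2 * lam * a₁ * d + lam ^ 2 * d * (a₀ - γ)) < w (γ + a₀) := by
        rw [e1]
        exact lt_of_lt_of_le (w.map_add_lt e2 e3) h1
      rw [hA, add_assoc, w.map_add_eq_of_lt_left e4, e1]
      exact h1
    · have e1 : w (γ + a₀) < w 2 := by
        have : γ + a₀ = (1 + a₀) + (γ - 1) := by ring
        rw [this]
        exact w.map_add_lt h1 hγ
      have e2 : w (a₀ - γ) = w 2 := by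
        have : a₀ - γ = -(2 * γ) + (γ + a₀) := by ring
        rw [this]
        have h2γ : w (-(2 * γ)) = w 2 := by rw [w.map_neg, map_mul, hγ1, mul_one]
        rw [w.map_add_eq_of_lt_left (by rw [h2γ]; exact e1), h2γ]
      have e3 : w (lam ^ 2 * d * (a₀ - γ)) = w (lam ^ 2 * d) * w 2 := by
        rw [map_mul, e2]
      have e4 : w 2 ≤ w (lam ^ 2 * d * (a₀ - γ)) := by
        rw [e3]
        exact le_mul_of_one_le_left' h3
      have hlam0 : w lam ≠ 0 := by
        intro h0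
        rw [map_mul, map_pow, h0] at h3
        simp at h3
      have hd0 : w d ≠ 0 := by
        intro h0
        rw [map_mul, h0, mul_zero] at h3
        simp at h3
      have e5 : w (2 * lam * a₁ * d) < w (lam ^ 2 * d * (a₀ - γ)) := by
        rw [e3, map_mul, map_mul, map_mul, map_mul, map_pow]
        have : w lam * w a₁ < w lam ^ 2 := by
          rw [sq]
          exact mul_lt_mul_of_pos_left h2 (zero_lt_iff.mpr hlam0)
        calc w 2 * w lam * w a₁ * w d = (w lam * w a₁) * (w d * w 2) := by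
              rw [mul_assoc (w 2), mul_comm (w 2), mul_assoc, mul_comm (w 2)]
          _ < w lam ^ 2 * (w d * w 2) :=
            mul_lt_mul_of_pos_right this (mul_pos (zero_lt_iff.mpr hd0) h2pos)
          _ = w lam ^ 2 * w d * w 2 := by rw [mul_assoc]
      have e6 : w (γ + a₀ + 2 * lam * a₁ * d) < w (lam ^ 2 * d * (a₀ - γ)) :=
        w.map_add_lt (lt_of_lt_of_le e1 e4) e5
      rw [hA, w.map_add_eq_of_lt_right e6]
      exact e4
  -- `M`
  have hM1 : w M = w 2 * w A := by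
    have e1 : w (2 * γ * A) = w 2 * w A := by rw [map_mul, map_mul, hγ1, mul_one]
    have e2 : w 4 ≤ w (2 * γ * A) := by
      rw [e1, val_four_eq, sq]
      exact mul_le_mul_right hA2 _
    rw [hM, w.map_add_eq_of_lt_left (lt_of_lt_of_le hΔ' e2), e1]
  have hA0 : w A ≠ 0 := fun h => by
    rw [h] at hA2
    exact h20 (le_zero_iff.mp hA2)
  have hM0 : M ≠ 0 := by
    rw [← Valuation.ne_zero_iff w, hM1]
    exact mul_ne_zero h20 hA0
  refine ⟨hM0, ?_⟩
  have e1 : w (2 * ((c - γ ^ 2) * A / M)) < w τ := by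
    rw [map_mul, map_div₀, map_mul, hM1]
    have : w 2 * (w (c - γ ^ 2) * w A / (w 2 * w A)) = w (c - γ ^ 2) := by
      rw [mul_div_assoc', mul_left_comm, mul_div_assoc, div_self (mul_ne_zero h20 hA0), mul_one]
    rw [this]
    exact hΔ
  have e2 : w (2 * (1 - γ)) < w τ := by
    have h1γ : w (1 + γ) = w 2 := by
      have : 1 + γ = 2 + (γ - 1) := by ring
      rw [this]
      exact w.map_add_eq_of_lt_left hγ
    have e3 : w (2 * (1 - γ)) = w ((1 + γ) * (1 - γ)) := by rw [map_mul, map_mul, h1γ]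
    rw [e3]
    have e4 : (1 + γ) * (1 - γ) = (1 - c) + (c - γ ^ 2) := by ring
    rw [e4]
    exact w.map_add_lt hc hΔ
  have e3 : 2 - 2 * (γ + (c - γ ^ 2) * A / M) = 2 * (1 - γ) - 2 * ((c - γ ^ 2) * A / M) := by ring
  rw [e3]
  exact w.map_sub_lt e2 e1

end loc

variable {F : Type} [Field F] [NumberField F]

/-- Elements of norm `c` which are close to the square root of `c` at finitely many places where
`c` is close to one. -/
theorem norm_near (d c : Fˣ) (hc : c ∈ NF d) (B : Finset (HeightOneSpectrum (𝓞 F))) (e : ℕ)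
    (he : 0 < e)
    (hB : ∀ ω ∈ B, ω.valuation F (1 - c) < ω.valuation F (4 * (e : F) ^ 4)) :
    ∃ p₀ p₁ : F, p₀ ^ 2 - d * p₁ ^ 2 = c ∧
      ∀ ω ∈ B, ω.valuation F (2 - 2 * p₀) < ω.valuation F (4 * (e : F) ^ 4) := by
  classical
  obtain ⟨a₀, a₁, hca⟩ := hc
  rcases B.eq_empty_or_nonempty with rfl | ⟨ω₀, hω₀⟩
  · exact ⟨a₀, a₁, hca.symm, by simp⟩
  set τ : F := 4 * (e : F) ^ 4 with hτ
  have hτle : ∀ ω : HeightOneSpectrum (𝓞 F), ω.valuation F τ ≤ ω.valuation F 4 := by
    intro ω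
    rw [hτ, map_mul]
    refine mul_le_of_le_one_right' ?_
    have : ω.valuation F (e : F) ≤ 1 := by
      have := ω.valuation_le_one (K := F) (e : 𝓞 F)
      simpa using this
    rw [map_pow]
    exact pow_le_one' this 4
  -- choice of `lam`
  have hlamloc : ∀ ω : HeightOneSpectrum (𝓞 F), ∃ l : F, l ≠ 0 ∧ ∀ lam : F,
      ω.valuation F lam = ω.valuation F l →
      (ω.valuation F 2 ≤ ω.valuation F (1 + a₀) ∧ ω.valuation F (lam * a₁ * d) < 1 ∧
        ω.valuation F (lam ^ 2 * d * a₀) < ω.valuation F 2 ∧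
        ω.valuation F (lam ^ 2 * d) < ω.valuation F 2) ∨
      (ω.valuation F (1 + a₀) < ω.valuation F 2 ∧ ω.valuation F a₁ < ω.valuation F lam ∧
        1 ≤ ω.valuation F (lam ^ 2 * d)) := by
    intro ω
    set v := ω.valuation F with hv
    obtain ⟨π, hπ⟩ := ω.valuation_exists_uniformizer F
    rw [← hv] at hπ
    have hπ1 : v π < 1 := by
      rw [hπ, ← WithZero.exp_zero, WithZero.exp_lt_exp]
      norm_num
    have hπ0 : π ≠ 0 := by
      rw [← Valuation.ne_zero_iff v, hπ]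
      exact WithZero.exp_ne_zero
    have hpow : ∀ x : Z0, x ≠ 0 → ∃ n : ℕ, v π ^ n < x := by
      intro x hx
      obtain ⟨n, hn⟩ := exists_pow_lt₀ hπ1 (Units.mk0 x hx)
      exact ⟨n, hn⟩
    have hv2 : v (2 : F) ≠ 0 := val_two_ne v
    have hd0 : v (d : F) ≠ 0 := (Valuation.ne_zero_iff v).mpr d.ne_zero
    by_cases h : v 2 ≤ v (1 + a₀)
    · -- small
      set m : Z0 := max 1 (max (v (a₁ * d)) (max (v (d * a₀)) (v d))) with hm
      have hm1 : 1 ≤ m := le_max_left _ _
      have hm2 : v (a₁ * d) ≤ m := (le_max_left _ _).trans (le_max_right _ _)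
      have hm3 : v (d * a₀) ≤ m :=
        ((le_max_left _ _).trans (le_max_right _ _)).trans (le_max_right _ _)
      have hm4 : v d ≤ m :=
        ((le_max_right _ _).trans (le_max_right _ _)).trans (le_max_right _ _)
      have hm0 : 0 < m := lt_of_lt_of_le zero_lt_one hm1
      obtain ⟨n, hn⟩ := hpow (v 2 / m) (div_ne_zero hv2 hm0.ne')
      refine ⟨π ^ n, pow_ne_zero n hπ0, fun lam hlam => Or.inl ⟨h, ?_⟩⟩
      rw [map_pow] at hlam
      rw [← hlam, lt_div_iff₀ hm0] at hn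
      have hl1 : v lam ≤ 1 := by
        rw [hlam]
        exact pow_le_one' hπ1.le n
      have hsq : v lam ^ 2 ≤ v lam := by
        rw [sq]
        exact mul_le_of_le_one_left' hl1
      have h2le : v 2 ≤ 1 := val_two_le v
      refine ⟨?_, ?_, ?_⟩
      · rw [mul_assoc, map_mul]
        exact lt_of_le_of_lt (mul_le_mul_right hm2 _) (lt_of_lt_of_le hn h2le)
      · rw [mul_assoc, map_mul, map_pow]
        exact lt_of_le_of_lt (mul_le_mul' hsq hm3) hn
      · rw [map_mul, map_pow]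
        exact lt_of_le_of_lt (mul_le_mul' hsq hm4) hn
    · -- large
      set m : Z0 := max 1 (max (v a₁) (v d)⁻¹) with hm
      have hm1 : 1 ≤ m := le_max_left _ _
      have hm2 : v a₁ ≤ m := (le_max_left _ _).trans (le_max_right _ _)
      have hm3 : (v d)⁻¹ ≤ m := (le_max_right _ _).trans (le_max_right _ _)
      have hm0 : 0 < m := lt_of_lt_of_le zero_lt_one hm1
      obtain ⟨n, hn⟩ := hpow m⁻¹ (inv_ne_zero hm0.ne')
      refine ⟨(π ^ n)⁻¹, inv_ne_zero (pow_ne_zero n hπ0), fun lam hlam =>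
        Or.inr ⟨not_le.mp h, ?_⟩⟩
      rw [map_inv₀, map_pow] at hlam
      have hπn : 0 < v π ^ n := pow_pos (zero_lt_iff.mpr ((Valuation.ne_zero_iff v).mpr hπ0)) n
      have hml : m < v lam := by
        rw [hlam]
        exact (lt_inv_comm₀ hπn hm0).mp hn
      have hl1 : 1 ≤ v lam := hm1.trans hml.le
      refine ⟨lt_of_le_of_lt hm2 hml, ?_⟩
      rw [map_mul, map_pow]
      have h1 : (v d)⁻¹ ≤ v lam ^ 2 := by
        refine (hm3.trans hml.le).trans ?_
        rw [sq]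
        exact le_mul_of_one_le_left' hl1
      calc (1 : Z0) = (v d)⁻¹ * v d := (inv_mul_cancel₀ hd0).symm
        _ ≤ v lam ^ 2 * v d := mul_le_mul_left h1 _
  choose l hl0 hl using hlamloc
  obtain ⟨lam, hlam, -⟩ := approxVal B l (fun ω => ω.valuation F (l ω))
    (fun ω _ => (Valuation.ne_zero_iff _).mpr (hl0 ω)) (fun _ => 0) (ε := 1) one_pos
  have hlamv : ∀ ω ∈ B, ω.valuation F lam = ω.valuation F (l ω) := by
    intro ω hω
    have h1 := hlam ω hω
    have : lam = l ω + (lam - l ω) := by ring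
    rw [this]
    exact Valuation.map_add_eq_of_lt_left _ h1
  -- choice of `γ`
  have hγloc : ∀ ω : HeightOneSpectrum (𝓞 F), ∃ g : F, ω ∈ B →
      ω.valuation F (g - 1) < ω.valuation F 2 ∧ ω.valuation F (c - g ^ 2) < ω.valuation F τ ∧
        ω.valuation F ((c - g ^ 2) * (1 - d * lam ^ 2)) < ω.valuation F 4 := by
    intro ω
    by_cases hω : ω ∈ B
    · have hτ0 : 0 < ω.valuation F τ := by
        rw [zero_lt_iff, Valuation.ne_zero_iff, hτ]
        exact mul_ne_zero (by norm_num) (pow_ne_zero 4 (by exact_mod_cast he.ne'))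
      have h40 : 0 < ω.valuation F (4 : F) := zero_lt_iff.mpr (val_four_ne _)
      set m : Z0 := max 1 (ω.valuation F (1 - d * lam ^ 2)) with hm
      have hm0 : 0 < m := lt_of_lt_of_le zero_lt_one (le_max_left _ _)
      obtain ⟨g, hg1, hg2⟩ := exists_sqrt (ω.valuation F) (c : F)
        (lt_of_lt_of_le (hB ω hω) (hτle ω)) (β := min (ω.valuation F τ) (ω.valuation F 4 / m))
        (lt_min hτ0 (div_pos h40 hm0)).ne'
      rw [lt_min_iff] at hg2
      refine ⟨g, fun _ => ⟨hg1, hg2.1, ?_⟩⟩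
      rw [map_mul]
      calc _ ≤ ω.valuation F (c - g ^ 2) * m := mul_le_mul_right (le_max_right _ _) _
        _ < ω.valuation F 4 := (lt_div_iff₀ hm0).mp hg2.2
    · exact ⟨0, fun h => absurd h hω⟩
  choose g hg using hγloc
  -- a common bound
  have hbd : ∀ ω : HeightOneSpectrum (𝓞 F), ∃ β : Z0, β ≠ 0 ∧ (ω ∈ B → ∀ γ : F,
      ω.valuation F (γ - g ω) < β →
      ω.valuation F (γ - 1) < ω.valuation F 2 ∧ ω.valuation F (c - γ ^ 2) < ω.valuation F τ ∧
        ω.valuation F ((c - γ ^ 2) * (1 - d * lam ^ 2)) < ω.valuation F 4) := by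
    intro ω
    by_cases hω : ω ∈ B
    · obtain ⟨h1, h2, h3⟩ := hg ω hω
      set v := ω.valuation F with hv
      have hτ0 : 0 < v τ := lt_of_le_of_lt zero_le' h2
      have h40 : 0 < v (4 : F) := lt_of_le_of_lt zero_le' h3
      have h20 : 0 < v (2 : F) := lt_of_le_of_lt zero_le' h1
      set m : Z0 := max 1 (v (1 - d * lam ^ 2)) with hm
      have hm0 : 0 < m := lt_of_lt_of_le zero_lt_one (le_max_left _ _)
      have h2le : v 2 ≤ 1 := val_two_le v
      refine ⟨min (v 2) (min (v τ) (v 4 / m)),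
        (lt_min h20 (lt_min hτ0 (div_pos h40 hm0))).ne', fun _ γ hγ => ?_⟩
      rw [lt_min_iff, lt_min_iff] at hγ
      obtain ⟨k1, k2, k3⟩ := hγ
      have hgle : v (g ω) ≤ 1 := by
        have : g ω = 1 + (g ω - 1) := by ring
        rw [this]
        exact v.map_add_le (by simp) (h1.le.trans h2le)
      have hγ1 : v (γ - 1) < v 2 := by
        have : γ - 1 = (γ - g ω) + (g ω - 1) := by ring
        rw [this]
        exact v.map_add_lt k1 h1
      have hγle : v γ ≤ 1 := by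
        have : γ = 1 + (γ - 1) := by ring
        rw [this]
        exact v.map_add_le (by simp) (hγ1.le.trans h2le)
      have hdiff : v (g ω ^ 2 - γ ^ 2) ≤ v (γ - g ω) := by
        have : g ω ^ 2 - γ ^ 2 = -((γ - g ω) * (g ω + γ)) := by ring
        rw [this, v.map_neg, map_mul]
        exact mul_le_of_le_one_right' (v.map_add_le hgle hγle)
      have e : c - γ ^ 2 = (c - g ω ^ 2) + (g ω ^ 2 - γ ^ 2) := by ring
      refine ⟨hγ1, ?_, ?_⟩
      · rw [e]
        exact v.map_add_lt h2 (lt_of_le_of_lt hdiff k2)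
      · rw [e, add_mul]
        refine v.map_add_lt h3 ?_
        rw [map_mul]
        calc _ ≤ v (γ - g ω) * m := mul_le_mul' hdiff (le_max_right _ _)
          _ < v 4 := (lt_div_iff₀ hm0).mp k3
    · exact ⟨1, one_ne_zero, fun h => absurd h hω⟩
  choose β hβ0 hβ using hbd
  obtain ⟨γ, hγ, -⟩ := approxVal B g β (fun ω _ => hβ0 ω) (fun _ => 0) (ε := 1) one_pos
  set A : F := (γ + a₀) + 2 * lam * a₁ * d + lam ^ 2 * d * (a₀ - γ) with hA
  set M : F := 2 * γ * A + (c - γ ^ 2) * (1 - d * lam ^ 2) with hM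
  have key : ∀ ω ∈ B, M ≠ 0 ∧ ω.valuation F (2 - 2 * (γ + (c - γ ^ 2) * A / M)) <
      ω.valuation F τ := by
    intro ω hω
    obtain ⟨h1, h2, h3⟩ := hβ ω hω γ (hγ ω hω)
    exact local_est (ω.valuation F) (hτle ω) (hB ω hω) (hl ω lam (hlamv ω hω)) h1 h2 h3 M A hA hM
  have hM0 : M ≠ 0 := (key ω₀ hω₀).1
  set μ₀ : F := γ + a₀ + lam * d * a₁ with hμ₀
  set μ₁ : F := a₁ + lam * (a₀ - γ) with hμ₁
  refine ⟨γ + (c - γ ^ 2) * A / M, (c - γ ^ 2) * (μ₁ + lam * μ₀) / M, ?_,
    fun ω hω => (key ω hω).2⟩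
  have e1 : M = μ₀ ^ 2 - d * μ₁ ^ 2 := by
    rw [hM, hA, hμ₀, hμ₁]
    rw [hca]
    ring
  have e2 : A = μ₀ + lam * d * μ₁ := by
    rw [hA, hμ₀, hμ₁]
    ring
  have e3 : (γ * M + (c - γ ^ 2) * A) ^ 2 - d * ((c - γ ^ 2) * (μ₁ + lam * μ₀)) ^ 2 =
      c * M ^ 2 := by
    rw [e1, e2, hμ₀, hμ₁, hca]
    ring
  have e4 : γ + (c - γ ^ 2) * A / M = (γ * M + (c - γ ^ 2) * A) / M := by
    field_simp
  rw [e4, div_pow, div_pow, mul_div_assoc', ← sub_div, e3]
  field_simp

end Vale.Agent.P011.Two
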