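import Vale.Agent.P011.Two.Defs
import Vale.Agent.P011.Two.NormNear
import Vale.Agent.P011.Even.Pattern

/-!
# P011, rank two, block 2B: rotations
-/

open NumberField IsDedekindDomain

set_option linter.unusedSectionVars false

namespace Vale.Agent.P011.Two

open Vale.Agent.P011.Arith Vale.Agent.P011.Even

section form

variable {D : Type} [DivisionRing D] [StarRing D] {g : D}

theorem hh_add_left (x x' y : D × D) : hh g (x + x') y = hh g x y + hh g x' y := by
  unfold hh
  simp only [Prod.fst_add, Prod.snd_add]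
  noncomm_ring

theorem hh_sub_left (x x' y : D × D) : hh g (x - x') y = hh g x y - hh g x' y := by
  unfold hh
  simp only [Prod.fst_sub, Prod.snd_sub]
  noncomm_ring

theorem hh_smul_left (a : D) (x y : D × D) : hh g (a • x) y = a * hh g x y := by
  unfold hh
  simp only [Prod.smul_fst, Prod.smul_snd, smul_eq_mul]
  noncomm_ring

theorem hh_add_right (x y y' : D × D) : hh g x (y + y') = hh g x y + hh g x y' := by
  unfold hh
  simp only [Prod.fst_add, Prod.snd_add, star_add]
  noncomm_ring

theorem hh_sub_right (x y y' : D × D) : hh g x (y - y') = hh g x y - hh g x y' := by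
  unfold hh
  simp only [Prod.fst_sub, Prod.snd_sub, star_sub]
  noncomm_ring

theorem hh_smul_right (a : D) (x y : D × D) : hh g x (a • y) = hh g x y * star a := by
  unfold hh
  simp only [Prod.smul_fst, Prod.smul_snd, smul_eq_mul, star_mul]
  noncomm_ring

theorem hh_star (hg : star g = g) (x y : D × D) : star (hh g x y) = hh g y x := by
  unfold hh
  simp only [star_add, star_mul, star_star, hg]
  noncomm_ring

/-- The coordinate isomorphism of an orthogonal basis. -/
theorem exists_basis (hg : star g = g) (han : An g) {y w : D × D} (hy : y ≠ 0) (hw : w ≠ 0)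
    (hyw : hh g y w = 0) :
    ∃ E : (D × D) ≃ₗ[D] (D × D), ∀ a b, E (a, b) = a • y + b • w := by
  have hwy : hh g w y = 0 := by rw [← hh_star hg, hyw, star_zero]
  set L : (D × D) →ₗ[D] (D × D) :=
    (LinearMap.toSpanSingleton D (D × D) y).comp (LinearMap.fst D D D) +
      (LinearMap.toSpanSingleton D (D × D) w).comp (LinearMap.snd D D D) with hL
  have hLa : ∀ a b, L (a, b) = a • y + b • w := by
    intro a b
    simp [hL]
  have hinj : Function.Injective L := by
    rw [← LinearMap.ker_eq_bot, LinearMap.ker_eq_bot']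
    rintro ⟨a, b⟩ h
    rw [hLa] at h
    have h1 : a * hh g y y = 0 := by
      have := congrArg (fun z => hh g z y) h
      simp only [hh_add_left, hh_smul_left, hwy, mul_zero, add_zero] at this
      rw [this]
      simp [hh]
    have hyy : hh g y y ≠ 0 := fun h' => hy (han y h')
    have ha : a = 0 := (mul_eq_zero.mp h1).resolve_right hyy
    rw [ha, zero_smul, zero_add] at h
    have hb : b = 0 := (smul_eq_zero.mp h).resolve_right hw
    rw [ha, hb]
    rfl
  refine ⟨LinearEquiv.ofInjectiveEndo L hinj, fun a b => ?_⟩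
  rw [LinearEquiv.coe_ofInjectiveEndo]
  exact hLa a b

end form

variable {k K D : Type} [Field k] [NumberField k] [Field K] [StarRing K]
  [DivisionRing D] [StarRing D] [Algebra k K] [Algebra k D] [Algebra K D] [IsScalarTower k K D]
  {d : kˣ} {s : K}

theorem star_sD (hS : Setting k K D d s) : star (algebraMap K D s) = -algebraMap K D s := by
  rw [Algebra.algebraMap_eq_smul_one, hS.star_smul, hS.star_s, star_one, neg_smul]

theorem sq_sD (hS : Setting k K D d s) :
    algebraMap K D s * algebraMap K D s = algebraMap k D d := by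
  rw [← map_mul, ← sq, hS.sq, ← IsScalarTower.algebraMap_apply]

section plane

variable {F : Type} [Field F] [NumberField F] [Algebra k F] (ι : F →ₐ[k] D)

/-- The element `p₀ + p₁ s` -/
def lc (s : K) (p₀ p₁ : F) : D := ι p₀ + ι p₁ * algebraMap K D s

theorem lc_mul (hS : Setting k K D d s) (p₀ p₁ q₀ q₁ : F) :
    lc ι s p₀ p₁ * lc ι s q₀ q₁ =
      lc ι s (p₀ * q₀ + algebraMap k F d * (p₁ * q₁)) (p₀ * q₁ + p₁ * q₀) := by
  unfold lc
  have hc : ∀ x : D, algebraMap K D s * x = x * algebraMap K D s := fun x =>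
    Algebra.commutes s x
  have h1 : ι p₁ * algebraMap K D s * (ι q₁ * algebraMap K D s) =
      algebraMap k D d * (ι p₁ * ι q₁) := by
    rw [mul_assoc, ← mul_assoc (algebraMap K D s), hc (ι q₁), mul_assoc (ι q₁), sq_sD hS,
      ← mul_assoc, Algebra.commutes]
  simp only [map_add, map_mul, AlgHom.commutes]
  rw [add_mul, mul_add, mul_add, h1, mul_assoc (ι p₁) (algebraMap K D s) (ι q₀), hc (ι q₀)]
  noncomm_ring

theorem lc_zero_right (p : F) : lc ι s p 0 = ι p := by simp [lc]

theorem lc_add (p₀ p₁ q₀ q₁ : F) :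
    lc ι s p₀ p₁ + lc ι s q₀ q₁ = lc ι s (p₀ + q₀) (p₁ + q₁) := by
  unfold lc
  rw [map_add, map_add, add_mul]
  abel

theorem lc_neg (p₀ p₁ : F) : -lc ι s p₀ p₁ = lc ι s (-p₀) (-p₁) := by
  unfold lc
  rw [map_neg, map_neg, neg_mul]
  abel

theorem lc_one : lc ι s (1 : F) 0 = 1 := by simp [lc]

theorem lc_zero : lc ι s (0 : F) 0 = 0 := by simp [lc]

theorem star_lc (hS : Setting k K D d s) (sym : ∀ x, star (ι x) = ι x) (p₀ p₁ : F) :
    star (lc ι s p₀ p₁) = lc ι s p₀ (-p₁) := by
  unfold lc
  rw [star_add, star_mul, sym, sym, star_sD hS, neg_mul, Algebra.commutes s (ι p₁), map_neg,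
    neg_mul]

/-- Existence of the plane elements. -/
theorem exists_rot (hS : Setting k K D d s) {g : D} (hg : star g = g) (han : An g)
    (sym : ∀ x, star (ι x) = ι x) (b : Fˣ) (p₀ p₁ q₀ q₁ : F) {y w : D × D}
    (yy : hh g y y = 1) (yw : hh g y w = 0) (ww : hh g w w = ι b)
    (nrm : p₀ ^ 2 - algebraMap k F d * p₁ ^ 2 + b * (q₀ ^ 2 - algebraMap k F d * q₁ ^ 2) = 1) :
    ∃ u : (D × D) ≃ₗ[D] (D × D), PlaneElt d s g ι b p₀ p₁ q₀ q₁ y w u := by
  have hy : y ≠ 0 := by
    rintro rfl
    simp [hh] at yy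
  have hw : w ≠ 0 := by
    rintro rfl
    have : ι (b : F) ≠ 0 := by
      rw [ne_eq, map_eq_zero]
      exact b.ne_zero
    apply this
    rw [← ww]
    simp [hh]
  obtain ⟨E, hE⟩ := exists_basis hg han hy hw yw
  set P := lc ι s p₀ p₁ with hP
  set Q := lc ι s q₀ q₁ with hQ
  set P' := lc ι s p₀ (-p₁) with hP'
  set R := lc ι s (-(b * q₀)) (b * q₁) with hR
  have e1 : P * P' - Q * R = 1 := by
    rw [sub_eq_add_neg, hP, hP', hQ, hR, lc_mul ι hS, lc_mul ι hS, lc_neg, lc_add,
      ← lc_one ι (s := s)]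
    congr 1
    · linear_combination nrm
    · ring
  have e1' : P' * P - R * Q = 1 := by
    rw [sub_eq_add_neg, hP, hP', hQ, hR, lc_mul ι hS, lc_mul ι hS, lc_neg, lc_add,
      ← lc_one ι (s := s)]
    congr 1
    · linear_combination nrm
    · ring
  have e1a : P' * P - Q * R = 1 := by
    rw [sub_eq_add_neg, hP, hP', hQ, hR, lc_mul ι hS, lc_mul ι hS, lc_neg, lc_add,
      ← lc_one ι (s := s)]
    congr 1
    · linear_combination nrm
    · ring
  have e1b : P * P' - R * Q = 1 := by
    rw [sub_eq_add_neg, hP, hP', hQ, hR, lc_mul ι hS, lc_mul ι hS, lc_neg, lc_add,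
      ← lc_one ι (s := s)]
    congr 1
    · linear_combination nrm
    · ring
  have e2 : P * Q = Q * P := by
    rw [hP, hQ, lc_mul ι hS, lc_mul ι hS]
    congr 1 <;> ring
  have e3 : P' * Q = Q * P' := by
    rw [hP', hQ, lc_mul ι hS, lc_mul ι hS]
    congr 1 <;> ring
  have e4 : P * R = R * P := by
    rw [hP, hR, lc_mul ι hS, lc_mul ι hS]
    congr 1 <;> ring
  have e5 : P' * R = R * P' := by
    rw [hP', hR, lc_mul ι hS, lc_mul ι hS]
    congr 1 <;> ring
  let M : (D × D) ≃ₗ[D] (D × D) :=
    { toFun := fun x => (x.1 * P + x.2 * R, x.1 * Q + x.2 * P')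
      invFun := fun x => (x.1 * P' - x.2 * R, x.2 * P - x.1 * Q)
      map_add' := by
        intro x y
        ext <;> simp only [Prod.fst_add, Prod.snd_add] <;> noncomm_ring
      map_smul' := by
        intro a x
        ext <;> simp only [Prod.smul_fst, Prod.smul_snd, smul_eq_mul, RingHom.id_apply] <;>
          noncomm_ring
      left_inv := by
        rintro ⟨x, y⟩
        ext
        · change (x * P + y * R) * P' - (x * Q + y * P') * R = x
          have : (x * P + y * R) * P' - (x * Q + y * P') * R =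
              x * (P * P' - Q * R) + y * (R * P' - P' * R) := by noncomm_ring
          rw [this, e1, e5, sub_self, mul_one, mul_zero, add_zero]
        · change (x * Q + y * P') * P - (x * P + y * R) * Q = y
          have : (x * Q + y * P') * P - (x * P + y * R) * Q =
              y * (P' * P - R * Q) + x * (Q * P - P * Q) := by noncomm_ring
          rw [this, e1', e2, sub_self, mul_one, mul_zero, add_zero]
      right_inv := by
        rintro ⟨x, y⟩
        ext
        · change (x * P' - y * R) * P + (y * P - x * Q) * R = x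
          have : (x * P' - y * R) * P + (y * P - x * Q) * R =
              x * (P' * P - Q * R) + y * (P * R - R * P) := by noncomm_ring
          rw [this, e1a, e4, sub_self, mul_one, mul_zero, add_zero]
        · change (x * P' - y * R) * Q + (y * P - x * Q) * P' = y
          have : (x * P' - y * R) * Q + (y * P - x * Q) * P' =
              y * (P * P' - R * Q) + x * (P' * Q - Q * P') := by noncomm_ring
          rw [this, e1b, e3, sub_self, mul_one, mul_zero, add_zero] }
  have hEy : E (1, 0) = y := by rw [hE, one_smul, zero_smul, add_zero]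
  have hEw : E (0, 1) = w := by rw [hE, one_smul, zero_smul, zero_add]
  refine ⟨E.symm.trans (M.trans E), ⟨sym, yy, yw, ww, nrm, ?_, ?_⟩⟩
  · rw [LinearEquiv.trans_apply, LinearEquiv.trans_apply, ← hEy, E.symm_apply_apply]
    have : M (1, 0) = (P, Q) := by
      change ((1 : D) * P + 0 * R, (1 : D) * Q + 0 * P') = (P, Q)
      simp
    rw [this, hE, hEy]
    rfl
  · rw [LinearEquiv.trans_apply, LinearEquiv.trans_apply, ← hEw, E.symm_apply_apply]
    have : M (0, 1) = (R, P') := by
      change ((0 : D) * P + 1 * R, (0 : D) * Q + 1 * P') = (R, P')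
      simp
    rw [this, hE, hEw, hR, hP']
    unfold lc
    simp only [map_neg, map_mul]
    congr 2
    · noncomm_ring
    · noncomm_ring

end plane

/-- 2B. Rotations. -/
theorem step (hS : Setting k K D d s) {g : D} (hg : star g = g) (han : An g) {e : ℕ} (he : 0 < e)
    {N : Subgroup ((D × D) ≃ₗ[D] (D × D))} (hHQ : HQ d s g e N) {y y' : D × D}
    (hy : hh g y y = 1) (hy' : hh g y' y' = 1)
    (hrel : Rel k d e (hh g y y' * star (hh g y y'))) :
    ∃ u ∈ N, ∃ δ : D, δ ≠ 0 ∧ u y = δ • y' := by
  classical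
  set ζ := hh g y y' with hζ
  have hζ' : hh g y' y = star ζ := by rw [hζ, hh_star hg]
  rcases hrel with h1 | ⟨F, iF, iN, iA, ι, c', c₁, sym, hc, hc₁, hcN, hloc⟩
  · have hz : ζ • y' - y = 0 := by
      apply han
      rw [hh_sub_left, hh_sub_right, hh_sub_right, hh_smul_left, hh_smul_left, hh_smul_right,
        hh_smul_right, hy', hy, hζ', ← hζ, one_mul, h1]
      abel
    refine ⟨1, N.one_mem, ζ, ?_, ?_⟩
    · intro h0
      rw [h0, zero_mul] at h1
      exact zero_ne_one h1
    · exact (sub_eq_zero.mp hz).symm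
  · set c := ζ * star ζ with hcdef
    have hsc : star c = c := by rw [← hc, sym]
    set w : D × D := ζ • y' - c • y with hw
    have hyw : hh g y w = 0 := by
      rw [hw, hh_sub_right, hh_smul_right, hh_smul_right, ← hζ, hy, one_mul, hsc, ← hcdef, sub_self]
    have hww : hh g w w = ι ((c' * c₁ : Fˣ) : F) := by
      rw [Units.val_mul, map_mul, hc₁, map_sub, map_one, hc]
      conv_lhs => rw [hw]
      have h5 : hh g y (ζ • y' - c • y) = 0 := hyw
      rw [hh_sub_left, hh_smul_left, hh_smul_left, h5, mul_zero, sub_zero, hh_sub_right,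
        hh_smul_right, hh_smul_right, hy', hζ', one_mul, mul_sub, ← hcdef, ← mul_assoc,
        ← hcdef, hsc, mul_sub, mul_one]
    have hfin : {ω : HeightOneSpectrum (𝓞 F) |
        -(c' * c₁) ∉ NF (inc k F d) ⊔ LS (ω.valuation F)}.Finite := by
      have := bad_finite (inc k F d) (-(c' * c₁))
      exact Set.Finite.preimage (Sum.inl_injective.injOn) this
    obtain ⟨p₀, p₁, hp, hpB⟩ := norm_near (inc k F d) c' hcN hfin.toFinset e he (by
      intro ω hω
      rw [Set.Finite.mem_toFinset] at hω
      rcases hloc ω with h | h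
      · exfalso
        apply hω
        rw [show -(c' * c₁) = c' * -c₁ by rw [mul_neg]]
        exact mul_mem (Subgroup.mem_sup_left hcN) h
      · rwa [← hc₁])
    have hc0 : (c' : F) ≠ 0 := c'.ne_zero
    have nrm : p₀ ^ 2 - algebraMap k F d * p₁ ^ 2 + ((c' * c₁ : Fˣ) : F) *
        ((p₀ / c') ^ 2 - algebraMap k F d * (p₁ / c') ^ 2) = 1 := by
      have h2 : p₀ ^ 2 - algebraMap k F d * p₁ ^ 2 = c' := hp
      rw [Units.val_mul]
      have h3 : (c' : F) * c₁ * ((p₀ / c') ^ 2 - algebraMap k F d * (p₁ / c') ^ 2) =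
          c₁ * (p₀ ^ 2 - algebraMap k F d * p₁ ^ 2) / c' := by
        field_simp
      rw [h3, h2, hc₁]
      field_simp
      ring
    obtain ⟨u, hu⟩ := exists_rot ι hS hg han sym (c' * c₁) p₀ p₁ (p₀ / c') (p₁ / c') hy hyw hww nrm
    refine ⟨u, hHQ F ι _ _ _ _ _ _ _ _ hu fun ω hω => hpB ω (by
      rw [Set.Finite.mem_toFinset]
      exact hω), lc ι s (p₀ / c') (p₁ / c') * ζ, ?_⟩
    have hPQ : lc ι s p₀ p₁ = lc ι s (p₀ / c') (p₁ / c') * c := by
      rw [← hc, ← lc_zero_right ι (s := s) (c' : F), lc_mul ι hS]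
      congr 1
      · field_simp
        ring
      · field_simp
        ring
    have huy : u y = (lc ι s (p₀ / c') (p₁ / c') * ζ) • y' := by
      rw [hu.uy]
      change lc ι s p₀ p₁ • y + lc ι s (p₀ / c') (p₁ / c') • w = _
      rw [hPQ, hw, smul_sub, smul_smul, smul_smul]
      abel
    refine ⟨?_, huy⟩
    intro h0
    rw [h0, zero_smul] at huy
    have hy0 : y = 0 := by
      apply u.injective
      rw [huy, map_zero]
    rw [hy0] at hy
    simp [hh] at hy

end Vale.Agent.P011.Two
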