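import Vale.Agent.P011.Two.Cv
import Vale.Agent.P011.Two.Step
import Vale.Agent.P011.Even.LocModel

/-!
The unit vectors of `D × D` are dense in the unit vectors over the completion at a nonsplit finite
place.
-/

open NumberField IsDedekindDomain TensorProduct Filter Topology Matrix

set_option linter.unusedSectionVars false

namespace Vale.Agent.P011.Two

open Vale.Agent.P011.Arith Vale.Agent.P011.Even

section alg

variable {D : Type} [DivisionRing D] [StarRing D] {g : D}

/-- The stereographic unit vector. -/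
def ster (w : D × D) (κ : D) : D × D :=
  (1 - star w.1 * κ⁻¹ * w.1, -(star w.1 * κ⁻¹ * w.2))

theorem hh_ster {w : D × D} {κ : D} (hκ : κ ≠ 0)
    (h : κ + star κ = hh g w w) : hh g (ster w κ) (ster w κ) = 1 := by
  have h1 : ster w κ = e₁ - (star w.1 * κ⁻¹) • w := by
    unfold ster e₁
    ext
    · simp
    · simp
  have h2 : hh g e₁ e₁ = 1 := by simp [hh, e₁]
  have h3 : hh g e₁ w = star w.1 := by simp [hh, e₁]
  have h4 : hh g w e₁ = w.1 := by simp [hh, e₁]
  have hκ' : star κ ≠ 0 := fun h5 => by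
    apply hκ
    rw [← star_star κ, h5, star_zero]
  rw [h1, hh_sub_left, hh_sub_right, hh_sub_right, hh_smul_left, hh_smul_left, hh_smul_right,
    hh_smul_right, h2, h3, h4, ← h]
  simp only [star_mul, star_star, star_inv₀]
  have h5 : star w.1 * κ⁻¹ * ((κ + star κ) * ((star κ)⁻¹ * w.1)) =
      star w.1 * (κ⁻¹ * κ) * (star κ)⁻¹ * w.1 + star w.1 * κ⁻¹ * (star κ * (star κ)⁻¹) * w.1 := by
    noncomm_ring
  rw [h5, inv_mul_cancel₀ hκ, mul_inv_cancel₀ hκ']
  noncomm_ring

end alg

section complete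

variable {k K D : Type} [Field k] [NumberField k] [Field K] [StarRing K]
  [DivisionRing D] [StarRing D] [Algebra k K] [Algebra k D] [Algebra K D] [IsScalarTower k K D]
  {d : kˣ} {s : K} (hS : Setting k K D d s) (v : HeightOneSpectrum (𝓞 k))

/-- The involution of the completed algebra. -/
noncomputable def sg : v.adicCompletion k ⊗[k] D →ₗ[v.adicCompletion k] v.adicCompletion k ⊗[k] D :=
  hS.sig.baseChange (v.adicCompletion k)

theorem sg_tmul (a : v.adicCompletion k) (x : D) : sg hS v (a ⊗ₜ x) = a ⊗ₜ star x := rfl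

theorem sg_mul (X Y : v.adicCompletion k ⊗[k] D) : sg hS v (X * Y) = sg hS v Y * sg hS v X := by
  induction X using TensorProduct.induction_on with
  | zero => rw [zero_mul, map_zero, mul_zero]
  | add X X' h h' => rw [add_mul, map_add, h, h', map_add, mul_add]
  | tmul a x =>
    induction Y using TensorProduct.induction_on with
    | zero => rw [mul_zero, map_zero, zero_mul]
    | add Y Y' h h' => rw [mul_add, map_add, h, h', map_add, add_mul]
    | tmul b y =>
      rw [Algebra.TensorProduct.tmul_mul_tmul, sg_tmul, sg_tmul, sg_tmul,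
        Algebra.TensorProduct.tmul_mul_tmul, star_mul, mul_comm]

theorem sg_sg (X : v.adicCompletion k ⊗[k] D) : sg hS v (sg hS v X) = X := by
  induction X using TensorProduct.induction_on with
  | zero => rw [map_zero, map_zero]
  | add X X' h h' => rw [map_add, map_add, h, h']
  | tmul a x => rw [sg_tmul, sg_tmul, star_star]

theorem sg_one : sg hS v 1 = 1 := by
  change sg hS v (1 ⊗ₜ 1) = 1 ⊗ₜ 1
  rw [sg_tmul, star_one]

/-- The form over the completed algebra. -/
noncomputable def hF (g : D)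
    (x y : (v.adicCompletion k ⊗[k] D) × (v.adicCompletion k ⊗[k] D)) :
    v.adicCompletion k ⊗[k] D :=
  x.1 * sg hS v y.1 + x.2 * (1 ⊗ₜ g) * sg hS v y.2

variable {hS v}

theorem Cv.star {N : ℕ} {B : Module.Basis (Fin N) k D} {x : ℕ → D}
    {X : v.adicCompletion k ⊗[k] D} (hx : Cv B v x X) :
    Cv B v (fun j => star (x j)) (sg hS v X) :=
  hx.linear hS.sig

/-- Convergence of vectors. -/
def Cv2 {N : ℕ} (B : Module.Basis (Fin N) k D) (v : HeightOneSpectrum (𝓞 k)) (x : ℕ → D × D)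
    (X : (v.adicCompletion k ⊗[k] D) × (v.adicCompletion k ⊗[k] D)) : Prop :=
  Cv B v (fun j => (x j).1) X.1 ∧ Cv B v (fun j => (x j).2) X.2

theorem Cv2.hh {N : ℕ} {B : Module.Basis (Fin N) k D} {x y : ℕ → D × D}
    {X Y : (v.adicCompletion k ⊗[k] D) × (v.adicCompletion k ⊗[k] D)} (hx : Cv2 B v x X)
    (hy : Cv2 B v y Y) (g : D) : Cv B v (fun j => hh g (x j) (y j)) (hF hS v g X Y) :=
  (hx.1.mul hy.1.star).add ((hx.2.mul (Cv.const B v g)).mul hy.2.star)

theorem Cv.congr' {N : ℕ} {B : Module.Basis (Fin N) k D} {x y : ℕ → D}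
    {X : v.adicCompletion k ⊗[k] D} (hx : Cv B v x X)
    (h : ∀ᶠ j in atTop, x j = y j) : Cv B v y X := by
  intro i
  refine (hx i).congr' ?_
  filter_upwards [h] with j hj
  rw [hj]

theorem one_tmul_ne {x : D} (hx : x ≠ 0) : (1 : v.adicCompletion k) ⊗ₜ[k] x ≠ 0 := by
  intro h
  have h1 : (1 : v.adicCompletion k) ⊗ₜ[k] (x * x⁻¹) = 0 := by
    have : (1 : v.adicCompletion k) ⊗ₜ[k] (x * x⁻¹) = (1 ⊗ₜ x) * (1 ⊗ₜ x⁻¹) := by
      rw [Algebra.TensorProduct.tmul_mul_tmul, one_mul]
    rw [this, h, zero_mul]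
  rw [mul_inv_cancel₀ hx] at h1
  exact one_ne_zero (α := v.adicCompletion k ⊗[k] D) h1

/-- The density theorem under an invertibility assumption. -/
theorem dense_unit₀ {N : ℕ} (B : Module.Basis (Fin N) k D) {g : D} (hg : star g = g)
    {Y : (v.adicCompletion k ⊗[k] D) × (v.adicCompletion k ⊗[k] D)} (hY : hF hS v g Y Y = 1)
    {Λ : v.adicCompletion k ⊗[k] D} (h1 : (1 - sg hS v Y.1) * Λ = 1) :
    ∃ y : ℕ → D × D, (∀ j, hh g (y j) (y j) = 1) ∧ Cv2 B v y Y := by
  classical
  have : CharZero k := inferInstance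
  have : CharZero D := charZero_of_injective_algebraMap (algebraMap k D).injective
  obtain ⟨w₁, hw₁⟩ := exists_Cv B v (1 - Y.1)
  obtain ⟨w₂, hw₂⟩ := exists_Cv B v (-Y.2)
  obtain ⟨t, ht⟩ := exists_Cv B v (1 - sg hS v Y.1)
  have hw : Cv2 B v (fun j => (w₁ j, w₂ j)) (1 - Y.1, -Y.2) := ⟨hw₁, hw₂⟩
  set κ : ℕ → D := fun j => (2 : D)⁻¹ * (hh g (w₁ j, w₂ j) (w₁ j, w₂ j) + (t j - star (t j))) with hκ
  have hW : hF hS v g (1 - Y.1, -Y.2) (1 - Y.1, -Y.2) = (1 - sg hS v Y.1) + (1 - Y.1) := by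
    have h3 : Y.1 * sg hS v Y.1 + Y.2 * (1 ⊗ₜ g) * sg hS v Y.2 = 1 := hY
    unfold hF
    simp only [map_sub, map_neg, sg_one]
    have h4 : (1 - Y.1) * (1 - sg hS v Y.1) + -Y.2 * (1 ⊗ₜ g) * -(sg hS v Y.2) =
        1 - Y.1 - sg hS v Y.1 + (Y.1 * sg hS v Y.1 + Y.2 * (1 ⊗ₜ g) * sg hS v Y.2) := by
      noncomm_ring
    rw [h4, h3]
    abel
  have hκc : Cv B v κ (1 - sg hS v Y.1) := by
    have h3 := (Cv.const B v (2 : D)⁻¹).mul ((hw.hh (hS := hS) hw g).add (ht.sub (ht.star (hS := hS))))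
    rw [hW] at h3
    have h4 : (1 : v.adicCompletion k) ⊗ₜ[k] (2 : D)⁻¹ * ((1 - sg hS v Y.1) + (1 - Y.1) +
        ((1 - sg hS v Y.1) - sg hS v (1 - sg hS v Y.1))) = 1 - sg hS v Y.1 := by
      rw [map_sub, sg_one, sg_sg]
      have h5 : (1 - sg hS v Y.1) + (1 - Y.1) + ((1 - sg hS v Y.1) - (1 - Y.1)) =
          (1 ⊗ₜ (2 : D)) * (1 - sg hS v Y.1) := by
        have h6 : (1 : v.adicCompletion k) ⊗ₜ[k] (2 : D) = 1 + 1 := by
          rw [← one_add_one_eq_two, TensorProduct.tmul_add]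
          rfl
        rw [h6, add_mul, one_mul]
        abel
      rw [h5, ← mul_assoc, Algebra.TensorProduct.tmul_mul_tmul, one_mul,
        inv_mul_cancel₀ two_ne_zero]
      exact one_mul _
    rwa [h4] at h3
  have hκ0 : ∀ᶠ j in atTop, κ j ≠ 0 := by
    refine hκc.ne ?_
    rw [TensorProduct.tmul_zero]
    intro h3
    rw [h3, zero_mul] at h1
    exact zero_ne_one h1
  have hκs : ∀ j, κ j + star (κ j) = hh g (w₁ j, w₂ j) (w₁ j, w₂ j) := by
    intro j
    have h3 : star (hh g (w₁ j, w₂ j) (w₁ j, w₂ j)) = hh g (w₁ j, w₂ j) (w₁ j, w₂ j) :=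
      hh_star hg _ _
    have h4 : ∀ x : D, x * (2 : D)⁻¹ = (2 : D)⁻¹ * x := by
      intro x
      rw [mul_inv_eq_iff_eq_mul₀ two_ne_zero, mul_assoc, mul_two, mul_add, ← mul_add, ← two_mul,
        ← mul_assoc, inv_mul_cancel₀ two_ne_zero, one_mul]
    simp only [hκ, star_mul, star_inv₀, star_ofNat, star_add, star_sub, star_star, h3, h4]
    rw [← mul_add]
    have h5 : hh g (w₁ j, w₂ j) (w₁ j, w₂ j) + (t j - star (t j)) +
        (hh g (w₁ j, w₂ j) (w₁ j, w₂ j) + (star (t j) - t j)) =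
        2 * hh g (w₁ j, w₂ j) (w₁ j, w₂ j) := by
      rw [two_mul]
      abel
    rw [h5, ← mul_assoc, inv_mul_cancel₀ two_ne_zero, one_mul]
  refine ⟨fun j => if κ j = 0 then e₁ else ster (w₁ j, w₂ j) (κ j), fun j => ?_, ?_⟩
  · dsimp only
    split_ifs with h
    · simp [hh, e₁]
    · exact hh_ster h (hκs j)
  · have h3 := hκc.inv h1 hκ0
    have hs1 := hw₁.star (hS := hS)
    have h6 : sg hS v (1 - Y.1) * Λ = 1 := by rw [map_sub, sg_one, h1]
    constructor
    · have h4 := (Cv.const B v (1 : D)).sub ((hs1.mul h3).mul hw₁)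
      rw [h6, one_mul] at h4
      have h5 : (1 : v.adicCompletion k) ⊗ₜ[k] (1 : D) - (1 - Y.1) = Y.1 := by
        change (1 : v.adicCompletion k ⊗[k] D) - (1 - Y.1) = Y.1
        abel
      rw [h5] at h4
      refine h4.congr' ?_
      filter_upwards [hκ0] with j hj
      rw [if_neg hj]
      rfl
    · have h4 := ((hs1.mul h3).mul hw₂).neg
      rw [h6, one_mul, neg_neg] at h4
      refine h4.congr' ?_
      filter_upwards [hκ0] with j hj
      rw [if_neg hj]
      rfl

variable {n : ℕ} {L : Type} [Field L] [Algebra (v.adicCompletion k) L] [StarRing L]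
  {ρ : v.adicCompletion k ⊗[k] D ≃ₐ[v.adicCompletion k] Matrix (Fin n) (Fin n) L}
  {G : Matrix (Fin n) (Fin n) L}

theorem model_theta (hn : 0 < n) (hGu : IsUnit G)
    (hG : ∀ T, G * ρ (sg hS v T) = (ρ T)ᴴ * G) :
    ∃ θ : L, ρ (1 ⊗ₜ algebraMap K D s) = Matrix.scalar (Fin n) θ ∧ θ ≠ 0 ∧ star θ = -θ ∧
      θ ^ 2 = algebraMap (v.adicCompletion k) L (algebraMap k _ (d : k)) := by
  have : Nonempty (Fin n) := ⟨⟨0, hn⟩⟩
  have hcen : ∀ X : v.adicCompletion k ⊗[k] D,
      X * (1 ⊗ₜ algebraMap K D s) = (1 ⊗ₜ algebraMap K D s) * X := by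
    intro X
    induction X using TensorProduct.induction_on with
    | zero => rw [zero_mul, mul_zero]
    | add X X' h h' => rw [add_mul, mul_add, h, h']
    | tmul a x =>
      rw [Algebra.TensorProduct.tmul_mul_tmul, Algebra.TensorProduct.tmul_mul_tmul, mul_comm,
        Algebra.commutes s x]
  obtain ⟨θ, hθ⟩ : ρ (1 ⊗ₜ algebraMap K D s) ∈ Set.range (Matrix.scalar (Fin n)) := by
    rw [Matrix.mem_range_scalar_iff_commute_single']
    intro i j
    obtain ⟨X, hX⟩ := ρ.surjective (Matrix.single i j 1)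
    change Matrix.single i j 1 * _ = _ * Matrix.single i j 1
    rw [← hX, ← map_mul, ← map_mul, hcen]
  have hsq : θ ^ 2 = algebraMap (v.adicCompletion k) L (algebraMap k _ (d : k)) := by
    have h1 : ρ ((1 ⊗ₜ algebraMap K D s) * (1 ⊗ₜ algebraMap K D s)) =
        Matrix.scalar (Fin n) (θ ^ 2) := by
      rw [map_mul, ← hθ, sq, map_mul]
    rw [Algebra.TensorProduct.tmul_mul_tmul, one_mul, sq_sD hS] at h1
    have h2 : (1 : v.adicCompletion k) ⊗ₜ[k] algebraMap k D (d : k) =
        algebraMap (v.adicCompletion k) _ (algebraMap k (v.adicCompletion k) (d : k)) := by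
      rw [Algebra.TensorProduct.algebraMap_apply, Algebra.algebraMap_eq_smul_one (d : k),
        TensorProduct.tmul_smul, TensorProduct.smul_tmul', Algebra.smul_def, mul_one]
      rfl
    rw [h2, AlgEquiv.commutes] at h1
    have h3 : algebraMap (v.adicCompletion k) (Matrix (Fin n) (Fin n) L)
        (algebraMap k (v.adicCompletion k) (d : k)) = Matrix.scalar (Fin n)
          (algebraMap (v.adicCompletion k) L (algebraMap k _ (d : k))) := rfl
    rw [h3, Matrix.scalar_inj] at h1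
    exact h1.symm
  refine ⟨θ, hθ.symm, ?_, ?_, hsq⟩
  · rintro rfl
    rw [zero_pow two_ne_zero] at hsq
    exact (_root_.map_ne_zero _).mpr ((_root_.map_ne_zero _).mpr d.ne_zero) hsq.symm
  · have h1 := hG (1 ⊗ₜ algebraMap K D s)
    rw [sg_tmul, star_sD hS, TensorProduct.tmul_neg, map_neg, ← hθ, mul_neg] at h1
    have h2 : (Matrix.scalar (Fin n) θ)ᴴ = Matrix.scalar (Fin n) (star θ) := by
      rw [Matrix.scalar_apply, Matrix.scalar_apply, Matrix.diagonal_conjTranspose]
      rfl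
    have h3 : G * Matrix.scalar (Fin n) θ = Matrix.scalar (Fin n) θ * G :=
      ((Matrix.scalar_commute θ (fun _ => Commute.all _ _) G).eq).symm
    rw [h2, h3, ← neg_mul] at h1
    have h4 := hGu.mul_right_cancel h1
    rw [← map_neg, Matrix.scalar_inj] at h4
    exact h4.symm

/-- The density theorem. -/
theorem dense_unit (hn : 0 < n) (hfix : ∀ a, star (algebraMap (v.adicCompletion k) L a) =
      algebraMap (v.adicCompletion k) L a) (hGu : IsUnit G)
    (hG : ∀ T, G * ρ (sg hS v T) = (ρ T)ᴴ * G)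
    {N : ℕ} (B : Module.Basis (Fin N) k D) {g : D} (hg : star g = g)
    {Y : (v.adicCompletion k ⊗[k] D) × (v.adicCompletion k ⊗[k] D)} (hY : hF hS v g Y Y = 1) :
    ∃ y : ℕ → D × D, (∀ j, hh g (y j) (y j) = 1) ∧ Cv2 B v y Y := by
  obtain ⟨θ, hθ, hθ0, hθs, -⟩ := model_theta (hS := hS) hn hGu hG
  have : CharZero L := charZero_of_injective_algebraMap
    (algebraMap (v.adicCompletion k) L).injective
  have : CharZero K := charZero_of_injective_algebraMap (algebraMap k K).injective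
  let i : k →+* L := (algebraMap (v.adicCompletion k) L).comp (algebraMap k (v.adicCompletion k))
  have hi : ∀ x : k, star (i x) = i x := fun x => hfix _
  have hne : ∀ x : k, i x + θ ≠ 0 := by
    intro x h
    have h1 := congrArg star h
    rw [star_add, hi, hθs, star_zero] at h1
    apply hθ0
    have h2 : 2 * θ = 0 := by linear_combination h - h1
    exact (mul_eq_zero.mp h2).resolve_left two_ne_zero
  obtain ⟨x, hx⟩ : ∃ x : k, IsUnit (Matrix.scalar (Fin n) ((i x - θ) / (i x + θ)) - ρ Y.1) := by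
    have hinj : Function.Injective fun x : k => (i x - θ) / (i x + θ) := by
      intro x y hxy
      simp only at hxy
      rw [div_eq_div_iff (hne x) (hne y)] at hxy
      have h1 : (2 * θ) * (i x - i y) = 0 := by linear_combination hxy
      have h2 := (mul_eq_zero.mp h1).resolve_left (mul_ne_zero two_ne_zero hθ0)
      exact i.injective (sub_eq_zero.mp h2)
    have hfin : {t : L | (ρ Y.1).charpoly.IsRoot t}.Finite :=
      Polynomial.finite_setOfPred_isRoot (ρ Y.1).charpoly_monic.ne_zero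
    obtain ⟨_, ⟨x, rfl⟩, hx⟩ := ((Set.infinite_range_of_injective hinj).sdiff hfin).nonempty
    refine ⟨x, ?_⟩
    rw [Matrix.isUnit_iff_isUnit_det, ← Matrix.eval_charpoly]
    exact (show _ ≠ (0 : L) from hx).isUnit
  set a : K := algebraMap k K x + s with ha
  set b : K := algebraMap k K x - s with hb
  have hab : star a = b := by
    rw [ha, star_add, hS.star_s, (hS.fix _).mpr ⟨x, rfl⟩, ← sub_eq_add_neg]
  have hb0 : b ≠ 0 := by
    intro h
    have h1 : a = 0 := by rw [← star_star a, hab, h, star_zero]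
    apply hS.s_ne
    have h2 : 2 * s = 0 := by
      rw [ha] at h1
      rw [hb] at h
      linear_combination h1 - h
    exact (mul_eq_zero.mp h2).resolve_left two_ne_zero
  have ha0 : a ≠ 0 := by
    intro h
    apply hb0
    rw [← hab, h, star_zero]
  set ω : K := a * b⁻¹ with hω
  have hωs : ω * star ω = 1 := by
    rw [hω, star_mul', star_inv₀, ← hab, star_star]
    rw [hab]
    field_simp
  set w : D := algebraMap K D ω with hw
  have hww : w * star w = 1 := by
    rw [hw, hS.star_alg, ← map_mul, hωs, map_one]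
  have hww' : star w * w = 1 := by
    rw [hw, hS.star_alg, ← map_mul, mul_comm, hωs, map_one]
  have hcw : ∀ z : D, w * z = z * w := fun z => Algebra.commutes ω z
  set W : v.adicCompletion k ⊗[k] D := 1 ⊗ₜ w with hW
  have hWW : W * sg hS v W = 1 := by
    rw [hW, sg_tmul, Algebra.TensorProduct.tmul_mul_tmul, one_mul, hww]
    rfl
  have hY' : hF hS v g (W * Y.1, W * Y.2) (W * Y.1, W * Y.2) = 1 := by
    unfold hF
    rw [sg_mul, sg_mul]
    have h1 : W * Y.1 * (sg hS v Y.1 * sg hS v W) +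
        W * Y.2 * (1 ⊗ₜ g) * (sg hS v Y.2 * sg hS v W) = W * hF hS v g Y Y * sg hS v W := by
      unfold hF
      noncomm_ring
    rw [h1, hY, mul_one, hWW]
  -- the inverse
  obtain ⟨U, hU⟩ : ∃ U, U * (1 - W * Y.1) = 1 := by
    have hk : ∀ c : k, ρ (1 ⊗ₜ algebraMap K D (algebraMap k K c)) = Matrix.scalar (Fin n) (i c) := by
      intro c
      rw [← IsScalarTower.algebraMap_apply]
      have h2 : (1 : v.adicCompletion k) ⊗ₜ[k] algebraMap k D c =
          algebraMap (v.adicCompletion k) _ (algebraMap k (v.adicCompletion k) c) := by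
        rw [Algebra.TensorProduct.algebraMap_apply, Algebra.algebraMap_eq_smul_one c,
          TensorProduct.tmul_smul, TensorProduct.smul_tmul', Algebra.smul_def, mul_one]
        rfl
      rw [h2, AlgEquiv.commutes]
      rfl
    have hρa : ρ (1 ⊗ₜ algebraMap K D a) = Matrix.scalar (Fin n) (i x + θ) := by
      rw [ha, map_add, TensorProduct.tmul_add, map_add, hθ, hk, map_add]
    have hρb : ρ (1 ⊗ₜ algebraMap K D b) = Matrix.scalar (Fin n) (i x - θ) := by
      rw [hb, map_sub, TensorProduct.tmul_sub, map_sub, hθ, hk, map_sub]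
    have h3 : ρ ((1 ⊗ₜ algebraMap K D b) * (1 - W * Y.1)) = Matrix.scalar (Fin n) (i x + θ) *
        (Matrix.scalar (Fin n) ((i x - θ) / (i x + θ)) - ρ Y.1) := by
      have h4 : (1 ⊗ₜ[k] algebraMap K D b) * W = 1 ⊗ₜ[k] algebraMap K D a := by
        rw [hW, Algebra.TensorProduct.tmul_mul_tmul, one_mul, hw, ← map_mul, hω, mul_comm a,
          mul_inv_cancel_left₀ hb0]
      rw [mul_sub, mul_one, ← mul_assoc, h4, map_sub, map_mul, hρa, hρb, mul_sub, ← map_mul,
        mul_div_cancel₀ _ (hne x)]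
    obtain ⟨V, hV⟩ : IsUnit (ρ ((1 ⊗ₜ algebraMap K D b) * (1 - W * Y.1))) := by
      rw [h3]
      exact ((isUnit_iff_ne_zero.mpr (hne x)).map (Matrix.scalar (Fin n))).mul hx
    refine ⟨ρ.symm ((V⁻¹ : (Matrix (Fin n) (Fin n) L)ˣ) : Matrix (Fin n) (Fin n) L) *
      (1 ⊗ₜ algebraMap K D b), ?_⟩
    apply ρ.injective
    rw [mul_assoc, map_mul, AlgEquiv.apply_symm_apply, ← hV, Units.inv_mul, map_one]
  obtain ⟨y, hy1, hy2, hy3⟩ := dense_unit₀ (hS := hS) B hg hY' (Λ := sg hS v U) (by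
    change (1 - sg hS v (W * Y.1)) * sg hS v U = 1
    have h1 : 1 - sg hS v (W * Y.1) = sg hS v (1 - W * Y.1) := by rw [map_sub, sg_one]
    rw [h1, ← sg_mul, hU, sg_one])
  have hW' : (1 ⊗ₜ[k] star w) * W = (1 : v.adicCompletion k ⊗[k] D) := by
    rw [hW, Algebra.TensorProduct.tmul_mul_tmul, one_mul, hww']
    rfl
  refine ⟨fun j => star w • y j, fun j => ?_, ?_, ?_⟩
  · dsimp only
    rw [hh_smul_left, hh_smul_right, hy1 j, one_mul, star_star, hww']
  · have h1 := (Cv.const B v (star w)).mul hy2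
    rw [← mul_assoc, hW', one_mul] at h1
    exact h1
  · have h1 := (Cv.const B v (star w)).mul hy3
    rw [← mul_assoc, hW', one_mul] at h1
    exact h1

end complete

end Vale.Agent.P011.Two
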