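import Vale.Agent.P011.Two.MatchedGood

/-!
Every unitary element extends to an isometry of the plane in the subgroup.
-/

open Module Polynomial NumberField IsDedekindDomain

namespace Vale.Agent.P011.Two

open Vale.Agent.P011.Arith Vale.Agent.P011.Even

variable {k K D : Type} [Field k] [NumberField k] [Field K] [StarRing K]
    [DivisionRing D] [StarRing D] [Algebra k K] [Algebra k D] [Algebra K D] [IsScalarTower k K D]
    {d : kˣ} {s : K}

/-- The unitary elements which extend to an element of `N`. -/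
def extG (N : Subgroup ((D × D) ≃ₗ[D] (D × D))) : Subgroup (unitary D) where
  carrier := {t | ∃ t' : D, ∃ u ∈ N, IsDiag (t : D) t' u}
  mul_mem' := by
    rintro t₁ t₂ ⟨t₁', u₁, hu₁, h₁, h₁'⟩ ⟨t₂', u₂, hu₂, h₂, h₂'⟩
    refine ⟨t₁' * t₂', u₂ * u₁, N.mul_mem hu₂ hu₁, ?_, ?_⟩
    · change u₂ (u₁ (1, 0)) = (((t₁ : D) * (t₂ : D)), 0)
      have h3 : ((t₁ : D), (0 : D)) = (t₁ : D) • ((1 : D), (0 : D)) := by
        rw [Prod.smul_mk, smul_eq_mul, smul_eq_mul, mul_one, mul_zero]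
      rw [h₁, h3, map_smul, h₂, Prod.smul_mk, smul_eq_mul, smul_eq_mul, mul_zero]
    · change u₂ (u₁ (0, 1)) = (0, t₁' * t₂')
      have h3 : ((0 : D), t₁') = t₁' • ((0 : D), (1 : D)) := by
        rw [Prod.smul_mk, smul_eq_mul, smul_eq_mul, mul_one, mul_zero]
      rw [h₁', h3, map_smul, h₂', Prod.smul_mk, smul_eq_mul, smul_eq_mul, mul_zero]
  one_mem' := ⟨1, 1, N.one_mem, rfl, rfl⟩
  inv_mem' := by
    rintro t ⟨t', u, hu, h, h'⟩
    have ht0 : (t : D) ≠ 0 := by
      intro h0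
      have h1 := (Unitary.mem_iff.mp t.2).2
      rw [h0, zero_mul] at h1
      exact zero_ne_one h1
    have ht' : t' ≠ 0 := by
      rintro rfl
      have h1 : ((0 : D), (1 : D)) = 0 := u.injective (by rw [h', map_zero]; rfl)
      exact one_ne_zero (congrArg Prod.snd h1)
    have hti : ((t⁻¹ : unitary D) : D) = (t : D)⁻¹ := by
      apply eq_inv_of_mul_eq_one_left
      have : ((t⁻¹ * t : unitary D) : D) = 1 := by rw [inv_mul_cancel]; rfl
      exact this
    have key : ∀ x y : D × D, ∀ a : D, a ≠ 0 → u x = a • x → u⁻¹ x = a⁻¹ • x := by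
      intro x _ a ha hx
      apply u.injective
      rw [map_smul, hx, smul_smul, inv_mul_cancel₀ ha, one_smul]
      exact u.apply_symm_apply x
    refine ⟨t'⁻¹, u⁻¹, N.inv_mem hu, ?_, ?_⟩
    · rw [hti, key (1, 0) 0 (t : D) ht0 (by
        rw [h, Prod.smul_mk, smul_eq_mul, smul_eq_mul, mul_one, mul_zero]), Prod.smul_mk,
        smul_eq_mul, smul_eq_mul, mul_one, mul_zero]
    · rw [key (0, 1) 0 t' ht' (by
        rw [h', Prod.smul_mk, smul_eq_mul, smul_eq_mul, mul_one, mul_zero]), Prod.smul_mk,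
        smul_eq_mul, smul_eq_mul, mul_one, mul_zero]

/-- 2G. Matched pairs. -/
theorem matched (hS : Setting k K D d s) {n : ℕ} (hn : 2 ≤ n) (hdeg : finrank K D = n ^ 2)
    {g : D} (hg : star g = g) (han : An g) {e : ℕ} (he : 0 < e)
    {N : Subgroup ((D × D) ≃ₗ[D] (D × D))} (hHQ : HQ d s g e N) (t : D) (ht : t * star t = 1) :
    ∃ t' : D, ∃ u ∈ N, IsDiag t t' u := by
  have := hS.fin
  have := hS.cen
  have : NumberField K := numberField_of_setting hS
  have hn0 : 0 < n := by omega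
  have hg0 : g ≠ 0 := by
    rintro rfl
    have h1 := han (0, 1) (by simp [hh])
    exact one_ne_zero (congrArg Prod.snd h1)
  obtain ⟨f⟩ := Vale.Agent.P011S.exists_split (K := K) (D := D) hdeg (AlgebraicClosure K)
  obtain ⟨ν, hν⟩ := exists_nrd hn0 hdeg f g
  obtain ⟨ν', rfl⟩ := (hS.fix ν).mp (star_nrd hn0 hdeg hS.star_alg f hg hν)
  have hν0 : ν' ≠ 0 := by
    rintro rfl
    rw [map_zero, map_zero] at hν
    have h1 : f g * f g⁻¹ = 1 := by rw [← map_mul, mul_inv_cancel₀ hg0, map_one]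
    have h2 := congrArg Matrix.det h1
    rw [Matrix.det_mul, hν, zero_mul, Matrix.det_one] at h2
    exact zero_ne_one h2
  obtain ⟨V, hV⟩ := exists_ctrl hS.ns ((-1) ^ n * Units.mk0 ν' hν0)
  have hc0 : (4 : k) * (e : k) ^ 4 ≠ 0 :=
    mul_ne_zero (by norm_num) (pow_ne_zero _ (Nat.cast_ne_zero.mpr he.ne'))
  have htt : star t * t = 1 := by
    have ht0 : t ≠ 0 := by
      rintro rfl
      rw [zero_mul] at ht
      exact zero_ne_one ht
    have h1 : star t = t⁻¹ := eq_inv_of_mul_eq_one_right ht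
    rw [h1, inv_mul_cancel₀ ht0]
  exact generate hS hn hdeg (Units.mk0 _ hc0) hV.fin hV.nonsplit (extG N)
    (fun t hfin hreal => matched_good hS hn hdeg hg hg0 he hHQ f (ν := Units.mk0 ν' hν0) hν hV
      (c := Units.mk0 _ hc0) rfl t hfin hreal) ⟨t, Unitary.mem_iff.mpr ⟨htt, ht⟩⟩

end Vale.Agent.P011.Two
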