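import Vale.Agent.P011.Two.Defs
import Vale.Agent.P011.Even.GNorm

/-!
Local chains of unit vectors.
-/

open NumberField IsDedekindDomain

namespace Vale.Agent.P011.Two

open Vale.Agent.P011.Arith Vale.Agent.P011.Even

/-- Local chains from `y` to the line of `y'` at the place `p`. The number `μ` does not depend
on `η`. -/
def Chain {k D : Type} [Field k] [NumberField k] [DivisionRing D] [StarRing D] [Algebra k D]
    {N : ℕ} (B : Module.Basis (Fin N) k D) (d : kˣ) (g : D) (p : Pl k) (y y' : D × D) : Prop :=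
  ∃ μ : ℝ, 0 < μ ∧ ∀ η : ℝ, 0 < η → ∃ (m : ℕ) (a : ℕ → kˣ) (Y : ℕ → D × D),
    (∀ i < m, a i = 1 ∨ (μ ≤ plAbv p (a i : k) ∧ a i ∈ NF d ⊔ LSp p ∧
      ∀ v, p = .inl v → ∃ a₁ : kˣ, (a₁ : k) = 1 - a i ∧ μ ≤ plAbv p (a₁ : k) ∧
        -a₁ ∈ NF d ⊔ LSp p)) ∧
    Y 0 = y ∧ (∃ δ : D, δ * star δ = 1 ∧ Y m = δ • y') ∧
    (∀ i ≤ m, hh g (Y i) (Y i) = 1) ∧ (∀ i < m, hh g (Y i) (Y (i + 1)) ≠ 1) ∧
    ∀ i < m, nm B p ((hh g (Y i) (Y (i + 1)) * star (hh g (Y i) (Y (i + 1))) - 1) *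
      (hh g (Y i) (Y (i + 1)) * star (hh g (Y i) (Y (i + 1))) - algebraMap k D (a i))) < η

end Vale.Agent.P011.Two
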