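import Vale.Agent.P011.Two.LocChain
import Vale.Agent.P011.Two.ChainDefs

/-!
P011, rank two: chains of unit vectors at the nonsplit finite places.
-/

open NumberField IsDedekindDomain TensorProduct Filter Topology Matrix Module

set_option linter.unusedSectionVars false

namespace Vale.Agent.P011.Two

open Vale.Agent.P011.Arith Vale.Agent.P011.Even Vale.Agent.P011.T2

theorem exists_lower (m : ℕ) (f : ℕ → ℝ) (hf : ∀ i < m, 0 < f i) :
    ∃ μ : ℝ, 0 < μ ∧ ∀ i < m, μ < f i := by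
  induction m with
  | zero => exact ⟨1, one_pos, fun i hi => absurd hi (Nat.not_lt_zero i)⟩
  | succ m ih =>
    obtain ⟨μ, hμ, h⟩ := ih fun i hi => hf i (Nat.lt_succ_of_lt hi)
    have hm := hf m (Nat.lt_succ_self m)
    refine ⟨min μ (f m / 2), lt_min hμ (by linarith), fun i hi => ?_⟩
    rcases Nat.lt_succ_iff_lt_or_eq.mp hi with h1 | h1
    · exact (min_le_left _ _).trans_lt (h i h1)
    · rw [h1]
      exact (min_le_right _ _).trans_lt (by linarith)

section

variable {k : Type} [Field k] [NumberField k] {d : kˣ} {v : HeightOneSpectrum (𝓞 k)}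

/-- The local norm groups are open. -/
theorem near_LN {u : (v.adicCompletion k)ˣ} (hu : u ∈ LN (iu v d)) {a : ℕ → k}
    (ha : Tendsto (fun j => algebraMap k (v.adicCompletion k) (a j)) atTop
      (𝓝 (u : v.adicCompletion k))) :
    ∀ᶠ j in atTop, ∃ U : kˣ, (U : k) = a j ∧ U ∈ NF d ⊔ LS (v.valuation k) := by
  have hu0 : (u : v.adicCompletion k) ≠ 0 := u.ne_zero
  have h1 : Tendsto (fun j => ‖algebraMap k (v.adicCompletion k) (a j) / u - 1‖) atTop (𝓝 0) := by
    have := ((ha.div_const (u : v.adicCompletion k)).sub_const 1).norm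
    rwa [div_self hu0, sub_self, norm_zero] at this
  have h4 : (0 : ℝ) < ‖(4 : v.adicCompletion k)‖ := norm_pos_iff.mpr (by norm_num)
  filter_upwards [h1.eventually (Iio_mem_nhds h4), ha.eventually_ne hu0] with j hj hj0
  have hj1 : ‖algebraMap k (v.adicCompletion k) (a j) / u - 1‖ < ‖(4 : v.adicCompletion k)‖ := hj
  rw [Even.norm_lt_iff] at hj1
  have ha0 : a j ≠ 0 := by
    intro h
    rw [h, map_zero] at hj0
    exact hj0 rfl
  obtain ⟨z, hz⟩ := isSquare_of_close v hj1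
  refine ⟨Units.mk0 (a j) ha0, rfl, ?_⟩
  rw [← mem_LN_iff]
  have hz0 : z ≠ 0 := by
    rintro rfl
    rw [mul_zero, div_eq_zero_iff] at hz
    exact hz.elim hj0 hu0
  have h2 : iu v (Units.mk0 (a j) ha0) = u * (Units.mk0 z hz0) ^ 2 := by
    apply Units.ext
    rw [iu_val, Units.val_mk0, Units.val_mul, Units.val_pow_eq_pow_val, Units.val_mk0, sq, ← hz,
      mul_div_cancel₀ _ hu0]
  rw [h2]
  exact mul_mem hu (sq_mem_LN _ _)

end

variable {k K D : Type} [Field k] [NumberField k] [Field K] [StarRing K]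
  [DivisionRing D] [StarRing D] [Algebra k K] [Algebra k D] [Algebra K D] [IsScalarTower k K D]
  {d : kˣ} {s : K}

theorem hF_tmul (hS : Setting k K D d s) (v : HeightOneSpectrum (𝓞 k)) (g : D) (x y : D × D) :
    hF hS v g (1 ⊗ₜ x.1, 1 ⊗ₜ x.2) (1 ⊗ₜ y.1, 1 ⊗ₜ y.2) = 1 ⊗ₜ hh g x y := by
  unfold hF hh
  simp only [sg_tmul, Algebra.TensorProduct.tmul_mul_tmul, one_mul, TensorProduct.tmul_add]

theorem hh_neg_one_pow (g : D) (i j : ℕ) (x y : D × D) :
    hh g (((-1 : D) ^ i) • x) (((-1 : D) ^ j) • y) = (-1) ^ (i + j) * hh g x y := by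
  have h1 : star ((-1 : D) ^ j) = (-1) ^ j := by rw [star_pow, star_neg, star_one]
  have h2 : ∀ z : D, z * (-1) ^ j = (-1) ^ j * z := fun z =>
    ((Commute.neg_one_left z).pow_left j).eq.symm
  rw [hh_smul_left, hh_smul_right, h1, h2, ← mul_assoc, ← pow_add]

/-- 2L, finite places. -/
theorem chain_fin (hS : Setting k K D d s) {n : ℕ} (hn : 2 ≤ n) (hdeg : finrank K D = n ^ 2)
    {g : D} (hg : star g = g) (han : An g) {N : ℕ} (B : Module.Basis (Fin N) k D)
    (v : HeightOneSpectrum (𝓞 k)) (hv : d ∉ LS (v.valuation k)) {y y' : D × D}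
    (hy : hh g y y = 1) (hy' : hh g y' y' = 1) : Chain B d g (.inl v) y y' := by
  classical
  have hg0 : g ≠ 0 := by
    rintro rfl
    have h1 := han (0, 1) (by simp [hh])
    exact one_ne_zero (congrArg Prod.snd h1)
  obtain ⟨L, _, _, _, ρ, G, hfix, hL2, hGu, hGs, hG⟩ := exists_local_model hS hdeg v hv
  have hG' : ∀ T, G * ρ (sg hS v T) = (ρ T)ᴴ * G := hG
  have hin : ∀ x : D × D, hh g x x = 1 → hF hS v g (1 ⊗ₜ x.1, 1 ⊗ₜ x.2) (1 ⊗ₜ x.1, 1 ⊗ₜ x.2) = 1 := by
    intro x hx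
    rw [hF_tmul, hx]
    rfl
  obtain ⟨m, Y, hY0, hYm, hYs⟩ := exists_seq_rtg
    (local_chain hn hv hGu hGs hG' hfix hg hg0 _ _ (hin y hy) (hin y' hy'))
  have hYY : ∀ i ≤ m, hF hS v g (Y i) (Y i) = 1 := by
    intro i hi
    rcases Nat.lt_or_ge i m with h | h
    · exact (hYs i h).1
    · have : i = m := le_antisymm hi h
      rw [this, hYm]
      exact hin y' hy'
  -- approximations of the vectors
  have hW : ∀ i, ∃ w : ℕ → D × D, i ≤ m → (∀ j, hh g (w j) (w j) = 1) ∧ Cv2 B v w (Y i) := by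
    intro i
    by_cases hi : i ≤ m
    · obtain ⟨w, h1, h2⟩ := dense_unit (hS := hS) (ρ := ρ) (by omega)
        (fun a => (hfix _).mpr ⟨a, rfl⟩) hGu hG' B hg (hYY i hi)
      exact ⟨w, fun _ => ⟨h1, h2⟩⟩
    · exact ⟨fun _ => y, fun h => absurd h hi⟩
  choose w₀ hw₀ using hW
  let w : ℕ → ℕ → D × D := fun i => if i = 0 then fun _ => y else if i = m then fun _ => y' else w₀ i
  have hw0 : w 0 = fun _ => y := if_pos rfl
  have hwm : 0 < m → w m = fun _ => y' := by
    intro h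
    change (if m = 0 then _ else _) = _
    rw [if_neg (by omega), if_pos rfl]
  have hyy : m = 0 → y = y' := by
    intro h
    subst h
    rw [hY0] at hYm
    have h1 := congrArg Prod.fst hYm
    have h2 := congrArg Prod.snd hYm
    have hinj : ∀ a b : D, (1 : v.adicCompletion k) ⊗ₜ[k] a = 1 ⊗ₜ b → a = b := by
      intro a b h3
      by_contra h4
      apply one_tmul_ne (v := v) (sub_ne_zero.mpr h4)
      rw [TensorProduct.tmul_sub, h3, sub_self]
    exact Prod.ext (hinj _ _ h1) (hinj _ _ h2)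
  have hw : ∀ i ≤ m, (∀ j, hh g (w i j) (w i j) = 1) ∧ Cv2 B v (w i) (Y i) := by
    intro i hi
    by_cases h0 : i = 0
    · subst h0
      rw [hw0, hY0]
      exact ⟨fun _ => hy, Cv.const B v y.1, Cv.const B v y.2⟩
    · by_cases h1 : i = m
      · subst h1
        rw [hwm (by omega), hYm]
        exact ⟨fun _ => hy', Cv.const B v y'.1, Cv.const B v y'.2⟩
      · have : w i = w₀ i := by
          change (if i = 0 then _ else _) = _
          rw [if_neg h0, if_neg h1]
        rw [this]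
        exact hw₀ i hi
  -- the local numbers
  have hA : ∀ i, ∃ a a₁ : (v.adicCompletion k)ˣ, i < m → a ∈ LN (iu v d) ∧
      (a₁ : v.adicCompletion k) = 1 - a ∧ -a₁ ∈ LN (iu v d) ∧
      (hF hS v g (Y i) (Y (i + 1)) * sg hS v (hF hS v g (Y i) (Y (i + 1))) - 1) *
        (hF hS v g (Y i) (Y (i + 1)) * sg hS v (hF hS v g (Y i) (Y (i + 1))) -
          algebraMap (v.adicCompletion k) _ (a : v.adicCompletion k)) = 0 := by
    intro i
    by_cases hi : i < m
    · obtain ⟨-, -, -, a, a₁, h⟩ := hYs i hi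
      exact ⟨a, a₁, fun _ => h⟩
    · exact ⟨1, 1, fun h => absurd h hi⟩
  choose a a₁ ha using hA
  choose α hα using fun i => exists_seq v ((a i : (v.adicCompletion k)ˣ) : v.adicCompletion k)
  obtain ⟨μ, hμ, hμa⟩ := exists_lower m
    (fun i => min ‖(a i : v.adicCompletion k)‖ ‖(a₁ i : v.adicCompletion k)‖)
    (fun i _ => lt_min (norm_pos_iff.mpr (a i).ne_zero) (norm_pos_iff.mpr (a₁ i).ne_zero))
  refine ⟨μ, hμ, fun η hη => ?_⟩
  -- everything holds eventually
  have hev : ∀ i < m, ∀ᶠ j in atTop,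
      (∃ U : kˣ, (U : k) = α i j ∧ U ∈ NF d ⊔ LS (v.valuation k)) ∧
      (∃ U : kˣ, (U : k) = -(1 - α i j) ∧ U ∈ NF d ⊔ LS (v.valuation k)) ∧
      μ < ‖algebraMap k (v.adicCompletion k) (α i j)‖ ∧
      μ < ‖algebraMap k (v.adicCompletion k) (-(1 - α i j))‖ ∧
      hh g (w i j) (w (i + 1) j) ≠ -1 ∧
      nm B (.inl v) ((hh g (w i j) (w (i + 1) j) * star (hh g (w i j) (w (i + 1) j)) - 1) *
        (hh g (w i j) (w (i + 1) j) * star (hh g (w i j) (w (i + 1) j)) -
          algebraMap k D (α i j)) - 0) < η := by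
    intro i hi
    obtain ⟨h1, h2, h3, h4⟩ := ha i hi
    have hc1 : Tendsto (fun j => algebraMap k (v.adicCompletion k) (-(1 - α i j))) atTop
        (𝓝 ((-a₁ i : (v.adicCompletion k)ˣ) : v.adicCompletion k)) := by
      rw [Units.val_neg, h2]
      have := ((hα i).const_sub 1).neg
      refine this.congr fun j => ?_
      rw [map_neg, map_sub, map_one]
    have hμ1 := hμa i hi
    rw [lt_min_iff] at hμ1
    have hcv := ((hw i hi.le).2.hh (hS := hS) (hw (i + 1) hi).2 g)
    have hcc := hcv.mul (hcv.star (hS := hS))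
    have hlim := (hcc.sub (Cv.const B v 1)).mul (hcc.sub (Cv.alg (hα i)))
    have h5 : (1 : v.adicCompletion k) ⊗ₜ[k] (1 : D) = 1 := rfl
    rw [h5, h4, ← TensorProduct.tmul_zero (R := k) D (1 : v.adicCompletion k)] at hlim
    have hne : hF hS v g (Y i) (Y (i + 1)) ≠ 1 ⊗ₜ (-1 : D) := by
      rw [TensorProduct.tmul_neg, h5]
      exact (hYs i hi).2.2.1
    have e1 := near_LN h1 (hα i)
    have e2 := near_LN h3 hc1
    have e3 := (hα i).norm.eventually (Ioi_mem_nhds hμ1.1)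
    have e4 := hc1.norm.eventually (Ioi_mem_nhds (b := ‖((-a₁ i : (v.adicCompletion k)ˣ) :
      v.adicCompletion k)‖) (by rw [Units.val_neg, norm_neg]; exact hμ1.2))
    have e5 := hcv.ne hne
    have e6 := hlim.size.eventually (Iio_mem_nhds hη)
    filter_upwards [e1, e2, e3, e4, e5, e6] with j f1 f2 f3 f4 f5 f6
    exact ⟨f1, f2, f3, f4, f5, f6⟩
  obtain ⟨j, hj⟩ : ∃ j, ∀ i < m,
      (∃ U : kˣ, (U : k) = α i j ∧ U ∈ NF d ⊔ LS (v.valuation k)) ∧
      (∃ U : kˣ, (U : k) = -(1 - α i j) ∧ U ∈ NF d ⊔ LS (v.valuation k)) ∧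
      μ < ‖algebraMap k (v.adicCompletion k) (α i j)‖ ∧
      μ < ‖algebraMap k (v.adicCompletion k) (-(1 - α i j))‖ ∧
      hh g (w i j) (w (i + 1) j) ≠ -1 ∧
      nm B (.inl v) ((hh g (w i j) (w (i + 1) j) * star (hh g (w i j) (w (i + 1) j)) - 1) *
        (hh g (w i j) (w (i + 1) j) * star (hh g (w i j) (w (i + 1) j)) -
          algebraMap k D (α i j)) - 0) < η := by
    have h1 := (Finset.eventually_all (Finset.range m)).mpr (fun i hi =>
      hev i (Finset.mem_range.mp hi))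
    obtain ⟨j, hj⟩ := h1.exists
    exact ⟨j, fun i hi => hj i (Finset.mem_range.mpr hi)⟩
  choose U hU1 hU2 using fun i (hi : i < m) => (hj i hi).1
  refine ⟨m, fun i => if hi : i < m then U i hi else 1, fun i => ((-1 : D) ^ i) • w i j,
    ?_, ?_, ?_, ?_, ?_, ?_⟩
  · intro i hi
    right
    dsimp only
    rw [dif_pos hi]
    obtain ⟨-, ⟨V, hV1, hV2⟩, h3, h4, -, -⟩ := hj i hi
    refine ⟨?_, hU2 i hi, ?_⟩
    · rw [hU1, plAbv_norm]
      exact h3.le
    · intro v' hv'
      have hvv : v = v' := Sum.inl_injective hv'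
      subst hvv
      refine ⟨-V, ?_, ?_, ?_⟩
      · rw [Units.val_neg, hV1, hU1, neg_neg]
      · rw [Units.val_neg, AbsoluteValue.map_neg, hV1, plAbv_norm]
        exact h4.le
      · rw [neg_neg]
        exact hV2
  · dsimp only
    rw [pow_zero, one_smul, hw0]
  · refine ⟨(-1) ^ m, ?_, ?_⟩
    · rw [star_pow, star_neg, star_one, ← pow_add, Even.neg_one_pow ⟨m, rfl⟩]
    · dsimp only
      rcases Nat.eq_zero_or_pos m with h | h
      · subst h
        rw [hw0, hyy rfl]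
      · rw [hwm h]
  · intro i hi
    dsimp only
    rw [hh_neg_one_pow, (hw i hi).1 j, Even.neg_one_pow ⟨i, rfl⟩, one_mul]
  · intro i hi
    dsimp only
    rw [hh_neg_one_pow, Odd.neg_one_pow ⟨i, by ring⟩, neg_one_mul]
    intro h
    apply (hj i hi).2.2.2.2.1
    rw [← h, neg_neg]
  · intro i hi
    dsimp only
    rw [dif_pos hi, hh_neg_one_pow, Odd.neg_one_pow ⟨i, by ring⟩, neg_one_mul, star_neg, neg_mul_neg,
      hU1]
    have := (hj i hi).2.2.2.2.2
    rwa [sub_zero] at this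

end Vale.Agent.P011.Two
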