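import Vale.Agent.P011.Two.ChainRealC

/-!
Local chains of unit vectors at a real place.
-/

open NumberField IsDedekindDomain Module

set_option linter.unusedSectionVars false

namespace Vale.Agent.P011.Two.CR

open Vale.Agent.P011.Arith Vale.Agent.P011.Even

theorem exists_seq_of_rtg {α : Type*} {r : α → α → Prop} {x y : α} (h : Relation.ReflTransGen r x y) :
    ∃ (m : ℕ) (Y : ℕ → α), Y 0 = x ∧ Y m = y ∧ ∀ i < m, r (Y i) (Y (i + 1)) := by
  induction h with
  | refl => exact ⟨0, fun _ => x, rfl, rfl, fun i hi => absurd hi (Nat.not_lt_zero i)⟩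
  | @tail b c _ hbc ih =>
    obtain ⟨m, Y, h0, hm, hr⟩ := ih
    refine ⟨m + 1, fun i => if i ≤ m then Y i else c, ?_, ?_, fun i hi => ?_⟩
    · simp [h0]
    · simp
    · by_cases hi' : i < m
      · simp only [if_pos hi'.le, if_pos (Nat.succ_le_of_lt hi')]
        exact hr i hi'
      · have e : i = m := by omega
        subst e
        simp only [le_refl, if_true]
        rw [if_neg (by omega), hm]
        exact hbc

variable {k K D : Type} [Field k] [NumberField k] [Field K] [StarRing K]
  [DivisionRing D] [StarRing D] [Algebra k K] [Algebra k D] [Algebra K D] [IsScalarTower k K D]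
  {d : kˣ} {s : K} {n N : ℕ} {g : D}

/-- The step relation of chains. -/
def St (B : Module.Basis (Fin N) k D) (g : D) (p : Pl k) (η : ℝ) (Y Y' : D × D) : Prop :=
  hh g Y Y = 1 ∧ hh g Y' Y' = 1 ∧ hh g Y Y' ≠ 1 ∧
    Even.nm B p ((hh g Y Y' * star (hh g Y Y') - 1) * (hh g Y Y' * star (hh g Y Y') - 1)) < η

/-- The estimate. -/
theorem rot_estimate (hS : Setting k K D d s) (B : Module.Basis (Fin N) k D) (p : Pl k)
    {y z : D × D} (lam : D) (M : ℝ) : ∃ A : ℝ, 0 ≤ A ∧ ∀ ρ ρ' : D, Even.nm B p ρ ≤ M →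
      Even.nm B p (ρ' - ρ) ≤ 1 →
      hh g (y + (lam * (ρ - 1)) • z) (y + (lam * (ρ - 1)) • z) = 1 →
      ∀ ζ, ζ = hh g (y + (lam * (ρ - 1)) • z) (y + (lam * (ρ' - 1)) • z) →
      Even.nm B p ((ζ * star ζ - 1) * (ζ * star ζ - 1)) ≤ A * Even.nm B p (ρ' - ρ) := by
  obtain ⟨C, hC, hmul⟩ := nm_mul B p
  obtain ⟨Cs, hCs, hstar⟩ := nm_linear B p (sig hS)
  simp only [sig_apply] at hstar
  set κ : D := hh g y z with hκ
  set ω : D := hh g z z with hω
  have n0 : ∀ x, 0 ≤ Even.nm B p x := nm_nonneg B p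
  set A1 : ℝ := Even.nm B p κ + C * (C * Even.nm B p lam * (|M| + Even.nm B p 1)) * Even.nm B p ω
    with hA1
  have hA10 : 0 ≤ A1 := by
    have := n0 κ; have := n0 lam; have := n0 1; have := n0 ω
    positivity
  set A2 : ℝ := C * A1 * (Cs * (C * Even.nm B p lam)) with hA2
  have hA20 : 0 ≤ A2 := by have := n0 lam; positivity
  set A3 : ℝ := (1 + Cs + C * Cs * A2) * A2 with hA3
  have hA30 : 0 ≤ A3 := by positivity
  refine ⟨C * A3 * A3, by positivity, fun ρ ρ' hρ hE hY ζ hζ => ?_⟩
  set E : D := ρ' - ρ with hEdef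
  set Y : D × D := y + (lam * (ρ - 1)) • z with hYdef
  have hY' : y + (lam * (ρ' - 1)) • z = Y + (lam * E) • z := by
    rw [hYdef, hEdef, add_assoc, ← add_smul]
    congr 2
    noncomm_ring
  set T : D := hh g Y z with hT
  have hζ2 : ζ = 1 + T * star (lam * E) := by
    rw [hζ, hY', hh_add_right, hY, hh_smul_right]
  have hTe : T = κ + lam * (ρ - 1) * ω := by
    rw [hT, hYdef, hh_add_left, hh_smul_left]
  have hρ' : Even.nm B p ρ ≤ |M| := hρ.trans (le_abs_self M)
  have hTn : Even.nm B p T ≤ A1 := by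
    rw [hTe]
    refine (nm_add_le B p _ _).trans ?_
    refine add_le_add le_rfl ?_
    refine (hmul _ _).trans ?_
    refine mul_le_mul_of_nonneg_right ?_ (n0 _)
    refine mul_le_mul_of_nonneg_left ?_ hC.le
    refine (hmul _ _).trans ?_
    refine mul_le_mul_of_nonneg_left ?_ (mul_nonneg hC.le (n0 _))
    exact (nm_sub_le B p _ _).trans (add_le_add hρ' le_rfl)
  set δ : D := T * star (lam * E) with hδ
  have hδn : Even.nm B p δ ≤ A2 * Even.nm B p E := by
    refine (hmul _ _).trans ?_
    have h1 : Even.nm B p (star (lam * E)) ≤ Cs * (C * Even.nm B p lam * Even.nm B p E) :=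
      (hstar _).trans (mul_le_mul_of_nonneg_left (hmul _ _) hCs.le)
    calc C * Even.nm B p T * Even.nm B p (star (lam * E))
        ≤ C * A1 * (Cs * (C * Even.nm B p lam * Even.nm B p E)) := by
          refine mul_le_mul (mul_le_mul_of_nonneg_left hTn hC.le) h1 (n0 _) (by positivity)
      _ = A2 * Even.nm B p E := by rw [hA2]; ring
  have hδ1 : Even.nm B p δ ≤ A2 := hδn.trans (by nlinarith [n0 E])
  have hc : ζ * star ζ - 1 = δ + star δ + δ * star δ := by
    rw [hζ2, star_add, star_one]
    noncomm_ring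
  have hcn : Even.nm B p (ζ * star ζ - 1) ≤ A3 * Even.nm B p E := by
    rw [hc]
    refine (nm_add_le B p _ _).trans ?_
    have h1 := nm_add_le B p δ (star δ)
    have h2 := hstar δ
    have h3 : Even.nm B p (δ * star δ) ≤ C * A2 * (Cs * Even.nm B p δ) :=
      (hmul _ _).trans (mul_le_mul (mul_le_mul_of_nonneg_left hδ1 hC.le) h2 (n0 _) (by positivity))
    have h4 : (1 + Cs + C * Cs * A2) * Even.nm B p δ ≤
        (1 + Cs + C * Cs * A2) * (A2 * Even.nm B p E) :=
      mul_le_mul_of_nonneg_left hδn (by positivity)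
    calc Even.nm B p (δ + star δ) + Even.nm B p (δ * star δ)
        ≤ (Even.nm B p δ + Cs * Even.nm B p δ) + C * A2 * (Cs * Even.nm B p δ) := by linarith
      _ = (1 + Cs + C * Cs * A2) * Even.nm B p δ := by ring
      _ ≤ _ := h4
      _ = A3 * Even.nm B p E := by rw [hA3]; ring
  refine (hmul _ _).trans ?_
  have hE0 := n0 E
  calc C * Even.nm B p (ζ * star ζ - 1) * Even.nm B p (ζ * star ζ - 1)
      ≤ C * (A3 * Even.nm B p E) * (A3 * Even.nm B p E) := by
        refine mul_le_mul (mul_le_mul_of_nonneg_left hcn hC.le) hcn (n0 _) (by positivity)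
    _ = C * A3 * A3 * Even.nm B p E * Even.nm B p E := by ring
    _ ≤ C * A3 * A3 * Even.nm B p E * 1 := mul_le_mul_of_nonneg_left hE (by positivity)
    _ = _ := by ring

/-- Chains between unit vectors with nonsymmetric product. -/
theorem chain_line (hS : Setting k K D d s) (hn : 0 < n) (hdeg : finrank K D = n ^ 2)
    (hg : star g = g) (han : An g) (B : Module.Basis (Fin N) k D) {φ : k →+* ℝ} (hd : φ d < 0)
    {y y' : D × D} (hy : hh g y y = 1) (hy' : hh g y' y' = 1)
    (hns : star (hh g y y') ≠ hh g y y') (η : ℝ) (hη : 0 < η) :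
    Relation.ReflTransGen (St B g (.inr φ) η) y y' := by
  set ζ : D := hh g y y' with hζ
  set z : D × D := y - y' with hz
  set κ : D := 1 - ζ with hκ
  have hyz : hh g y z = κ := by rw [hz, hh_sub_right, hy, hκ]
  have hy'y : hh g y' y = star ζ := by rw [hζ, hh_symm hg]
  set ω : D := hh g z z with hω
  have hω2 : ω = κ + star κ := by
    rw [hω, hz, hh_sub_left, hh_sub_right, hh_sub_right, hy, hy', hy'y, ← hζ, hκ, star_sub,
      star_one]
    abel
  have hκ0 : κ ≠ 0 := by
    intro h
    apply hns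
    have : ζ = 1 := by rw [hκ, sub_eq_zero] at h; exact h.symm
    rw [this, star_one]
  have hz0 : z ≠ 0 := by
    intro h
    rw [h] at hyz
    apply hκ0
    rw [← hyz]
    simp [hh]
  have hω0 : ω ≠ 0 := fun h => hz0 (han z h)
  have hωs : star ω = ω := by rw [hω, hh_symm hg]
  set lam : D := κ * ω⁻¹ with hlam
  have hlω : hh g y z = lam * ω := by rw [hyz, hlam, inv_mul_cancel_right₀ hω0]
  set ρ : D := -(star κ * κ⁻¹) with hρ
  have hsκ0 : star κ ≠ 0 := fun h => hκ0 (by rw [← star_star κ, h, star_zero])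
  have hρ0 : ρ ≠ 0 := neg_ne_zero.mpr (mul_ne_zero hsκ0 (inv_ne_zero hκ0))
  have hρ1 : 1 + ρ ≠ 0 := by
    intro h
    apply hns
    have h1 : star κ * κ⁻¹ = 1 := by
      rw [hρ] at h
      have := add_eq_zero_iff_eq_neg.mp h
      rw [neg_neg] at this
      exact this.symm
    have h2 : star κ = κ := by
      have := congrArg (· * κ) h1
      simpa [mul_assoc, inv_mul_cancel₀ hκ0] using this
    rw [hκ, star_sub, star_one] at h2
    exact sub_right_injective h2
  have hρω : ρ * ω * star ρ = ω := by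
    rw [hρ, star_neg, star_mul, star_inv₀, star_star, hω2]
    have e : -(star κ * κ⁻¹) * (κ + star κ) * -((star κ)⁻¹ * κ) =
        star κ * (κ⁻¹ * κ) * (star κ)⁻¹ * κ + star κ * κ⁻¹ * (star κ * (star κ)⁻¹) * κ := by
      noncomm_ring
    rw [e, inv_mul_cancel₀ hκ0, mul_one, mul_inv_cancel₀ hsκ0, mul_one, one_mul, mul_assoc,
      inv_mul_cancel₀ hκ0, mul_one]
  have hend : y + (lam * (ρ - 1)) • z = y' := by
    have h1 : ρ - 1 = -(ω * κ⁻¹) := by
      rw [hρ, hω2, add_mul, mul_inv_cancel₀ hκ0]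
      abel
    have h2 : lam * (ρ - 1) = -1 := by
      rw [h1, hlam, mul_neg, mul_assoc, inv_mul_cancel_left₀ hω0, mul_inv_cancel₀ hκ0]
    rw [h2, neg_one_smul, hz]
    abel
  obtain ⟨M, hM⟩ := rot_chain B hS hn hdeg hd hρ0 hρ1
  obtain ⟨A, hA, hest⟩ := rot_estimate (g := g) hS B (.inr φ) (y := y) (z := z) lam M
  set ε : ℝ := min 1 (η / (A + 1)) with hε
  have hε0 : 0 < ε := lt_min one_pos (by positivity)
  have hchain := hM ε hε0
  have key : ∀ w w' : K, Relation.ReflTransGen (fun w w' : K =>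
      algebraMap K D (star w) + ρ ≠ 0 ∧ algebraMap K D (star w') + ρ ≠ 0 ∧
      Even.nm B (.inr φ) (rot ρ w) ≤ M ∧ Even.nm B (.inr φ) (rot ρ w') ≤ M ∧
      Even.nm B (.inr φ) (rot ρ w' - rot ρ w) < ε) w w' →
      Relation.ReflTransGen (St B g (.inr φ) η) (y + (lam * (rot ρ w - 1)) • z)
        (y + (lam * (rot ρ w' - 1)) • z) := by
    intro w w' h
    induction h with
    | refl => exact Relation.ReflTransGen.refl
    | @tail w₁ w₂ _ hlast ih =>
      refine ih.trans ?_
      obtain ⟨a1, a2, a3, a4, a5⟩ := hlast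
      have u1 := rot_unit hg hy hω.symm hlω (rot_isom hS hω0 hωs hρω a1)
      have u2 := rot_unit hg hy hω.symm hlω (rot_isom hS hω0 hωs hρω a2)
      by_cases h1 : hh g (y + (lam * (rot ρ w₁ - 1)) • z) (y + (lam * (rot ρ w₂ - 1)) • z) = 1
      · rw [eq_of_hh_one hg han u1 u2 h1]
      · refine Relation.ReflTransGen.single ⟨u1, u2, h1, ?_⟩
        refine (hest _ _ a3 (a5.le.trans (min_le_left _ _)) u1 _ rfl).trans_lt ?_
        have h2 : Even.nm B (.inr φ) (rot ρ w₂ - rot ρ w₁) ≤ η / (A + 1) :=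
          a5.le.trans (min_le_right _ _)
        calc A * Even.nm B (.inr φ) (rot ρ w₂ - rot ρ w₁) ≤ A * (η / (A + 1)) :=
              mul_le_mul_of_nonneg_left h2 hA
          _ < η := by
              rw [mul_div_assoc', div_lt_iff₀ (by positivity)]
              nlinarith
  have hfin := key 0 1 hchain
  rw [rot_zero hρ0, rot_one hρ1, hend, sub_self, mul_zero, zero_smul, add_zero] at hfin
  exact hfin

/-- A central element of norm one. -/
theorem exists_twist (hS : Setting k K D d s) (ζ : D) (hζ : ζ ≠ 0) :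
    ∃ a : K, a * star a = 1 ∧ star (ζ * star (algebraMap K D a)) ≠ ζ * star (algebraMap K D a) := by
  by_cases h : star ζ = ζ
  · have := numberField_of_setting hS
    have hs1 : ∀ x : k, s ≠ algebraMap k K x := by
      intro x hx
      apply hS.ns
      refine ⟨x, ?_⟩
      apply (algebraMap k K).injective
      rw [← hS.sq, hx, map_mul, sq]
    have h1 : (1 - s : K) ≠ 0 := by
      intro h0
      exact hs1 1 (by rw [map_one]; exact (sub_eq_zero.mp h0).symm)
    have h2 : (1 + s : K) ≠ 0 := by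
      intro h0
      exact hs1 (-1) (by rw [map_neg, map_one]; exact (eq_neg_of_add_eq_zero_right h0))
    have hst : star ((1 + s) * (1 - s)⁻¹ : K) = (1 - s) * (1 + s)⁻¹ := by
      rw [star_mul, star_inv₀, star_sub, star_add, star_one, hS.star_s, sub_neg_eq_add, mul_comm,
        ← sub_eq_add_neg]
    refine ⟨(1 + s) * (1 - s)⁻¹, ?_, ?_⟩
    · rw [hst]
      field_simp
    · rw [star_mul, star_star, h, star_algK hS, hst]
      intro hcon
      rw [Algebra.commutes] at hcon
      have h3 := mul_left_cancel₀ hζ hcon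
      have h4 := (algebraMap K D).injective h3
      have h5 : (1 + s) * (1 + s) = (1 - s) * (1 - s) := by
        field_simp at h4
        linear_combination h4
      have h6 : 4 * s = 0 := by linear_combination h5
      rcases mul_eq_zero.mp h6 with h7 | h7
      · norm_num at h7
      · exact hs1 0 (by rw [map_zero]; exact h7)
  · exact ⟨1, by rw [star_one, mul_one], by rw [map_one, star_one, mul_one]; exact h⟩

theorem St.smul (hS : Setting k K D d s) {B : Module.Basis (Fin N) k D} {p : Pl k} {η : ℝ}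
    {a : K} (ha : a * star a = 1) {Y Y' : D × D} (h : St B g p η Y Y') :
    St B g p η (algebraMap K D a • Y) (algebraMap K D a • Y') := by
  have e : ∀ X X' : D × D, hh g (algebraMap K D a • X) (algebraMap K D a • X') = hh g X X' := by
    intro X X'
    rw [hh_smul_left, hh_smul_right, star_algK hS, Algebra.commutes, mul_assoc,
      ← map_mul, mul_comm (star a), ha, map_one, mul_one]
  unfold St
  rw [e, e, e]
  exact h

theorem rtg_smul (hS : Setting k K D d s) {B : Module.Basis (Fin N) k D} {p : Pl k} {η : ℝ}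
    {a : K} (ha : a * star a = 1) {Y Y' : D × D} (h : Relation.ReflTransGen (St B g p η) Y Y') :
    Relation.ReflTransGen (St B g p η) (algebraMap K D a • Y) (algebraMap K D a • Y') := by
  induction h with
  | refl => exact Relation.ReflTransGen.refl
  | tail _ h ih => exact ih.tail (St.smul hS ha h)

/-- Chains between unit vectors with nonzero product. -/
theorem chain_ne (hS : Setting k K D d s) (hn : 0 < n) (hdeg : finrank K D = n ^ 2)
    (hg : star g = g) (han : An g) (B : Module.Basis (Fin N) k D) {φ : k →+* ℝ} (hd : φ d < 0)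
    {y y' : D × D} (hy : hh g y y = 1) (hy' : hh g y' y' = 1) (hne : hh g y y' ≠ 0) :
    ∃ a : K, a * star a = 1 ∧ ∀ η : ℝ, 0 < η →
      Relation.ReflTransGen (St B g (.inr φ) η) y (algebraMap K D a • y') := by
  obtain ⟨a, ha, hns⟩ := exists_twist hS _ hne
  refine ⟨a, ha, fun η hη => ?_⟩
  refine chain_line hS hn hdeg hg han B hd hy ?_ ?_ η hη
  · rw [hh_smul_left, hh_smul_right, hy', one_mul, star_algK hS, ← map_mul, ha, map_one]
  · rw [hh_smul_right]
    exact hns

theorem chain_all (hS : Setting k K D d s) (hn : 0 < n) (hdeg : finrank K D = n ^ 2)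
    (hg : star g = g) (han : An g) (B : Module.Basis (Fin N) k D) {φ : k →+* ℝ} (hd : φ d < 0)
    {y y' : D × D} (hy : hh g y y = 1) (hy' : hh g y' y' = 1) :
    ∃ a : K, a * star a = 1 ∧ ∀ η : ℝ, 0 < η →
      Relation.ReflTransGen (St B g (.inr φ) η) y (algebraMap K D a • y') := by
  have := numberField_of_setting hS
  have : CharZero D := charZero_of_injective_algebraMap (algebraMap K D).injective
  by_cases h : hh g y y' = 0
  · have h' : hh g y' y = 0 := by rw [← hh_symm hg, h, star_zero]
    set α : K := 3 / 5 with hα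
    set β : K := 4 / 5 with hβ
    have hsα : star α = α := by rw [hα]; simp
    have hsβ : star β = β := by rw [hβ]; simp
    set y'' : D × D := algebraMap K D α • y + algebraMap K D β • y' with hy''
    have h1 : hh g y'' y'' = 1 := by
      rw [hy'', hh_add_left, hh_add_right, hh_add_right, hh_smul_left, hh_smul_right, hh_smul_left,
        hh_smul_right, hh_smul_left, hh_smul_right, hh_smul_left, hh_smul_right, hy, hy', h, h',
        star_algK hS, star_algK hS, hsα, hsβ]
      simp only [zero_mul, mul_zero, one_mul, zero_add, add_zero]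
      rw [← map_mul, ← map_mul, ← map_add, hα, hβ]
      norm_num
    have h2 : hh g y y'' ≠ 0 := by
      rw [hy'', hh_add_right, hh_smul_right, hh_smul_right, hy, h, star_algK hS, hsα, zero_mul,
        add_zero, one_mul]
      exact (map_ne_zero _).mpr (by rw [hα]; norm_num)
    have h3 : hh g y'' y' ≠ 0 := by
      rw [hy'', hh_add_left, hh_smul_left, hh_smul_left, hy', h, mul_zero, zero_add, mul_one]
      exact (map_ne_zero _).mpr (by rw [hβ]; norm_num)
    obtain ⟨a, ha, hc⟩ := chain_ne hS hn hdeg hg han B hd hy h1 h2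
    obtain ⟨b, hb, hc'⟩ := chain_ne hS hn hdeg hg han B hd h1 hy' h3
    refine ⟨a * b, ?_, fun η hη => ?_⟩
    · rw [star_mul]
      linear_combination b * star b * ha + hb
    · refine (hc η hη).trans ?_
      have := rtg_smul hS ha (hc' η hη)
      rwa [smul_smul, ← map_mul] at this
  · exact chain_ne hS hn hdeg hg han B hd hy hy' h

/-- 2L, real places. -/
theorem chain_real (hS : Setting k K D d s) {n : ℕ} (hn : 2 ≤ n) (hdeg : finrank K D = n ^ 2)
    {g : D} (hg : star g = g) (han : An g) {N : ℕ} (B : Module.Basis (Fin N) k D)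
    (φ : k →+* ℝ) (hφ : φ d < 0) {y y' : D × D}
    (hy : hh g y y = 1) (hy' : hh g y' y' = 1) : Chain B d g (.inr φ) y y' := by
  obtain ⟨a, ha, hc⟩ := chain_all hS (by omega) hdeg hg han B hφ hy hy'
  refine ⟨1, one_pos, fun η hη => ?_⟩
  obtain ⟨m, Y, h0, hm, hr⟩ := exists_seq_of_rtg (hc η hη)
  have haD : algebraMap K D a * star (algebraMap K D a) = 1 := by
    rw [star_algK hS, ← map_mul, ha, map_one]
  refine ⟨m, fun _ => 1, Y, fun i _ => Or.inl rfl, h0, ⟨algebraMap K D a, haD, hm⟩,
    fun i hi => ?_, fun i hi => (hr i hi).2.2.1, fun i hi => ?_⟩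
  · rcases hi.lt_or_eq with hlt | rfl
    · exact (hr i hlt).1
    · rw [hm, hh_smul_left, hh_smul_right, hy', one_mul, haD]
  · have := (hr i hi).2.2.2
    simpa using this

end Vale.Agent.P011.Two.CR

namespace Vale.Agent.P011.Two

open Vale.Agent.P011.Arith Vale.Agent.P011.Even

/-- 2L, real places. -/
theorem chain_real {k K D : Type} [Field k] [NumberField k] [Field K] [StarRing K]
    [DivisionRing D] [StarRing D] [Algebra k K] [Algebra k D] [Algebra K D] [IsScalarTower k K D]
    {d : kˣ} {s : K} (hS : Setting k K D d s) {n : ℕ} (hn : 2 ≤ n) (hdeg : finrank K D = n ^ 2)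
    {g : D} (hg : star g = g) (han : An g) {N : ℕ} (B : Module.Basis (Fin N) k D)
    (φ : k →+* ℝ) (hφ : φ d < 0) {y y' : D × D}
    (hy : hh g y y = 1) (hy' : hh g y' y' = 1) : Chain B d g (.inr φ) y y' :=
  CR.chain_real hS hn hdeg hg han B φ hφ hy hy'

end Vale.Agent.P011.Two
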