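import Vale.Agent.P011.Two.Assembly
import Vale.Agent.P011.Two.ChainFin
import Vale.Agent.P011.Two.ChainReal

/-!
The group generated by the rotations is transitive on the lines of unit vectors.
-/

open NumberField IsDedekindDomain Module

namespace Vale.Agent.P011.Two

open Vale.Agent.P011.Arith Vale.Agent.P011.Even

variable {k K D : Type} [Field k] [NumberField k] [Field K] [StarRing K]
  [DivisionRing D] [StarRing D] [Algebra k K] [Algebra k D] [Algebra K D] [IsScalarTower k K D]
  {d : kˣ} {s : K}

/-- The orbit of the first unit vector. -/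
theorem transitive (hS : Setting k K D d s) {n : ℕ} (hn : 2 ≤ n) (hdeg : finrank K D = n ^ 2)
    {g : D} (hg : star g = g) (han : An g) {e : ℕ} (he : 0 < e)
    {N : Subgroup ((D × D) ≃ₗ[D] (D × D))} (hN : ∀ v ∈ Uh g, ∀ x ∈ N, v * x * v⁻¹ ∈ N)
    (hHQ : HQ d s g e N) (y : D × D) (hy : hh g y y = 1) :
    ∃ u ∈ N, ∃ δ : D, δ ≠ 0 ∧ u e₁ = δ • y := by
  have _ : FiniteDimensional k K := Module.finite_of_finrank_pos (by rw [hS.rank]; norm_num)
  have _ := hS.fin
  have _ : FiniteDimensional k D := Module.Finite.trans K D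
  have he1 : hh g (e₁ : D × D) e₁ = 1 := by rw [hh_e₁, e₁, star_one]
  exact transitive_of_chains hS hg han (Module.finBasis k D) he hN hHQ
    (fun v hv z hz => chain_fin hS hn hdeg hg han _ v hv he1 hz)
    (fun φ hφ z hz => chain_real hS hn hdeg hg han _ φ hφ he1 hz) hy

end Vale.Agent.P011.Two
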