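import Vale.Agent.P011.Two.Higher
import Vale.Agent.P011.Two.Transitive
import Vale.Agent.P011.Two.Matched
import Vale.Agent.P011.MPQ.Final

/-!
Normal subgroups of finite index of the special unitary group of an anisotropic hermitian form
of rank at least two over a noncommutative division algebra contain all commutators of unitary
elements.
-/

open Module

namespace Vale.Agent.P011.Two.Hi

open Vale.Agent.P011S

theorem mpqStatement : MPQStatement := fun _ _ _ a b hab N hN hfin e he hexp g hg =>
  MPQ.mpq a b hab N hN hfin e he hexp g hg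

theorem transStmt : TransStmt := fun _ _ _ _ _ _ _ _ _ _ _ _ _ _ _ hS _ hn hdeg _ hg han _ he _
    hN hHQ y hy => transitive hS hn hdeg hg han he hN hHQ y hy

theorem matchedStmt : MatchedStmt := fun _ _ _ _ _ _ _ _ _ _ _ _ _ _ _ hS _ hn hdeg _ hg han _ he
    _ hHQ t ht => matched hS hn hdeg hg han he hHQ t ht

variable {K D : Type} [Field K] [NumberField K] [StarRing K] [DivisionRing D] [StarRing D]
  [Algebra K D] [StarModule K D] [FiniteDimensional K D] [Algebra.IsCentral K D]

/-- Normal subgroups of finite index contain all commutators of unitary elements. -/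
theorem normal_index (hK : ∃ k : K, star k ≠ k) {n : ℕ} (hn : 2 ≤ n)
    (hdeg : finrank K D = n ^ 2) {F : Type} [Field F] [Algebra K F]
    (f : D →ₐ[K] Matrix (Fin n) (Fin n) F) {m : ℕ} (hm : 2 ≤ m)
    (H : Matrix (Fin m) (Fin m) D) (hH : IsAnisotropicForm H) (N : Subgroup (SU f H)) [N.Normal]
    (hN : N.index ≠ 0) : ContainsCommutators f H N :=
  index_of_blocks mpqStatement transStmt matchedStmt hK hn hdeg f hm H hH N hN

end Vale.Agent.P011.Two.Hi
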