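import Vale.Agent.P011.Two.FrameDefs

/-!
Any two frames of the same lengths are connected by good changes of one vector.
-/

open Module
open Vale.Agent.P011.T2

namespace Vale.Agent.P011.Two

namespace Fr

variable {F L V : Type} [Field F] [Field L] [CharZero L] [StarRing L] [Algebra F L]
  [AddCommGroup V] [Module L V] {d : F}

set_option linter.unusedSectionVars false

/-- two vectors of the same length in a good position -/
def Nx (b : HF L V) (a : Fˣ) (e e' : V) : Prop :=
  b.h e e = algebraMap F L a ∧ b.h e' e' = algebraMap F L a ∧ ∃ θ p : L,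
    b.h e e' = algebraMap F L a * θ ∧ θ ≠ 0 ∧ p ≠ 0 ∧ θ * star θ = 1 + p * star p

omit [CharZero L] in
theorem Nx.symm (hQ : QuadL F L d) {b : HF L V} {a : Fˣ} {e e' : V} (h : Nx b a e e') :
    Nx b a e' e := by
  obtain ⟨h1, h2, θ, p, h3, h4, h5, h6⟩ := h
  refine ⟨h2, h1, star θ, p, ?_, star_ne_zero.mpr h4, h5, ?_⟩
  · rw [← b.star_h, h3, star_mul', hQ.fix']
  · rw [star_star, mul_comm]; exact h6

omit [CharZero L] in
theorem nx_of_norm (hQ : QuadL F L d) {b : HF L V} {a : Fˣ} {e e' : V}
    (h1 : b.h e e = algebraMap F L a) (h2 : b.h e' e' = algebraMap F L a) {q : L}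
    (h3 : b.h e e' ≠ 0) (h4 : q ≠ 0)
    (h5 : b.h e e' * star (b.h e e') = algebraMap F L a ^ 2 + q * star q) : Nx b a e e' := by
  have ha : algebraMap F L a ≠ 0 := (_root_.map_ne_zero _).mpr a.ne_zero
  refine ⟨h1, h2, b.h e e' / algebraMap F L a, q / algebraMap F L a, ?_, div_ne_zero h3 ha,
    div_ne_zero h4 ha, ?_⟩
  · field_simp
  · rw [star_div₀, star_div₀, hQ.fix']
    field_simp
    linear_combination h5

/-- hyperbolic pairs -/
structure Hp (b : HF L V) (z z' : V) : Prop where
  zz : b.h z z = 0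
  zz' : b.h z' z' = 0
  one : b.h z z' = 1

omit [CharZero L] in
theorem Hp.one' {b : HF L V} {z z' : V} (h : Hp b z z') : b.h z' z = 1 := by
  rw [← b.star_h, h.one, star_one]

omit [CharZero L] in
theorem Hp.swap {b : HF L V} {z z' : V} (h : Hp b z z') : Hp b z' z := ⟨h.zz', h.zz, h.one'⟩

/-- the vectors of length `a` in the plane of a hyperbolic pair -/
noncomputable def vl (a : Fˣ) (z z' : V) (l : F) : V :=
  algebraMap F L l • z + (algebraMap F L a / (2 * algebraMap F L l)) • z'

variable (L) in
theorem vl_swap (a : Fˣ) (z z' : V) {l : F} (hl : l ≠ 0) :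
    vl (L := L) a z' z l = vl (L := L) a z z' ((a : F) / (2 * l)) := by
  have ha : algebraMap F L a ≠ 0 := (_root_.map_ne_zero _).mpr a.ne_zero
  have hl' : algebraMap F L l ≠ 0 := (_root_.map_ne_zero _).mpr hl
  unfold vl
  rw [add_comm, map_div₀, map_mul, map_ofNat]
  congr 2
  field_simp

theorem h_vl {b : HF L V} (a : Fˣ) {z z' : V} (l : F) (e : V) :
    b.h (vl (L := L) a z z' l) e = algebraMap F L l * b.h z e +
      algebraMap F L a / (2 * algebraMap F L l) * b.h z' e := by
  unfold vl
  rw [b.add_left, b.smul_left, b.smul_left]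

theorem vl_vl (hQ : QuadL F L d) {b : HF L V} (a : Fˣ) {z z' : V} (hp : Hp b z z') {l m : F}
    (hl : l ≠ 0) (hm : m ≠ 0) : b.h (vl (L := L) a z z' l) (vl (L := L) a z z' m) =
      algebraMap F L (a / 2 * (l / m + m / l)) := by
  have hl' : algebraMap F L l ≠ 0 := (_root_.map_ne_zero _).mpr hl
  have hm' : algebraMap F L m ≠ 0 := (_root_.map_ne_zero _).mpr hm
  have h1 : ∀ x, b.h x (vl (L := L) a z z' m) = b.h x z * algebraMap F L m +
      b.h x z' * (algebraMap F L a / (2 * algebraMap F L m)) := by
    intro x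
    unfold vl
    rw [b.add_right, b.smul_right, b.smul_right, star_div₀, star_mul', star_ofNat, hQ.fix',
      hQ.fix']
  rw [h_vl, h1, h1, hp.zz, hp.one, hp.one', hp.zz', map_mul, map_div₀, map_add, map_div₀,
    map_div₀, map_ofNat]
  field_simp
  ring

theorem vl_self (hQ : QuadL F L d) {b : HF L V} (a : Fˣ) {z z' : V} (hp : Hp b z z') {l : F}
    (hl : l ≠ 0) : b.h (vl (L := L) a z z' l) (vl (L := L) a z z' l) = algebraMap F L a := by
  have h2 : (2 : F) ≠ 0 := by
    intro h
    have := congrArg (algebraMap F L) h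
    rw [map_ofNat, map_zero] at this
    exact two_ne_zero this
  rw [vl_vl hQ a hp hl hl]
  congr 1
  field_simp
  ring

theorem vl_conn (hQ : QuadL F L d) {b : HF L V} (a : Fˣ) {z z' : V} (hp : Hp b z z') {l m : F}
    (hl : l ≠ 0) (hm : m ≠ 0) (h : l ^ 4 ≠ m ^ 4) :
    Nx b a (vl (L := L) a z z' l) (vl (L := L) a z z' m) := by
  have h2 : (2 : F) ≠ 0 := by
    intro h
    have := congrArg (algebraMap F L) h
    rw [map_ofNat, map_zero] at this
    exact two_ne_zero this
  have ha : (a : F) ≠ 0 := a.ne_zero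
  refine nx_of_norm (q := algebraMap F L (a / 2 * (l / m - m / l))) hQ (vl_self hQ a hp hl)
    (vl_self hQ a hp hm) ?_ ?_ ?_
  · rw [vl_vl hQ a hp hl hm]
    refine (_root_.map_ne_zero _).mpr (mul_ne_zero (div_ne_zero ha h2) ?_)
    intro h3
    apply h
    field_simp at h3
    have h4 : l ^ 2 = -m ^ 2 := by linear_combination h3
    linear_combination (l ^ 2 - m ^ 2) * h4
  · refine (_root_.map_ne_zero _).mpr (mul_ne_zero (div_ne_zero ha h2) ?_)
    intro h3
    apply h
    field_simp at h3
    have h4 : l ^ 2 = m ^ 2 := by linear_combination h3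
    linear_combination (l ^ 2 + m ^ 2) * h4
  · rw [vl_vl hQ a hp hl hm, hQ.fix', hQ.fix', ← map_mul, ← map_mul, ← map_pow, ← map_add]
    congr 1
    field_simp
    ring

theorem vl_all (hQ : QuadL F L d) {b : HF L V} (a : Fˣ) {z z' : V} (hp : Hp b z z') {l m : F}
    (hl : l ≠ 0) (hm : m ≠ 0) :
    Relation.ReflTransGen (Nx b a) (vl (L := L) a z z' l) (vl (L := L) a z z' m) := by
  by_cases h : l ^ 4 = m ^ 4
  · have hn : ∀ n : ℕ, (n : L) ≠ 0 → (n : F) ≠ 0 := by
      intro n hn h0
      apply hn
      have := congrArg (algebraMap F L) h0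
      rwa [map_natCast, map_zero] at this
    have h2 : (2 : F) ≠ 0 := by exact_mod_cast hn 2 (by norm_num)
    have h15 : (15 : F) ≠ 0 := by exact_mod_cast hn 15 (by norm_num)
    have e1 : l ^ 4 ≠ (2 * l) ^ 4 := by
      intro h3
      have h4 : (15 : F) * l ^ 4 = 0 := by linear_combination -h3
      exact (mul_ne_zero h15 (pow_ne_zero 4 hl)) h4
    have e2 : (2 * l) ^ 4 ≠ m ^ 4 := by rw [← h]; exact e1.symm
    exact (Relation.ReflTransGen.single (vl_conn hQ a hp hl (mul_ne_zero h2 hl) e1)).tail
      (vl_conn hQ a hp (mul_ne_zero h2 hl) hm e2)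
  · exact Relation.ReflTransGen.single (vl_conn hQ a hp hl hm h)

/-- a vector which is not orthogonal to `z` is in a good position to some vector of the plane -/
theorem exists_vl (hQ : QuadL F L d) (hS : SqNear F) {b : HF L V} (a : Fˣ) {z z' : V}
    (hp : Hp b z z') {e : V} (he : b.h e e = algebraMap F L a) (hz : b.h z e ≠ 0) :
    ∃ l : F, l ≠ 0 ∧ Nx b a (vl (L := L) a z z' l) e := by
  have ha : algebraMap F L a ≠ 0 := (_root_.map_ne_zero _).mpr a.ne_zero
  obtain ⟨A, hA⟩ := hQ.fix (b.h z e * star (b.h z e)) (by rw [star_mul', star_star, mul_comm])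
  obtain ⟨B, hB⟩ := hQ.fix (algebraMap F L a / 2 * (b.h z e * star (b.h z' e) +
    b.h z' e * star (b.h z e))) (by
      rw [star_mul', star_add, star_mul', star_mul', star_star, star_star, star_div₀, star_ofNat,
        hQ.fix']
      ring)
  obtain ⟨C, hC⟩ := hQ.fix (algebraMap F L a ^ 2 / 4 * (b.h z' e * star (b.h z' e))) (by
      rw [star_mul', star_mul', star_star, star_div₀, star_ofNat, star_pow, hQ.fix']
      ring)
  have hA0 : A ≠ 0 := by
    rintro rfl
    rw [map_zero] at hA
    exact (mul_ne_zero hz (star_ne_zero.mpr hz)) hA.symm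
  have hA0' : algebraMap F L A ≠ 0 := (_root_.map_ne_zero _).mpr hA0
  obtain ⟨x, y, hx, hy, hxy, hne⟩ := hS ((B - a ^ 2) / A) (C / A) (B / A) (C / A)
  have hx' : algebraMap F L x ≠ 0 := (_root_.map_ne_zero _).mpr hx
  have hy' : algebraMap F L y ≠ 0 := (_root_.map_ne_zero _).mpr hy
  have hN : b.h (vl (L := L) a z z' x⁻¹) e * star (b.h (vl (L := L) a z z' x⁻¹) e) =
      algebraMap F L (A * (x⁻¹) ^ 2 + B + C * x ^ 2) := by
    rw [h_vl, star_add, star_mul', star_mul', star_div₀, star_mul', star_ofNat, hQ.fix',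
      hQ.fix', map_add, map_add, map_mul, map_mul, map_pow, map_pow, hA, hB, hC, map_inv₀]
    field_simp
    ring
  have hxx := congrArg (algebraMap F L) hxy
  refine ⟨x⁻¹, inv_ne_zero hx, nx_of_norm (q := b.h z e * algebraMap F L (x⁻¹ * y)) hQ
    (vl_self hQ a hp (inv_ne_zero hx)) he ?_ ?_ ?_⟩
  · intro h0
    apply hne
    rw [h0, zero_mul] at hN
    have h1 := (map_eq_zero _).mp hN.symm
    have h2 : 1 + B / A * x ^ 2 + C / A * x ^ 4 = (A * (x⁻¹) ^ 2 + B + C * x ^ 2) * (x ^ 2 / A) := by
      field_simp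
    rw [h2, h1, zero_mul]
  · exact mul_ne_zero hz ((_root_.map_ne_zero _).mpr (mul_ne_zero (inv_ne_zero hx) hy))
  · rw [hN, star_mul', hQ.fix']
    have h1 : A * (x⁻¹) ^ 2 + B + C * x ^ 2 = a ^ 2 + A * (x⁻¹ * y) ^ 2 := by
      have h2 : A * (x⁻¹ * y) ^ 2 = A * (x⁻¹) ^ 2 *
          (1 + (B - a ^ 2) / A * x ^ 2 + C / A * x ^ 4) := by rw [hxy]; ring
      rw [h2]
      field_simp
      ring
    rw [h1, map_add, map_pow, map_mul, map_pow, hA]
    ring

/-- all vectors of length `a` which are not orthogonal to the plane are connected -/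
theorem conn_pair (hQ : QuadL F L d) (hS : SqNear F) {b : HF L V} (a : Fˣ) {z z' : V}
    (hp : Hp b z z') {e : V} (he : b.h e e = algebraMap F L a) (h : b.h z e ≠ 0 ∨ b.h z' e ≠ 0) :
    Relation.ReflTransGen (Nx b a) (vl (L := L) a z z' 1) e := by
  rcases h with h | h
  · obtain ⟨l, hl, h1⟩ := exists_vl hQ hS a hp he h
    exact (vl_all hQ a hp one_ne_zero hl).tail h1
  · obtain ⟨l, hl, h1⟩ := exists_vl hQ hS a hp.swap he h
    rw [vl_swap L a z z' hl] at h1
    have h2 : (2 : F) ≠ 0 := by
      intro h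
      have := congrArg (algebraMap F L) h
      rw [map_ofNat, map_zero] at this
      exact two_ne_zero this
    exact (vl_all hQ a hp one_ne_zero (div_ne_zero a.ne_zero (mul_ne_zero h2 hl))).tail h1

theorem rtg_symm (hQ : QuadL F L d) {b : HF L V} {a : Fˣ} {e e' : V}
    (h : Relation.ReflTransGen (Nx b a) e e') : Relation.ReflTransGen (Nx b a) e' e := by
  induction h with
  | refl => exact Relation.ReflTransGen.refl
  | tail _ h ih => exact (Relation.ReflTransGen.single (h.symm hQ)).trans ih

/-- all vectors of length `a` are connected if there is a hyperbolic pair -/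
theorem conn_hp (hQ : QuadL F L d) (hS : SqNear F) {b : HF L V} (a : Fˣ) {z z' : V}
    (hp : Hp b z z') {e : V} (he : b.h e e = algebraMap F L a) :
    Relation.ReflTransGen (Nx b a) (vl (L := L) a z z' 1) e := by
  by_cases h : b.h z e ≠ 0 ∨ b.h z' e ≠ 0
  · exact conn_pair hQ hS a hp he h
  · push Not at h
    obtain ⟨h1, h2⟩ := h
    have ha : algebraMap F L a ≠ 0 := (_root_.map_ne_zero _).mpr a.ne_zero
    have h1' : b.h e z = 0 := by rw [← b.star_h, h1, star_zero]
    have h2' : b.h e z' = 0 := by rw [← b.star_h, h2, star_zero]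
    have hsa : star (algebraMap F L a / 2) = algebraMap F L a / 2 := by
      rw [star_div₀, star_ofNat, hQ.fix']
    have hp' : Hp b z (z' + e - (algebraMap F L a / 2) • z) := by
      refine ⟨hp.zz, ?_, ?_⟩
      · simp only [b.sub_left, b.sub_right, b.add_left, b.smul_left, b.add_right, b.smul_right,
          hp.zz, hp.zz', hp.one, hp.one', h1, h1', h2, h2', he, hsa]
        ring
      · rw [b.sub_right, b.add_right, b.smul_right, hp.one, h1, hp.zz]
        ring
    have h3 : b.h (z' + e - (algebraMap F L a / 2) • z) e ≠ 0 := by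
      rw [b.sub_left, b.add_left, b.smul_left, h2, he, h1, mul_zero, sub_zero, zero_add]
      exact ha
    have h4 := conn_pair hQ hS a hp' he (Or.inr h3)
    have h5 : b.h z (vl (L := L) a z (z' + e - (algebraMap F L a / 2) • z) 1) ≠ 0 := by
      unfold vl
      rw [b.add_right, b.smul_right, b.smul_right, hp.zz, hp'.one, zero_mul, zero_add, one_mul,
        map_one, mul_one, hsa]
      exact div_ne_zero ha two_ne_zero
    have h6 := conn_pair hQ hS a hp (vl_self hQ a hp' one_ne_zero) (Or.inl h5)
    exact h6.trans h4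

section compl

variable [FiniteDimensional L V]

omit [CharZero L] in
/-- the orthogonal complement of an anisotropic vector -/
theorem compl (b : HF L V) (hb : b.Nondeg) {x : V} (hx : b.h x x ≠ 0) :
    (b.sub (LinearMap.ker (b.lin x))).Nondeg ∧
      finrank L (LinearMap.ker (b.lin x)) + 1 = finrank L V := by
  have hU : ∀ y, y ∈ LinearMap.ker (b.lin x) ↔ b.h y x = 0 := fun y => LinearMap.mem_ker
  have hdec : ∀ y : V, y - (b.h y x / b.h x x) • x ∈ LinearMap.ker (b.lin x) := by
    intro y
    rw [hU, b.sub_left, b.smul_left, div_mul_cancel₀ _ hx, sub_self]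
  constructor
  · rintro ⟨y, hy⟩ h
    apply Subtype.ext
    apply hb
    intro z
    have h1 := h ⟨_, hdec z⟩
    have h2 : b.h y (z - (b.h z x / b.h x x) • x) = 0 := h1
    rw [b.sub_right, b.smul_right, (hU y).mp hy, zero_mul, sub_zero] at h2
    exact h2
  · have h1 : finrank L (LinearMap.range (b.lin x)) + finrank L (LinearMap.ker (b.lin x)) =
        finrank L V := LinearMap.finrank_range_add_finrank_ker (b.lin x)
    have h2 : LinearMap.range (b.lin x) = ⊤ := by
      rw [LinearMap.range_eq_top]
      intro l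
      refine ⟨(l / b.h x x) • x, ?_⟩
      rw [b.lin_apply, b.smul_left, div_mul_cancel₀ _ hx]
    rw [h2, finrank_top, Module.finrank_self] at h1
    omega

/-- vectors of given length -/
theorem exists_len (hQ : QuadL F L d) (hU : Univ2 F L) (b : HF L V) (hb : b.Nondeg)
    (hV : 2 ≤ finrank L V) (a : Fˣ) : ∃ v, b.h v v = algebraMap F L a := by
  obtain ⟨w, hw1, hw2⟩ := RP.exists_orth_basis hQ _ V b hb rfl
  let i : Fin (finrank L V) := ⟨0, by omega⟩
  let j : Fin (finrank L V) := ⟨1, by omega⟩
  have hij : i ≠ j := by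
    intro h
    have := congrArg Fin.val h
    simp [i, j] at this
  obtain ⟨α, hα⟩ := hQ.fix _ (b.star_h (w i) (w i))
  obtain ⟨β, hβ⟩ := hQ.fix _ (b.star_h (w j) (w j))
  have hα0 : α ≠ 0 := by
    rintro rfl
    rw [map_zero] at hα
    exact hw2 i hα.symm
  have hβ0 : β ≠ 0 := by
    rintro rfl
    rw [map_zero] at hβ
    exact hw2 j hβ.symm
  obtain ⟨p, q, hpq⟩ := hU (Units.mk0 α hα0) (Units.mk0 β hβ0) a
  refine ⟨p • w i + q • w j, ?_⟩
  rw [b.add_left, b.add_right, b.add_right, b.smul_left, b.smul_left, b.smul_left, b.smul_left,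
    b.smul_right, b.smul_right, b.smul_right, b.smul_right, hw1 i j hij, hw1 j i hij.symm, ← hα,
    ← hβ, hpq, Units.val_mk0, Units.val_mk0]
  ring

/-- hyperbolic pairs exist in dimension three -/
theorem exists_hp (hQ : QuadL F L d) (hU : Univ2 F L) (b : HF L V) (hb : b.Nondeg)
    (hV : 3 ≤ finrank L V) : ∃ z z', Hp b z z' := by
  obtain ⟨x, hx⟩ := exists_len hQ hU b hb (by omega) (1 : Fˣ)
  rw [Units.val_one, map_one] at hx
  have hx0 : b.h x x ≠ 0 := by rw [hx]; exact one_ne_zero
  obtain ⟨h1, h2⟩ := compl b hb hx0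
  obtain ⟨⟨w, hw⟩, hww⟩ := exists_len hQ hU (b.sub (LinearMap.ker (b.lin x))) h1 (by omega)
    (-1 : Fˣ)
  have hww' : b.h w w = -1 := by
    have h3 : b.h w w = algebraMap F L ((-1 : Fˣ) : F) := hww
    rw [h3, Units.val_neg, Units.val_one, map_neg, map_one]
  have hwx : b.h w x = 0 := LinearMap.mem_ker.mp hw
  have hxw : b.h x w = 0 := by rw [← b.star_h, hwx, star_zero]
  have hs : star (-(1 : L) / 2) = -1 / 2 := by rw [star_div₀, star_neg, star_one, star_ofNat]
  refine ⟨w + x, (-(1 : L) / 2) • (w - x), ?_, ?_, ?_⟩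
  · rw [b.add_left, b.add_right, b.add_right, hx, hww', hwx, hxw]
    ring
  · rw [b.smul_left, b.smul_right, b.sub_left, b.sub_right, b.sub_right, hx, hww', hwx, hxw]
    ring
  · rw [b.smul_right, b.add_left, b.sub_right, b.sub_right, hx, hww', hwx, hxw, hs]
    ring

/-- all vectors of length `a` are connected in dimension three -/
theorem conn (hQ : QuadL F L d) (hU : Univ2 F L) (hS : SqNear F) (b : HF L V) (hb : b.Nondeg)
    (hV : 3 ≤ finrank L V) (a : Fˣ) {e e' : V} (he : b.h e e = algebraMap F L a)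
    (he' : b.h e' e' = algebraMap F L a) : Relation.ReflTransGen (Nx b a) e e' := by
  obtain ⟨z, z', hp⟩ := exists_hp hQ hU b hb hV
  exact (rtg_symm hQ (conn_hp hQ hS a hp he)).trans (conn_hp hQ hS a hp he')

end compl

section frames

omit [CharZero L] in
theorem frame_cons {b : HF L V} {r : ℕ} {α : Fin (r + 1) → Fˣ} {e : V}
    (he : b.h e e = algebraMap F L (α 0)) {g : Fin r → V}
    (hg : IsFrame b (fun i => α i.succ) g) (hge : ∀ i, b.h (g i) e = 0) :
    IsFrame b α (Fin.cons e g : Fin (r + 1) → V) := by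
  constructor
  · intro i
    induction i using Fin.cases with
    | zero => exact he
    | succ i => exact hg.1 i
  · intro i j hij
    induction i using Fin.cases with
    | zero =>
      induction j using Fin.cases with
      | zero => exact absurd rfl hij
      | succ j =>
        change b.h e (g j) = 0
        rw [← b.star_h, hge, star_zero]
    | succ i =>
      induction j using Fin.cases with
      | zero => exact hge i
      | succ j => exact hg.2 i j (fun h => hij (by rw [h]))

variable [FiniteDimensional L V]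

/-- frames of given lengths exist -/
theorem exists_frame (hQ : QuadL F L d) (hU : Univ2 F L) : ∀ (r : ℕ) (V : Type) [AddCommGroup V]
    [Module L V] [FiniteDimensional L V] (b : HF L V) (_ : b.Nondeg) (_ : r + 1 ≤ finrank L V)
    (α : Fin r → Fˣ), ∃ f : Fin r → V, IsFrame b α f := by
  intro r
  induction r with
  | zero =>
    intro V _ _ _ b _ _ α
    exact ⟨fun i => i.elim0, fun i => i.elim0, fun i => i.elim0⟩
  | succ r ih =>
    intro V _ _ _ b hb hV α
    obtain ⟨v, hv⟩ := exists_len hQ hU b hb (by omega) (α 0)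
    have hv0 : b.h v v ≠ 0 := by
      rw [hv]
      exact (_root_.map_ne_zero _).mpr (α 0).ne_zero
    obtain ⟨h1, h2⟩ := compl b hb hv0
    obtain ⟨g, hg⟩ := ih (LinearMap.ker (b.lin v)) (b.sub _) h1 (by omega) (fun i => α i.succ)
    exact ⟨Fin.cons v (fun i => (g i : V)), frame_cons hv ⟨hg.1, hg.2⟩
      (fun i => LinearMap.mem_ker.mp (g i).2)⟩

end frames

end Fr

open Fr

/-- Any two frames are connected by good changes of one vector. -/
theorem chain_frames {F L : Type} [Field F] [Field L] [CharZero L] [StarRing L] [Algebra F L]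
    {d : F} (hQ : QuadL F L d) (hU : Univ2 F L) (hS : SqNear F) {r : ℕ} (V : Type)
    [AddCommGroup V] [Module L V] [FiniteDimensional L V] (b : HF L V) (hb : b.Nondeg)
    (hV : r + 2 ≤ finrank L V) (α : Fin r → Fˣ) (f f' : Fin r → V)
    (hf : IsFrame b α f) (hf' : IsFrame b α f') :
    Relation.ReflTransGen (Mv b α) f f' := by
  induction r generalizing V with
  | zero =>
    have : f = f' := funext fun i => i.elim0
    rw [this]
  | succ r ih =>
    -- frames with the same first vector
    have same : ∀ (e : V) (f f' : Fin (r + 1) → V), IsFrame b α f → IsFrame b α f' → f 0 = e →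
        f' 0 = e → Relation.ReflTransGen (Mv b α) f f' := by
      intro e f f' hf hf' h0 h0'
      have he : b.h e e = algebraMap F L (α 0) := by rw [← h0]; exact hf.1 0
      have he0 : b.h e e ≠ 0 := by
        rw [he]
        exact (_root_.map_ne_zero _).mpr (α 0).ne_zero
      obtain ⟨h1, h2⟩ := compl b hb he0
      let U := LinearMap.ker (b.lin e)
      have h2' : finrank L U + 1 = finrank L V := h2
      have hU' : ∀ (f : Fin (r + 1) → V), IsFrame b α f → f 0 = e → ∀ i : Fin r,
          f i.succ ∈ U := by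
        intro f hf h0 i
        refine LinearMap.mem_ker.mpr ?_
        change b.h (f i.succ) e = 0
        rw [← h0]
        exact hf.2 _ _ (Fin.succ_ne_zero i)
      have lift : ∀ g g' : Fin r → U, Mv (b.sub U) (fun i => α i.succ) g g' →
          Mv b α (Fin.cons e (fun i => (g i : V)) : Fin (r + 1) → V)
            (Fin.cons e (fun i => (g' i : V)) : Fin (r + 1) → V) := by
        intro g g' h
        refine ⟨frame_cons he ⟨h.frame.1, h.frame.2⟩ (fun i => LinearMap.mem_ker.mp (g i).2),
          frame_cons he ⟨h.frame'.1, h.frame'.2⟩ (fun i => LinearMap.mem_ker.mp (g' i).2), ?_⟩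
        obtain ⟨j, θ, p, hj1, hj2, hj3, hj4, hj5⟩ := h.move
        refine ⟨j.succ, θ, p, ?_, hj2, hj3, hj4, hj5⟩
        intro i hi
        induction i using Fin.cases with
        | zero => rfl
        | succ i =>
          have h3 : g' i = g i := hj1 i (fun h => hi (by rw [h]))
          change ((g' i : U) : V) = ((g i : U) : V)
          rw [h3]
      have hdec : ∀ (f : Fin (r + 1) → V) (hf : IsFrame b α f) (h0 : f 0 = e),
          f = (Fin.cons e (fun i => ((⟨f i.succ, hU' f hf h0 i⟩ : U) : V)) :
            Fin (r + 1) → V) := by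
        intro f hf h0
        funext i
        induction i using Fin.cases with
        | zero => exact h0
        | succ i => rfl
      have h3 := ih U (b.sub U) h1 (by omega) (fun i => α i.succ)
        (fun i => ⟨f i.succ, hU' f hf h0 i⟩) (fun i => ⟨f' i.succ, hU' f' hf' h0' i⟩)
        ⟨fun i => hf.1 i.succ, fun i j hij => hf.2 _ _ (fun h => hij (Fin.succ_injective _ h))⟩
        ⟨fun i => hf'.1 i.succ, fun i j hij => hf'.2 _ _ (fun h => hij (Fin.succ_injective _ h))⟩
      have h4 := Relation.ReflTransGen.lift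
        (fun g : Fin r → U => (Fin.cons e (fun i => (g i : V)) : Fin (r + 1) → V)) lift _ _ h3
      rw [hdec f hf h0, hdec f' hf' h0']
      exact h4
    -- induction over the chain of first vectors
    have hchain := conn hQ hU hS b hb (by omega) (α 0) (hf.1 0) (hf'.1 0)
    have key : ∀ e e' : V, Relation.ReflTransGen (Nx b (α 0)) e e' → ∀ f f' : Fin (r + 1) → V,
        IsFrame b α f → IsFrame b α f' → f 0 = e → f' 0 = e' →
        Relation.ReflTransGen (Mv b α) f f' := by
      intro e e' h
      induction h with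
      | refl => exact same e
      | @tail e₁ e₂ h12 hn ihc =>
        intro f f' hf hf' h0 h0'
        obtain ⟨he₁, he₂, θ, p, hθ, hθ0, hp0, hθp⟩ := hn
        have hα0 : algebraMap F L (α 0) ≠ 0 := (_root_.map_ne_zero _).mpr (α 0).ne_zero
        have he₁0 : b.h e₁ e₁ ≠ 0 := by rw [he₁]; exact hα0
        obtain ⟨hn1, hd1⟩ := compl b hb he₁0
        -- the complement of `e₁` and `e₂`
        let U := LinearMap.ker (b.lin e₁)
        have hd1' : finrank L U + 1 = finrank L V := hd1
        have hθ' : b.h e₂ e₁ = algebraMap F L (α 0) * star θ := by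
          rw [← b.star_h, hθ, star_mul', hQ.fix']
        let x : U := ⟨e₂ - star θ • e₁, by
          refine LinearMap.mem_ker.mpr ?_
          change b.h (e₂ - star θ • e₁) e₁ = 0
          rw [b.sub_left, b.smul_left, hθ', he₁, mul_comm, sub_self]⟩
        have hx : (b.sub U).h x x ≠ 0 := by
          change b.h (e₂ - star θ • e₁) (e₂ - star θ • e₁) ≠ 0
          rw [b.sub_left, b.sub_right, b.sub_right, b.smul_left, b.smul_left, b.smul_right,
            b.smul_right, star_star, he₁, he₂, hθ, hθ']
          intro h5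
          have h6 : algebraMap F L (α 0) * (p * star p) = 0 := by
            linear_combination -h5 - (algebraMap F L (α 0)) * hθp
          rcases mul_eq_zero.mp h6 with h7 | h7
          · exact hα0 h7
          · exact (mul_ne_zero hp0 (star_ne_zero.mpr hp0)) h7
        obtain ⟨hn2, hd2⟩ := compl (b.sub U) hn1 hx
        obtain ⟨w, hw⟩ := exists_frame hQ hU r _ ((b.sub U).sub (LinearMap.ker ((b.sub U).lin x)))
          hn2 (by omega) (fun i => α i.succ)
        let g : Fin r → V := fun i => ((w i : U) : V)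
        have hg1 : ∀ i, b.h (g i) e₁ = 0 := fun i => LinearMap.mem_ker.mp (w i : U).2
        have hg2 : ∀ i, b.h (g i) e₂ = 0 := by
          intro i
          have h5 : b.h (g i) (e₂ - star θ • e₁) = 0 := LinearMap.mem_ker.mp (w i).2
          rw [b.sub_right, b.smul_right, hg1, zero_mul, sub_zero] at h5
          exact h5
        have hgf : IsFrame b (fun i => α i.succ) g := ⟨hw.1, hw.2⟩
        have hF1 : IsFrame b α (Fin.cons e₁ g : Fin (r + 1) → V) := frame_cons he₁ hgf hg1
        have hF2 : IsFrame b α (Fin.cons e₂ g : Fin (r + 1) → V) := frame_cons he₂ hgf hg2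
        have hmv : Mv b α (Fin.cons e₁ g : Fin (r + 1) → V) (Fin.cons e₂ g : Fin (r + 1) → V) := by
          refine ⟨hF1, hF2, 0, θ, p, ?_, hθ, hθ0, hp0, hθp⟩
          intro i hi
          induction i using Fin.cases with
          | zero => exact absurd rfl hi
          | succ i => rfl
        exact ((ihc f _ hf hF1 h0 rfl).tail hmv).trans (same e₂ _ f' hF2 hf' rfl h0')
    exact key _ _ hchain f f' hf hf' rfl rfl

end Vale.Agent.P011.Two
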