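import Vale.Agent.P011.Two.FrameTrans
import Vale.Agent.P011.Two.Frames

/-!
Local chains of unit vectors at a nonsplit finite place.
-/

open NumberField IsDedekindDomain TensorProduct Filter Topology Matrix

set_option linter.unusedSectionVars false

namespace Vale.Agent.P011.Two

open Vale.Agent.P011.Arith Vale.Agent.P011.Even Vale.Agent.P011.T2

theorem norm_four_le {k : Type} [Field k] [NumberField k] (v : HeightOneSpectrum (𝓞 k)) :
    ‖(4 : v.adicCompletion k)‖ ≤ 1 := by
  rw [norm_le_one_iff]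
  exact val_four_le _

theorem sqNear {k : Type} [Field k] [NumberField k] (v : HeightOneSpectrum (𝓞 k)) :
    SqNear (v.adicCompletion k) := by
  intro B C B' C'
  let _ := nnf v
  have h4 : (0 : ℝ) < ‖(4 : v.adicCompletion k)‖ := norm_pos_iff.mpr (by norm_num)
  have hc : ∀ B C : v.adicCompletion k, ∀ ε : ℝ, 0 < ε →
      ∀ᶠ x in 𝓝 (0 : v.adicCompletion k), ‖B * x ^ 2 + C * x ^ 4‖ < ε := by
    intro B C ε hε
    have h1 : Continuous fun x : v.adicCompletion k => ‖B * x ^ 2 + C * x ^ 4‖ := by fun_prop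
    have h2 := h1.tendsto 0
    simp only [ne_eq, OfNat.ofNat_ne_zero, not_false_eq_true, zero_pow, mul_zero, add_zero,
      norm_zero] at h2
    exact h2.eventually (Iio_mem_nhds hε)
  have h5 := ((hc B C _ h4).and (hc B' C' 1 one_pos)).filter_mono
    (nhdsWithin_le_nhds (s := {(0 : v.adicCompletion k)}ᶜ))
  obtain ⟨x, ⟨hx1, hx2⟩, hx0⟩ := (h5.and self_mem_nhdsWithin).exists
  have hsq : IsSquare (1 + (B * x ^ 2 + C * x ^ 4)) := by
    apply isSquare_of_close
    rw [add_sub_cancel_left, ← Even.norm_lt_iff]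
    exact hx1
  have hne : ∀ z : v.adicCompletion k, ‖z‖ < 1 → 1 + z ≠ 0 := by
    intro z hz h
    have : z = -1 := by linear_combination h
    rw [this, norm_neg, norm_one] at hz
    exact lt_irrefl _ hz
  obtain ⟨y, hy⟩ := hsq
  refine ⟨x, y, hx0, ?_, ?_, ?_⟩
  · rintro rfl
    rw [mul_zero] at hy
    exact hne _ (hx1.trans_le (norm_four_le v)) hy
  · rw [add_assoc, hy, sq]
  · rw [add_assoc]
    exact hne _ hx2

theorem exists_seq_rtg {α : Type} {r : α → α → Prop} {x y : α}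
    (h : Relation.ReflTransGen r x y) : ∃ (m : ℕ) (Y : ℕ → α), Y 0 = x ∧ Y m = y ∧
      ∀ i < m, r (Y i) (Y (i + 1)) := by
  induction h with
  | refl => exact ⟨0, fun _ => x, rfl, rfl, fun i hi => absurd hi (Nat.not_lt_zero i)⟩
  | @tail b c _ hbc ih =>
    obtain ⟨m, Y, h0, hm, hs⟩ := ih
    refine ⟨m + 1, fun i => if i ≤ m then Y i else c, ?_, ?_, ?_⟩
    · dsimp only
      rw [if_pos (Nat.zero_le m), h0]
    · dsimp only
      rw [if_neg (by omega)]
    · intro i hi
      dsimp only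
      rcases Nat.lt_succ_iff_lt_or_eq.mp hi with h | h
      · rw [if_pos h.le, if_pos (show i + 1 ≤ m from h)]
        exact hs i h
      · rw [h, if_pos le_rfl, if_neg (by omega), hm]
        exact hbc

section

variable {k K D : Type} [Field k] [NumberField k] [Field K] [StarRing K]
  [DivisionRing D] [StarRing D] [Algebra k K] [Algebra k D] [Algebra K D] [IsScalarTower k K D]
  {d : kˣ} {s : K} {hS : Setting k K D d s} {v : HeightOneSpectrum (𝓞 k)}
  {n : ℕ} {L : Type} [Field L] [Algebra (v.adicCompletion k) L] [StarRing L]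
  {ρ : v.adicCompletion k ⊗[k] D ≃ₐ[v.adicCompletion k] Matrix (Fin n) (Fin n) L}
  {G : Matrix (Fin n) (Fin n) L}

theorem univ2 (hv : d ∉ LS (v.valuation k))
    (hfix : ∀ x : L, star x = x ↔ x ∈ Set.range (algebraMap (v.adicCompletion k) L)) {θ : L}
    (hθs : star θ = -θ)
    (hθ : θ ^ 2 = algebraMap (v.adicCompletion k) L (algebraMap k _ (d : k))) :
    Univ2 (v.adicCompletion k) L := by
  have hb := binUniv (indexTwo v) hfix (d := iu v d) (fun h => hv ((isSquare_iff v d).mp h))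
    (s := θ) hθ hθs
  intro a b c
  have hF : ∀ y : v.adicCompletion k, star (algebraMap _ L y) = algebraMap _ L y :=
    fun y => (hfix _).mpr ⟨y, rfl⟩
  have h0 : ∀ u : (v.adicCompletion k)ˣ, algebraMap _ L (u : v.adicCompletion k) ≠ 0 :=
    fun u => (_root_.map_ne_zero _).mpr u.ne_zero
  obtain ⟨x, y, h⟩ := hb _ _ _ (hF a) (hF b) (hF c) (h0 a) (h0 b) (h0 c)
  refine ⟨x, y, ?_⟩
  rw [← h]
  ring

/-- Any two local unit vectors are connected by a chain. -/
theorem local_chain (hn : 2 ≤ n) (hv : d ∉ LS (v.valuation k)) (hGu : IsUnit G) (hGs : Gᴴ = G)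
    (hG : ∀ T, G * ρ (sg hS v T) = (ρ T)ᴴ * G)
    (hfix : ∀ x : L, star x = x ↔ x ∈ Set.range (algebraMap (v.adicCompletion k) L))
    {g : D} (hg : star g = g) (hg0 : g ≠ 0)
    (X Y : (v.adicCompletion k ⊗[k] D) × (v.adicCompletion k ⊗[k] D))
    (hX : hF hS v g X X = 1) (hY : hF hS v g Y Y = 1) :
    Relation.ReflTransGen (LStep hS v g) X Y := by
  have : CharZero L := charZero_of_injective_algebraMap
    (algebraMap (v.adicCompletion k) L).injective
  obtain ⟨θ, -, hθ0, hθs, hθ⟩ := model_theta (hS := hS) (by omega) hGu hG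
  have hQ : QuadL (v.adicCompletion k) L (algebraMap k _ (d : k)) :=
    ⟨fun x hx => (hfix x).mp hx, fun e => (hfix _).mpr ⟨e, rfl⟩, θ, hθ0, hθs, hθ⟩
  obtain ⟨h1, h2⟩ := model_inv hGu
  have hH : (G⁻¹)ᴴ = G⁻¹ := by rw [Matrix.conjTranspose_nonsing_inv, hGs]
  have hH' := model_herm hGu hGs hG hg
  have hGid : (G⁻¹).det ≠ 0 := by
    intro h
    have h3 := congrArg Matrix.det h1
    rw [Matrix.det_mul, h, mul_zero, Matrix.det_one] at h3
    exact zero_ne_one h3
  have hgd : (ρ (1 ⊗ₜ g)).det ≠ 0 := by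
    intro h
    have h3 : ρ (1 ⊗ₜ g) * ρ (1 ⊗ₜ g⁻¹) = 1 := by
      rw [← map_mul, Algebra.TensorProduct.tmul_mul_tmul, one_mul, mul_inv_cancel₀ hg0,
        ← Algebra.TensorProduct.one_def, map_one]
    have h4 := congrArg Matrix.det h3
    rw [Matrix.det_mul, h, zero_mul, Matrix.det_one] at h4
    exact zero_ne_one h4
  have hHd : (ρ (1 ⊗ₜ g) * G⁻¹).det ≠ 0 := by
    rw [Matrix.det_mul]
    exact mul_ne_zero hgd hGid
  obtain ⟨P, α, hPu, hP⟩ := exists_diag hQ G⁻¹ hH hGid
  set b := sumHF G⁻¹ (ρ (1 ⊗ₜ g) * G⁻¹) hH hH' with hb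
  have hbn : b.Nondeg := sumHF_nondeg hH hH' hGid hHd
  have hdim : n + 2 ≤ Module.finrank L ((Fin n → L) × (Fin n → L)) := by
    rw [Module.finrank_prod, Module.finrank_fin_fun]
    omega
  have hframe : ∀ X : (v.adicCompletion k ⊗[k] D) × (v.adicCompletion k ⊗[k] D),
      hF hS v g X X = 1 → IsFrame b α (rows (P * ρ X.1) (P * ρ X.2)) := by
    intro X hX
    have h3 : ∀ a c, b.h (rows (P * ρ X.1) (P * ρ X.2) a) (rows (P * ρ X.1) (P * ρ X.2) c) =
        Matrix.diagonal (fun i => algebraMap (v.adicCompletion k) L (α i)) a c := by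
      intro a c
      rw [hb, gram_eq hGu hG hH hH' P X X a c, hX, map_one, Matrix.mul_one, hP]
    constructor
    · intro i
      rw [h3, Matrix.diagonal_apply_eq]
    · intro i j hij
      rw [h3, Matrix.diagonal_apply_ne _ hij]
  have hc := chain_frames hQ (univ2 hv hfix hθs hθ) (sqNear v) _ b hbn hdim α _ _ (hframe X hX)
    (hframe Y hY)
  have h3 : Relation.ReflTransGen (LStep hS v g)
      (unrows ρ P (rows (P * ρ X.1) (P * ρ X.2))) (unrows ρ P (rows (P * ρ Y.1) (P * ρ Y.2))) :=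
    hc.lift (p := LStep hS v g) (unrows ρ P) (fun f f' hff =>
      mv_step hn hGu hG hfix hg hH hH' hPu hP f f' hff)
  rwa [unrows_rows hPu, unrows_rows hPu] at h3

end

end Vale.Agent.P011.Two
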