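import Vale.Agent.P011.Two.HigherA
import Vale.Agent.P011.RP.Third
import Vale.Agent.P011.RP.Final

/-!
The passage between isometries and unitary matrices, and reduced norms of isometries supported
on planes.
-/

open Module Matrix Polynomial
open scoped commutatorElement

set_option linter.unusedSectionVars false

namespace Vale.Agent.P011.Two.Hi

open Vale.Agent.P011S Vale.Agent.P011.Arith Vale.Agent.P011.Even
open Vale.Agent.P011.RP (rowH rowF col_row isUnit_of_anis)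

section rows

variable {D : Type} [DivisionRing D] [StarRing D] {m : ℕ}

/-- The hermitian form on rows. -/
def rowA (H : Matrix (Fin m) (Fin m) D) (hH : IsAnisotropicForm H) : AForm D (Fin m → D) where
  h := rowH H
  add_left' := (rowF H hH.1).add_left
  smul_left' := (rowF H hH.1).smul_left
  star_h' := (rowF H hH.1).star_h
  anis' v hv := by
    have h1 := hH.2 (star v) (by rw [col_row, star_star, hv])
    rw [← star_star v, h1, star_zero]

theorem rowH_eq (H : Matrix (Fin m) (Fin m) D) (x y : Fin m → D) :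
    rowH H x y = x ⬝ᵥ (H *ᵥ star y) := by
  simp only [rowH, dotProduct, Matrix.mulVec, Finset.mul_sum, Pi.star_apply, mul_assoc]

/-- The matrix of a linear map on rows. -/
def rm (T : (Fin m → D) →ₗ[D] (Fin m → D)) : Matrix (Fin m) (Fin m) D :=
  Matrix.of fun i j => T (Pi.single i 1) j

theorem map_eq_sum {W : Type} [AddCommGroup W] [Module D W] (T : (Fin m → D) →ₗ[D] W)
    (x : Fin m → D) : T x = ∑ i, x i • T (Pi.single i 1) := by
  have h := LinearMap.pi_apply_eq_sum_univ T x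
  rw [h]
  refine Finset.sum_congr rfl fun i _ => ?_
  congr 2
  ext j
  rw [Pi.single_apply]
  simp only [eq_comm]

theorem rm_apply (T : (Fin m → D) →ₗ[D] (Fin m → D)) (x : Fin m → D) : T x = x ᵥ* rm T := by
  rw [map_eq_sum T x]
  ext j
  rw [Finset.sum_apply]
  rfl

theorem rm_eq {T : (Fin m → D) →ₗ[D] (Fin m → D)} {M : Matrix (Fin m) (Fin m) D}
    (h : ∀ x, T x = x ᵥ* M) : rm T = M := by
  apply Matrix.ext_of_single_vecMul
  intro i
  rw [← rm_apply, h]

/-- The linear automorphism of the space of rows attached to an invertible matrix. -/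
def rp : (Matrix (Fin m) (Fin m) D)ˣ →* ((Fin m → D) ≃ₗ[D] (Fin m → D)) where
  toFun g :=
    { toFun := fun x => x ᵥ* (g : Matrix (Fin m) (Fin m) D)ᴴ
      invFun := fun x => x ᵥ* (↑g⁻¹ : Matrix (Fin m) (Fin m) D)ᴴ
      map_add' := fun x y => Matrix.add_vecMul _ _ _
      map_smul' := fun a x => Matrix.smul_vecMul _ _ _
      left_inv := fun x => by
        change (x ᵥ* (g : Matrix (Fin m) (Fin m) D)ᴴ) ᵥ* (↑g⁻¹ : Matrix (Fin m) (Fin m) D)ᴴ = x
        rw [Matrix.vecMul_vecMul, ← Matrix.conjTranspose_mul, Units.inv_mul]; simp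
      right_inv := fun x => by
        change (x ᵥ* (↑g⁻¹ : Matrix (Fin m) (Fin m) D)ᴴ) ᵥ* (g : Matrix (Fin m) (Fin m) D)ᴴ = x
        rw [Matrix.vecMul_vecMul, ← Matrix.conjTranspose_mul, Units.mul_inv]; simp }
  map_one' := by
    ext x i
    simp
  map_mul' a b := by
    ext1 x
    change x ᵥ* ((a * b : (Matrix (Fin m) (Fin m) D)ˣ) : Matrix (Fin m) (Fin m) D)ᴴ =
      (x ᵥ* (b : Matrix (Fin m) (Fin m) D)ᴴ) ᵥ* (a : Matrix (Fin m) (Fin m) D)ᴴ
    rw [Matrix.vecMul_vecMul, ← Matrix.conjTranspose_mul, Units.val_mul]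

theorem rp_apply (g : (Matrix (Fin m) (Fin m) D)ˣ) (x : Fin m → D) :
    rp g x = x ᵥ* (g : Matrix (Fin m) (Fin m) D)ᴴ := rfl

theorem rm_rp (g : (Matrix (Fin m) (Fin m) D)ˣ) :
    rm (rp g : (Fin m → D) →ₗ[D] (Fin m → D)) = (g : Matrix (Fin m) (Fin m) D)ᴴ :=
  rm_eq fun x => rp_apply g x

theorem rp_injective : Function.Injective (rp (D := D) (m := m)) := by
  intro a b h
  apply Units.ext
  have h1 := rm_rp a
  rw [h, rm_rp] at h1
  have h2 := congrArg Matrix.conjTranspose h1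
  rw [Matrix.conjTranspose_conjTranspose, Matrix.conjTranspose_conjTranspose] at h2
  exact h2.symm

theorem rp_surj (T : (Fin m → D) ≃ₗ[D] (Fin m → D)) : ∃ g, rp g = T := by
  have key : ∀ S : (Fin m → D) ≃ₗ[D] (Fin m → D),
      rm (S : (Fin m → D) →ₗ[D] (Fin m → D)) * rm (S⁻¹ : (Fin m → D) ≃ₗ[D] (Fin m → D)) =
        1 := by
    intro S
    apply Matrix.ext_of_single_vecMul
    intro i
    rw [← Matrix.vecMul_vecMul, ← rm_apply, ← rm_apply, Matrix.vecMul_one]
    exact S.symm_apply_apply _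
  have h1 := key T
  have h2 := key T⁻¹
  rw [inv_inv] at h2
  refine ⟨⟨(rm (T : (Fin m → D) →ₗ[D] (Fin m → D)))ᴴ,
    (rm ((T⁻¹ : (Fin m → D) ≃ₗ[D] (Fin m → D)) : (Fin m → D) →ₗ[D] (Fin m → D)))ᴴ, ?_, ?_⟩, ?_⟩
  · rw [← Matrix.conjTranspose_mul, h2, Matrix.conjTranspose_one]
  · rw [← Matrix.conjTranspose_mul, h1, Matrix.conjTranspose_one]
  · ext1 x
    rw [rp_apply]
    change x ᵥ* ((rm (T : (Fin m → D) →ₗ[D] (Fin m → D)))ᴴ)ᴴ = _
    rw [Matrix.conjTranspose_conjTranspose, ← rm_apply]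
    rfl

theorem rp_mem {H : Matrix (Fin m) (Fin m) D} (hH : IsAnisotropicForm H)
    {g : (Matrix (Fin m) (Fin m) D)ˣ} : rp g ∈ (rowA H hH).isom ↔ g ∈ UH H := by
  have key : ∀ x y : Fin m → D, rowH H (rp g x) (rp g y) =
      x ⬝ᵥ (((g : Matrix (Fin m) (Fin m) D)ᴴ * H * (g : Matrix (Fin m) (Fin m) D)) *ᵥ
        star y) := by
    intro x y
    rw [rowH_eq, rp_apply, rp_apply, Matrix.star_vecMul, Matrix.conjTranspose_conjTranspose,
      ← Matrix.dotProduct_mulVec, Matrix.mulVec_mulVec, Matrix.mulVec_mulVec, Matrix.mul_assoc]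
  constructor
  · intro h
    change (g : Matrix (Fin m) (Fin m) D)ᴴ * H * (g : Matrix (Fin m) (Fin m) D) = H
    ext i j
    have h1 := h (Pi.single i 1) (Pi.single j 1)
    change rowH H (rp g (Pi.single i 1)) (rp g (Pi.single j 1)) = rowH H _ _ at h1
    rw [key, rowH_eq] at h1
    have h2 : star (Pi.single j 1 : Fin m → D) = Pi.single j 1 := by
      ext l
      rw [Pi.star_apply, Pi.single_apply]
      split_ifs <;> simp
    rw [h2] at h1
    simpa using h1
  · intro h x y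
    change rowH H (rp g x) (rp g y) = rowH H x y
    rw [key, rowH_eq]
    have h1 : (g : Matrix (Fin m) (Fin m) D)ᴴ * H * (g : Matrix (Fin m) (Fin m) D) = H := h
    rw [h1]

variable {K Ω : Type} [Field K] [Algebra K D] [Field Ω] [Algebra K Ω] {n : ℕ}
  (f : D →ₐ[K] Matrix (Fin n) (Fin n) Ω)

theorem redNorm_conj {H : Matrix (Fin m) (Fin m) D} (hH : IsAnisotropicForm H)
    {g : (Matrix (Fin m) (Fin m) D)ˣ} (hg : g ∈ UH H) :
    redNorm f (Fin m) (g : Matrix (Fin m) (Fin m) D)ᴴ = 1 ↔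
      redNorm f (Fin m) (g : Matrix (Fin m) (Fin m) D) = 1 := by
  have h1 : (g : Matrix (Fin m) (Fin m) D)ᴴ * H * (g : Matrix (Fin m) (Fin m) D) = H := hg
  have h2 := congrArg (redNorm f (Fin m)) h1
  rw [map_mul, map_mul] at h2
  have h3 : redNorm f (Fin m) H ≠ 0 := ((isUnit_of_anis hH).map (redNorm f (Fin m))).ne_zero
  have h4 : redNorm f (Fin m) (g : Matrix (Fin m) (Fin m) D)ᴴ *
      redNorm f (Fin m) (g : Matrix (Fin m) (Fin m) D) = 1 := by
    apply mul_right_cancel₀ h3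
    linear_combination h2
  constructor
  · intro h
    rwa [h, one_mul] at h4
  · intro h
    rwa [h, mul_one] at h4

/-- The matrix of a linear automorphism of `D × D`. -/
def m2 (u : (D × D) ≃ₗ[D] (D × D)) : Matrix (Fin 2) (Fin 2) D :=
  !![(u (1, 0)).1, (u (1, 0)).2; (u (0, 1)).1, (u (0, 1)).2]

theorem u_apply (u : (D × D) ≃ₗ[D] (D × D)) (c : D × D) :
    u c = (c.1 * (u (1, 0)).1 + c.2 * (u (0, 1)).1, c.1 * (u (1, 0)).2 + c.2 * (u (0, 1)).2) := by
  have h1 : c = c.1 • ((1 : D), (0 : D)) + c.2 • ((0 : D), (1 : D)) := by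
    ext <;> simp
  nth_rewrite 1 [h1]
  rw [map_add, map_smul, map_smul]
  ext <;> simp

theorem redNorm_ex {H : Matrix (Fin m) (Fin m) D} {hH : IsAnisotropicForm H} {X Y : Fin m → D}
    (h : Pl (rowA H hH) X Y) (u : (D × D) ≃ₗ[D] (D × D)) :
    redNorm f (Fin m) (rm (ex h u : (Fin m → D) →ₗ[D] (Fin m → D))) =
      redNorm f (Fin 2) (m2 u) := by
  obtain ⟨A, hA⟩ : ∃ A : Matrix (Fin m) (Fin 2) D, A = Matrix.of fun i =>
    ![(crd (rowA H hH) X Y (Pi.single i 1)).1, (crd (rowA H hH) X Y (Pi.single i 1)).2] :=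
    ⟨_, rfl⟩
  obtain ⟨B, hB⟩ : ∃ B : Matrix (Fin 2) (Fin m) D, B = Matrix.of ![X, Y] := ⟨_, rfl⟩
  have hxA : ∀ x : Fin m → D, x ᵥ* A = ![(crd (rowA H hH) X Y x).1, (crd (rowA H hH) X Y x).2] := by
    intro x
    rw [map_eq_sum (crd (rowA H hH) X Y) x, hA]
    ext c
    fin_cases c
    · simp [Matrix.vecMul, dotProduct, Prod.fst_sum]
    · simp [Matrix.vecMul, dotProduct, Prod.snd_sum]
  have hcB : ∀ c : Fin 2 → D, c ᵥ* B = vec X Y (c 0, c 1) := by
    intro c
    rw [hB, vec_apply]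
    ext j
    simp [Matrix.vecMul, dotProduct]
  have hBA : B * A = 1 := by
    apply Matrix.ext_of_single_vecMul
    intro i
    rw [← Matrix.vecMul_vecMul, hxA, hcB, crd_vec h, Matrix.vecMul_one]
    ext j
    fin_cases i <;> fin_cases j <;> simp
  have hc2 : ∀ c : D × D, ![c.1, c.2] ᵥ* m2 u = ![(u c).1, (u c).2] := by
    intro c
    rw [u_apply u c]
    ext j
    fin_cases j <;> simp [m2, Matrix.vecMul, dotProduct]
  have h1 : rm (ex h u : (Fin m → D) →ₗ[D] (Fin m → D)) = 1 - A * ((1 - m2 u) * B) := by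
    apply rm_eq
    intro x
    rw [Matrix.vecMul_sub, Matrix.vecMul_one, ← Matrix.vecMul_vecMul, ← Matrix.vecMul_vecMul,
      hxA, Matrix.vecMul_sub, Matrix.vecMul_one, hc2, hcB]
    change ex h u x = _
    rw [ex_apply]
    have e : ((![(crd (rowA H hH) X Y x).1, (crd (rowA H hH) X Y x).2] -
        ![(u (crd (rowA H hH) X Y x)).1, (u (crd (rowA H hH) X Y x)).2] : Fin 2 → D) 0,
        (![(crd (rowA H hH) X Y x).1, (crd (rowA H hH) X Y x).2] -
        ![(u (crd (rowA H hH) X Y x)).1, (u (crd (rowA H hH) X Y x)).2] : Fin 2 → D) 1) =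
        crd (rowA H hH) X Y x - u (crd (rowA H hH) X Y x) := by
      ext <;> simp
    rw [e, map_sub]
    abel
  rw [h1, redNorm_one_sub_mul_comm, Matrix.mul_assoc, hBA, Matrix.mul_one, sub_sub_cancel]

end rows

section split

variable {k K D Ω : Type} [Field k] [Field K] [DivisionRing D] [Algebra k K] [Algebra k D]
  [Algebra K D] [IsScalarTower k K D] [Field Ω] [Algebra K Ω] {n : ℕ}
  (f : D →ₐ[K] Matrix (Fin n) (Fin n) Ω)

theorem redNorm_map {R : Type} [CommRing R] (ψ : R →+* D) {μ : Type} [Fintype μ]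
    [DecidableEq μ] (M : Matrix μ μ R) : redNorm f μ (M.map ψ) = (f (ψ M.det)).det :=
  (Matrix.det_det M (f.toRingHom.comp ψ)).symm

theorem redNorm_plane {d : kˣ} {s : K} (hs : s ^ 2 = algebraMap k K d) {F : Type} [Field F]
    [Algebra k F] (ι : F →ₐ[k] D) (b p₀ p₁ q₀ q₁ : F)
    (hnrm : p₀ ^ 2 - algebraMap k F d * p₁ ^ 2 + b * (q₀ ^ 2 - algebraMap k F d * q₁ ^ 2) = 1) :
    redNorm f (Fin 2) !![ι p₀ + ι p₁ * algebraMap K D s, ι q₀ + ι q₁ * algebraMap K D s;
      -(ι b * (ι q₀ - ι q₁ * algebraMap K D s)), ι p₀ - ι p₁ * algebraMap K D s] = 1 := by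
  obtain ⟨S, hS⟩ : ∃ S, S = algebraMap K D s := ⟨_, rfl⟩
  have hSc : ∀ x : F, Commute (ι.toRingHom x) S := by
    intro x
    rw [hS]
    exact (Algebra.commutes s _).symm
  let ψ : F[X] →+* D := Polynomial.eval₂RingHom' ι.toRingHom S hSc
  have hψC : ∀ x : F, ψ (C x) = ι x := fun x => Polynomial.eval₂_C _ _
  have hψX : ψ X = S := Polynomial.eval₂_X _ _
  have hSS : S ^ 2 = ι (algebraMap k F d) := by
    rw [hS, ← map_pow, hs, ← IsScalarTower.algebraMap_apply, AlgHom.commutes]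
  obtain ⟨M, hM⟩ : ∃ M : Matrix (Fin 2) (Fin 2) F[X], M =
      !![C p₀ + C p₁ * X, C q₀ + C q₁ * X; -(C b * (C q₀ - C q₁ * X)), C p₀ - C p₁ * X] :=
    ⟨_, rfl⟩
  have hMψ : M.map ψ = !![ι p₀ + ι p₁ * S, ι q₀ + ι q₁ * S;
      -(ι b * (ι q₀ - ι q₁ * S)), ι p₀ - ι p₁ * S] := by
    rw [hM]
    ext i j
    fin_cases i <;> fin_cases j <;> simp [hψC, hψX]
  have hdet : M.det = C (p₀ ^ 2 + b * q₀ ^ 2) - C (p₁ ^ 2 + b * q₁ ^ 2) * X ^ 2 := by
    rw [hM, Matrix.det_fin_two_of]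
    simp only [map_add, map_mul, map_pow]
    ring
  rw [← hS, ← hMψ, redNorm_map, hdet, map_sub, map_mul, map_pow, hψC, hψC, hψX, hSS, ← map_mul,
    ← map_sub]
  have e : p₀ ^ 2 + b * q₀ ^ 2 - (p₁ ^ 2 + b * q₁ ^ 2) * algebraMap k F d = 1 := by
    linear_combination hnrm
  rw [e, map_one, map_one, Matrix.det_one]

end split

end Vale.Agent.P011.Two.Hi
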