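import Vale.Agent.P011.RP.Odd

/-!
Frames of orthogonal vectors of given lengths in a hermitian space: definitions.
-/

open Module
open Vale.Agent.P011.T2

namespace Vale.Agent.P011.Two

/-- quadratic expressions near one are squares -/
def SqNear (F : Type) [Field F] : Prop :=
  ∀ B C B' C' : F, ∃ x y : F, x ≠ 0 ∧ y ≠ 0 ∧ 1 + B * x ^ 2 + C * x ^ 4 = y ^ 2 ∧
    1 + B' * x ^ 2 + C' * x ^ 4 ≠ 0

/-- binary hermitian forms are universal -/
def Univ2 (F L : Type) [Field F] [Field L] [StarRing L] [Algebra F L] : Prop :=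
  ∀ a b c : Fˣ, ∃ p q : L, algebraMap F L c =
    algebraMap F L a * (p * star p) + algebraMap F L b * (q * star q)

section

variable {F L V : Type} [Field F] [Field L] [StarRing L] [Algebra F L] [AddCommGroup V]
  [Module L V]

/-- orthogonal vectors of lengths `α` -/
def IsFrame (b : HF L V) {r : ℕ} (α : Fin r → Fˣ) (f : Fin r → V) : Prop :=
  (∀ i, b.h (f i) (f i) = algebraMap F L (α i)) ∧ ∀ i j, i ≠ j → b.h (f i) (f j) = 0

/-- A good change of one vector of a frame. -/
structure Mv (b : HF L V) {r : ℕ} (α : Fin r → Fˣ) (f f' : Fin r → V) : Prop where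
  frame : IsFrame b α f
  frame' : IsFrame b α f'
  move : ∃ (j : Fin r) (θ p : L), (∀ i, i ≠ j → f' i = f i) ∧
    b.h (f j) (f' j) = algebraMap F L (α j) * θ ∧ θ ≠ 0 ∧ p ≠ 0 ∧
    θ * star θ = 1 + p * star p

end

end Vale.Agent.P011.Two
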