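import Vale.Agent.P011.Two.BaseStep

/-!
One step of the approximation of local chains by a global chain.
-/

open NumberField IsDedekindDomain

set_option linter.unusedSectionVars false

namespace Vale.Agent.P011.Two

open Vale.Agent.P011.Arith Vale.Agent.P011.Even

section gen

variable {D : Type} [DivisionRing D] [StarRing D]

theorem hh_symm {g : D} (hg : star g = g) (x y : D × D) : star (hh g x y) = hh g y x := by
  rw [hh, hh, star_add, star_mul, star_mul, star_mul, star_star, star_star, hg, mul_assoc]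

theorem hh_move {g : D} {u : (D × D) ≃ₗ[D] (D × D)} (hu : u ∈ Uh g) (x y : D × D) :
    hh g (u x) y = hh g x (u⁻¹ y) := by
  have h := hu x (u⁻¹ y)
  rwa [show u (u⁻¹ y) = y from u.apply_symm_apply y] at h

theorem hh_e₁ (g : D) (x : D × D) : hh g e₁ x = star x.1 := by
  rw [hh, e₁]
  simp

theorem apply_eq (u : (D × D) ≃ₗ[D] (D × D)) (z : D × D) :
    u z = (z.1 * (u (1, 0)).1 + z.2 * (u (0, 1)).1, z.1 * (u (1, 0)).2 + z.2 * (u (0, 1)).2) := by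
  have h : z = z.1 • ((1, 0) : D × D) + z.2 • ((0, 1) : D × D) := by
    ext <;> simp
  conv_lhs => rw [h, map_add, map_smul, map_smul]
  rfl

end gen

variable {k K D : Type} [Field k] [NumberField k] [Field K] [StarRing K]
    [DivisionRing D] [StarRing D] [Algebra k K] [Algebra k D] [Algebra K D] [IsScalarTower k K D]
    {d : kˣ} {s : K} {N : ℕ}

/-- The map preserves the vectors with integral coordinates. -/
def IntIso (B : Module.Basis (Fin N) k D) (v : HeightOneSpectrum (𝓞 k))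
    (u : (D × D) ≃ₗ[D] (D × D)) : Prop :=
  ∀ y : D × D, Ing B v y.1 → Ing B v y.2 →
    (Ing B v (u y).1 ∧ Ing B v (u y).2) ∧ (Ing B v (u⁻¹ y).1 ∧ Ing B v (u⁻¹ y).2)

/-- The nonsplit places in `S` and at infinity. -/
def Pn (d : kˣ) (S : Set (HeightOneSpectrum (𝓞 k))) : Set (Pl k) :=
  {p | (∃ v ∈ S, d ∉ LS (v.valuation k) ∧ p = .inl v) ∨ ∃ φ : k →+* ℝ, φ d < 0 ∧ p = .inr φ}

theorem IntIso.one {B : Module.Basis (Fin N) k D} {v : HeightOneSpectrum (𝓞 k)} :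
    IntIso B v (1 : (D × D) ≃ₗ[D] (D × D)) := fun _ h1 h2 => ⟨⟨h1, h2⟩, h1, h2⟩

theorem IntIso.mul {B : Module.Basis (Fin N) k D} {v : HeightOneSpectrum (𝓞 k)}
    {u u' : (D × D) ≃ₗ[D] (D × D)} (hu : IntIso B v u) (hu' : IntIso B v u') :
    IntIso B v (u * u') := by
  intro y h1 h2
  refine ⟨?_, ?_⟩
  · obtain ⟨h3, h4⟩ := (hu' y h1 h2).1
    exact (hu _ h3 h4).1
  · obtain ⟨h3, h4⟩ := (hu y h1 h2).2
    exact (hu' _ h3 h4).2

theorem nm2_apply (B : Module.Basis (Fin N) k D) (p : Pl k) (u : (D × D) ≃ₗ[D] (D × D)) :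
    ∃ C : ℝ, 0 < C ∧ ∀ z, nm2 B p (u z) ≤ C * nm2 B p z := by
  obtain ⟨C, hC, hCm⟩ := nm_mul B p
  obtain ⟨a, ha⟩ : ∃ a, a = (u (1, 0)).1 := ⟨_, rfl⟩
  obtain ⟨a', ha'⟩ : ∃ a, a = (u (1, 0)).2 := ⟨_, rfl⟩
  obtain ⟨b, hb⟩ : ∃ a, a = (u (0, 1)).1 := ⟨_, rfl⟩
  obtain ⟨b', hb'⟩ : ∃ a, a = (u (0, 1)).2 := ⟨_, rfl⟩
  have h1 := nm_nonneg B p a
  have h2 := nm_nonneg B p a'
  have h3 := nm_nonneg B p b
  have h4 := nm_nonneg B p b'
  refine ⟨C * (nm B p a + nm B p a' + nm B p b + nm B p b') + 1, by positivity, fun z => ?_⟩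
  rw [apply_eq u z, ← ha, ← ha', ← hb, ← hb']
  change nm B p (z.1 * a + z.2 * b) + nm B p (z.1 * a' + z.2 * b') ≤ _ * (nm B p z.1 + nm B p z.2)
  have h5 := nm_nonneg B p z.1
  have h6 := nm_nonneg B p z.2
  have e1 := (nm_add_le B p (z.1 * a) (z.2 * b)).trans (add_le_add (hCm _ _) (hCm _ _))
  have e2 := (nm_add_le B p (z.1 * a') (z.2 * b')).trans (add_le_add (hCm _ _) (hCm _ _))
  have e3 : 0 ≤ C * nm B p z.1 * (nm B p b + nm B p b') := by positivity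
  have e4 : 0 ≤ C * nm B p z.2 * (nm B p a + nm B p a') := by positivity
  nlinarith

theorem qr_int {B : Module.Basis (Fin N) k D} {v : HeightOneSpectrum (𝓞 k)}
    (hG : GoodAt B d s v) {g b w : D} (hg : Ing B v g) (hb : Ing B v b) (hwI : Ing B v w⁻¹)
    (hw : w ≠ 0) (h : w + star w = 1 + b * g * star b) : IntIso B v (qr g b w hw h) := by
  have key : ∀ c : D, Ing B v c → ∀ y : D × D, Ing B v y.1 → Ing B v y.2 →
      Ing B v (y.1 - (y.1 - y.2 * g * star b) * c) ∧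
      Ing B v (y.2 + (y.1 - y.2 * g * star b) * c * b) := by
    intro c hc y h1 h2
    have h3 : Ing B v (y.1 - y.2 * g * star b) := by
      rw [sub_eq_add_neg]
      exact h1.add (Ing.mul hG.mul (Ing.mul hG.mul h2 hg) (hG.st _ hb)).neg
    have h4 := Ing.mul hG.mul h3 hc
    refine ⟨?_, h2.add (Ing.mul hG.mul h4 hb)⟩
    rw [sub_eq_add_neg]
    exact h1.add h4.neg
  intro y h1 h2
  refine ⟨?_, ?_⟩
  · rw [qr_apply]
    exact key _ hwI y h1 h2
  · rw [qr_symm_apply]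
    refine key _ ?_ y h1 h2
    rw [← star_inv₀]
    exact hG.st _ hwI

/-- One step. -/
theorem one_step (hS : Setting k K D d s) {g : D} (hg : star g = g)
    (B : Module.Basis (Fin N) k D) {S : Set (HeightOneSpectrum (𝓞 k))} (hSf : S.Finite)
    (hgood : ∀ v ∉ S, GoodAt B d s v ∧ Ing B v g) {u : (D × D) ≃ₗ[D] (D × D)} (huU : u ∈ Uh g)
    (huI : ∀ v ∉ S, d ∉ LS (v.valuation k) → IntIso B v u) {x' : D × D}
    (hx : hh g (u e₁) x' ≠ 0) (hxI : ∀ v ∉ S, d ∉ LS (v.valuation k) →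
      Ing B v x'.1 ∧ Ing B v x'.2 ∧ Ing B v (hh g (u e₁) x')⁻¹)
    (Y : Pl k → D × D) (hY : ∀ p ∈ Pn d S, hh g (Y p) (Y p) = 1)
    (hY1 : ∀ p ∈ Pn d S, hh g (u e₁) (Y p) ≠ 1) (η : Pl k → ℝ) (hη : ∀ p, 0 < η p) :
    ∃ u' ∈ Uh g, (∀ v ∉ S, d ∉ LS (v.valuation k) → IntIso B v u') ∧
      hh g (u e₁) (u' e₁) ≠ 0 ∧ hh g (u' e₁) x' ≠ 0 ∧
      (∀ p ∈ Pn d S, nm2 B p (u' e₁ - Y p) < η p) ∧
      ∀ v ∉ S, d ∉ LS (v.valuation k) → Ing B v (hh g (u e₁) (u' e₁))⁻¹ ∧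
        Ing B v (hh g (u' e₁) x')⁻¹ := by
  classical
  have h11 : (-1 : D) ≠ 1 := by
    have _ : CharZero D := charZero_of_injective_algebraMap (algebraMap k D).injective
    intro h
    have h1 : (2 : D) = 0 := by
      have : (1 : D) + 1 = 0 := by
        nth_rewrite 1 [← h]
        rw [neg_add_cancel]
      rw [← this]; norm_num
    exact two_ne_zero h1
  have hhinv : ∀ z z' : D × D, hh g (u⁻¹ z) (u⁻¹ z') = hh g z z' := fun z z' =>
    (inv_mem huU : u⁻¹ ∈ Uh g) z z'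
  obtain ⟨x₀, hx₀⟩ : ∃ x₀, x₀ = u⁻¹ x' := ⟨_, rfl⟩
  have hx₀1 : star x₀.1 = hh g (u e₁) x' := by rw [hh_move huU, ← hx₀, hh_e₁]
  have hx₀0 : x₀.1 ≠ 0 := by
    intro h
    rw [h, star_zero] at hx₀1
    exact hx hx₀1.symm
  obtain ⟨Y₀, hY₀⟩ : ∃ Y₀ : Pl k → D × D, ∀ p, Y₀ p = if p ∈ Pn d S then u⁻¹ (Y p) else (-1, 0) :=
    ⟨_, fun _ => rfl⟩
  choose C hC hCu using fun p => nm2_apply B p u
  obtain ⟨b, w, hw, hrel, h1, h2, h3, h4, h5⟩ := base_step hS hg B hSf hgood (x' := x₀) hx₀0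
    (by
      intro v hv hns
      obtain ⟨i1, i2, i3⟩ := hxI v hv hns
      obtain ⟨i4, i5⟩ := (huI v hv hns x' i1 i2).2
      rw [← hx₀] at i4 i5
      refine ⟨i4, i5, ?_⟩
      have e : x₀.1⁻¹ = star (hh g (u e₁) x')⁻¹ := by rw [← hx₀1, star_inv₀, star_star]
      rw [e]
      exact (hgood v hv).1.st _ i3)
    Y₀ (by
      intro p
      rw [hY₀]
      split_ifs with hp
      · rw [hhinv]
        exact hY p hp
      · rw [hh]
        simp)
    (by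
      intro p
      rw [hY₀]
      split_ifs with hp
      · intro h
        apply hY1 p hp
        rw [hh_move huU, hh_e₁, h, star_one]
      · exact h11)
    (fun p => η p / C p) (fun p => div_pos (hη p) (hC p))
  obtain ⟨y, hy⟩ : ∃ y : D × D, y = (1 - w⁻¹, w⁻¹ * b) := ⟨_, rfl⟩
  rw [← hy] at h2 h3 h4 h5
  have hqy : qr g b w hw hrel e₁ = y := by rw [qr_e₁, hy]
  have hue : (u * qr g b w hw hrel) e₁ = u y := by
    change u (qr g b w hw hrel e₁) = u y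
    rw [hqy]
  have e1 : hh g (u e₁) (u y) = star (1 - w⁻¹) := by
    rw [huU, hh_e₁, hy]
  have e2 : hh g (u y) x' = hh g y x₀ := by rw [hh_move huU, ← hx₀]
  have hnear : ∀ p, nm2 B p (y - Y₀ p) < η p / C p → p ∈ Pn d S →
      nm2 B p (u y - Y p) < η p := by
    intro p hp hpP
    rw [hY₀, if_pos hpP] at hp
    have e3 : u y - Y p = u (y - u⁻¹ (Y p)) := by
      rw [map_sub, show u (u⁻¹ (Y p)) = Y p from u.apply_symm_apply _]
    rw [e3]
    refine (hCu p _).trans_lt ?_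
    rw [lt_div_iff₀ (hC p)] at hp
    linarith
  refine ⟨u * qr g b w hw hrel, mul_mem huU (qr_mem hg hw hrel), fun v hv hns => ?_, ?_, ?_,
    fun p hp => ?_, fun v hv hns => ?_⟩
  · obtain ⟨i1, i2, -, -⟩ := h5 v hv hns
    exact (huI v hv hns).mul (qr_int (hgood v hv).1 (hgood v hv).2 i1 i2 hw hrel)
  · rw [hue, e1]
    exact star_ne_zero.mpr h1
  · rw [hue, e2]
    exact h2
  · rw [hue]
    rcases hp with ⟨v, hv, hns, rfl⟩ | ⟨φ, hφ, rfl⟩
    · exact hnear _ (h3 v hv hns) (Or.inl ⟨v, hv, hns, rfl⟩)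
    · exact hnear _ (h4 φ) (Or.inr ⟨φ, hφ, rfl⟩)
  · obtain ⟨-, -, i3, i4⟩ := h5 v hv hns
    rw [hue, e1, e2, ← star_inv₀]
    exact ⟨(hgood v hv).1.st _ i3, i4⟩

end Vale.Agent.P011.Two
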