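import Vale.Agent.P011.Even.Defs

/-!
Hermitian forms of rank two over division algebras: definitions.
The form on `D × D` is `hh g x y = x₁ * star y₁ + x₂ * g * star y₂`.
-/

open NumberField IsDedekindDomain

namespace Vale.Agent.P011.Two

open Vale.Agent.P011.Arith Vale.Agent.P011.Even

section form

variable {D : Type} [DivisionRing D] [StarRing D]

/-- The hermitian form with diagonal coefficients `1` and `g`. -/
def hh (g : D) (x y : D × D) : D := x.1 * star y.1 + x.2 * g * star y.2

/-- The form is anisotropic. -/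
def An (g : D) : Prop := ∀ x : D × D, hh g x x = 0 → x = 0

/-- The unitary group of the form. -/
def Uh (g : D) : Subgroup ((D × D) ≃ₗ[D] (D × D)) where
  carrier := {u | ∀ x y, hh g (u x) (u y) = hh g x y}
  mul_mem' := by
    intro u v hu hv x y
    change hh g (u (v x)) (u (v y)) = _
    rw [hu, hv]
  one_mem' := fun x y => rfl
  inv_mem' := by
    intro u hu x y
    have h := hu (u⁻¹ x) (u⁻¹ y)
    rw [show u (u⁻¹ x) = x from u.apply_symm_apply x,
      show u (u⁻¹ y) = y from u.apply_symm_apply y] at h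
    exact h.symm

/-- The first basis vector. -/
def e₁ : D × D := (1, 0)

/-- The diagonal isometry. -/
def IsDiag (t t' : D) (u : (D × D) ≃ₗ[D] (D × D)) : Prop := u (1, 0) = (t, 0) ∧ u (0, 1) = (0, t')

end form

variable {k K D : Type} [Field k] [NumberField k] [Field K] [StarRing K]
  [DivisionRing D] [StarRing D] [Algebra k K] [Algebra k D] [Algebra K D] [IsScalarTower k K D]

/-- The plane element: `u` acts on the plane spanned over `F(s)` by the unit vector `y` and the
orthogonal vector `w` of length `b` as the quaternion `p + q j`. -/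
structure PlaneElt (d : kˣ) (s : K) (g : D) {F : Type} [Field F] [NumberField F] [Algebra k F]
    (ι : F →ₐ[k] D) (b : Fˣ) (p₀ p₁ q₀ q₁ : F) (y w : D × D)
    (u : (D × D) ≃ₗ[D] (D × D)) : Prop where
  sym : ∀ x, star (ι x) = ι x
  yy : hh g y y = 1
  yw : hh g y w = 0
  ww : hh g w w = ι b
  nrm : p₀ ^ 2 - algebraMap k F d * p₁ ^ 2 + b * (q₀ ^ 2 - algebraMap k F d * q₁ ^ 2) = 1
  uy : u y = (ι p₀ + ι p₁ * algebraMap K D s) • y + (ι q₀ + ι q₁ * algebraMap K D s) • w
  uw : u w = (-(ι b * (ι q₀ - ι q₁ * algebraMap K D s))) • y +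
    (ι p₀ - ι p₁ * algebraMap K D s) • w

/-- The subgroup `N` contains the elements of the planes which are close to one at the places
where the quaternion algebra of the plane ramifies. -/
def HQ (d : kˣ) (s : K) (g : D) (e : ℕ) (N : Subgroup ((D × D) ≃ₗ[D] (D × D))) : Prop :=
  ∀ (F : Type) [Field F] [NumberField F] [Algebra k F] (ι : F →ₐ[k] D) (b : Fˣ)
    (p₀ p₁ q₀ q₁ : F) (y w : D × D) (u : (D × D) ≃ₗ[D] (D × D)),
    PlaneElt d s g ι b p₀ p₁ q₀ q₁ y w u →
    (∀ ω : HeightOneSpectrum (𝓞 F), -b ∉ NF (inc k F d) ⊔ LS (ω.valuation F) →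
      ω.valuation F (2 - 2 * p₀) < ω.valuation F (4 * (e : F) ^ 4)) → u ∈ N

/-- The condition on `c = ζ * star ζ` (`ζ` the product of two unit vectors) under which the lines
of the two unit vectors are in one orbit. -/
def Rel (k : Type) [Field k] [NumberField k] {D : Type} [DivisionRing D] [StarRing D]
    [Algebra k D] (d : kˣ) (e : ℕ) (c : D) : Prop :=
  c = 1 ∨ ∃ (F : Type) (_ : Field F) (_ : NumberField F) (_ : Algebra k F) (ι : F →ₐ[k] D)
    (c' c₁ : Fˣ), (∀ x, star (ι x) = ι x) ∧ ι c' = c ∧ (c₁ : F) = 1 - c' ∧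
    c' ∈ NF (inc k F d) ∧
    ∀ ω : HeightOneSpectrum (𝓞 F), -c₁ ∈ NF (inc k F d) ⊔ LS (ω.valuation F) ∨
      ω.valuation F (c₁ : F) < ω.valuation F (4 * (e : F) ^ 4)

end Vale.Agent.P011.Two
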