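import Vale.Agent.P011.Even.GNorm
import Vale.Agent.P011.Two.Defs

/-!
Convergence in a division algebra with respect to a place of the ground field.
-/

open NumberField IsDedekindDomain Filter Topology

set_option linter.unusedSectionVars false

namespace Vale.Agent.P011.Two

open Vale.Agent.P011.Arith Vale.Agent.P011.Even

variable {k D : Type} [Field k] [NumberField k] [DivisionRing D] [Algebra k D] {N : ℕ}
  (B : Module.Basis (Fin N) k D) (p : Pl k) {X : Type} {l : Filter X}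

theorem nm_pos' {x : D} (hx : x ≠ 0) : 0 < nm B p x := by
  have h1 : ∃ i, B.repr x i ≠ 0 := by
    by_contra h
    push Not at h
    apply hx
    rw [← B.sum_repr x]
    exact Finset.sum_eq_zero fun i _ => by rw [h i, zero_smul]
  obtain ⟨i, hi⟩ := h1
  exact ((plAbv p).pos hi).trans_le (Finset.single_le_sum (f := fun i => plAbv p (B.repr x i))
    (fun _ _ => AbsoluteValue.nonneg _ _) (Finset.mem_univ i))

/-- convergence -/
def Tn (l : Filter X) (f : X → D) (x₀ : D) : Prop :=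
  Tendsto (fun x => nm B p (f x - x₀)) l (𝓝 0)

variable {B p}

theorem Tn.const (a : D) : Tn B p l (fun _ => a) a := by
  simp only [Tn, sub_self, nm_zero]
  exact tendsto_const_nhds

theorem Tn.add {f h : X → D} {a b : D} (hf : Tn B p l f a) (hh : Tn B p l h b) :
    Tn B p l (fun x => f x + h x) (a + b) := by
  have h1 := Tendsto.add hf hh
  rw [add_zero] at h1
  refine squeeze_zero (fun x => nm_nonneg B p _) (fun x => ?_) h1
  rw [show f x + h x - (a + b) = (f x - a) + (h x - b) by abel]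
  exact nm_add_le B p _ _

theorem Tn.neg {f : X → D} {a : D} (hf : Tn B p l f a) : Tn B p l (fun x => -f x) (-a) := by
  refine hf.congr fun x => ?_
  rw [show -f x - -a = -(f x - a) by abel, nm_neg]

theorem Tn.sub {f h : X → D} {a b : D} (hf : Tn B p l f a) (hh : Tn B p l h b) :
    Tn B p l (fun x => f x - h x) (a - b) := by
  simp only [sub_eq_add_neg]
  exact hf.add hh.neg

theorem Tn.linear {f : X → D} {a : D} (hf : Tn B p l f a) (L : D →ₗ[k] D) :
    Tn B p l (fun x => L (f x)) (L a) := by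
  obtain ⟨C, hC, hCm⟩ := nm_linear B p L
  have h1 := Tendsto.const_mul C hf
  rw [mul_zero] at h1
  refine squeeze_zero (fun x => nm_nonneg B p _) (fun x => ?_) h1
  rw [← map_sub]
  exact hCm _

theorem Tn.mul {f h : X → D} {a b : D} (hf : Tn B p l f a) (hh : Tn B p l h b) :
    Tn B p l (fun x => f x * h x) (a * b) := by
  obtain ⟨C, hC, hCm⟩ := nm_mul B p
  have h1 : Tendsto (fun x => C * nm B p (f x - a) * nm B p (h x - b) +
      C * nm B p (f x - a) * nm B p b + C * nm B p a * nm B p (h x - b)) l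
      (𝓝 (C * 0 * 0 + C * 0 * nm B p b + C * nm B p a * 0)) := by
    refine Tendsto.add (Tendsto.add ?_ ?_) ?_
    · exact Tendsto.mul (Tendsto.const_mul C hf) hh
    · exact Tendsto.mul_const _ (Tendsto.const_mul C hf)
    · exact Tendsto.const_mul _ hh
  have e : C * 0 * 0 + C * 0 * nm B p b + C * nm B p a * 0 = 0 := by ring
  rw [e] at h1
  refine squeeze_zero (fun x => nm_nonneg B p _) (fun x => ?_) h1
  rw [show f x * h x - a * b = ((f x - a) * (h x - b) + (f x - a) * b) + a * (h x - b) by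
    noncomm_ring]
  refine (nm_add_le B p _ _).trans (add_le_add ?_ (hCm _ _))
  exact (nm_add_le B p _ _).trans (add_le_add (hCm _ _) (hCm _ _))

theorem Tn.inv {f : X → D} {a : D} (hf : Tn B p l f a) (ha : a ≠ 0) :
    Tn B p l (fun x => (f x)⁻¹) a⁻¹ := by
  obtain ⟨C, hC, hCm⟩ := nm_mul B p
  obtain ⟨M, hM⟩ : ∃ M : ℝ, M = nm B p a⁻¹ := ⟨_, rfl⟩
  have hM0 : 0 < M := hM ▸ nm_pos' B p (inv_ne_zero ha)
  have h1 : ∀ᶠ x in l, nm B p (f x - a) < nm B p a :=
    hf.eventually_lt_const (nm_pos' B p ha)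
  have h2 : ∀ᶠ x in l, nm B p (f x - a) < 1 / (2 * (C * C * M)) :=
    hf.eventually_lt_const (by positivity)
  have h3 : Tendsto (fun x => C * C * (2 * M) * M * nm B p (f x - a)) l (𝓝 0) := by
    have := Tendsto.const_mul (C * C * (2 * M) * M) hf
    rwa [mul_zero] at this
  refine squeeze_zero' (Eventually.of_forall fun x => nm_nonneg B p _) ?_ h3
  filter_upwards [h1, h2] with x hx1 hx2
  have hx0 : f x ≠ 0 := by
    intro h0
    rw [h0, zero_sub, nm_neg] at hx1
    exact lt_irrefl _ hx1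
  have e : (f x)⁻¹ - a⁻¹ = -((f x)⁻¹ * (f x - a) * a⁻¹) := by
    rw [mul_sub, inv_mul_cancel₀ hx0, sub_mul, one_mul, mul_assoc, mul_inv_cancel₀ ha, mul_one,
      neg_sub]
  have h0 := nm_nonneg B p (f x - a)
  have hn := nm_nonneg B p (f x)⁻¹
  have key : nm B p ((f x)⁻¹ - a⁻¹) ≤ C * C * nm B p (f x)⁻¹ * M * nm B p (f x - a) := by
    rw [e, nm_neg]
    refine (hCm _ _).trans ?_
    rw [← hM]
    calc C * nm B p ((f x)⁻¹ * (f x - a)) * M
        ≤ C * (C * nm B p (f x)⁻¹ * nm B p (f x - a)) * M := by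
          refine mul_le_mul_of_nonneg_right ?_ hM0.le
          exact mul_le_mul_of_nonneg_left (hCm _ _) hC.le
      _ = _ := by ring
  have hb : nm B p (f x)⁻¹ ≤ 2 * M := by
    have h4 : nm B p (f x)⁻¹ ≤ nm B p ((f x)⁻¹ - a⁻¹) + M := by
      rw [hM]
      have := nm_add_le B p ((f x)⁻¹ - a⁻¹) a⁻¹
      rwa [sub_add_cancel] at this
    have h5 : C * C * nm B p (f x)⁻¹ * M * nm B p (f x - a) ≤ nm B p (f x)⁻¹ / 2 := by
      have h6 : nm B p (f x - a) * (2 * (C * C * M)) ≤ 1 :=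
        ((lt_div_iff₀ (by positivity)).mp hx2).le
      nlinarith
    linarith
  refine key.trans ?_
  refine mul_le_mul_of_nonneg_right ?_ h0
  refine mul_le_mul_of_nonneg_right ?_ hM0.le
  exact mul_le_mul_of_nonneg_left hb (by positivity)

theorem Tn.ev_lt {f : X → D} {a : D} (hf : Tn B p l f a) {ε : ℝ} (hε : 0 < ε) :
    ∀ᶠ x in l, nm B p (f x - a) < ε := hf.eventually_lt_const hε

theorem Tn.ev_ne {f : X → D} {a b : D} (hf : Tn B p l f a) (hab : a ≠ b) :
    ∀ᶠ x in l, f x ≠ b := by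
  filter_upwards [hf.ev_lt (nm_pos' B p (sub_ne_zero.mpr hab))] with x hx h0
  rw [h0, ← nm_neg, neg_sub] at hx
  exact lt_irrefl _ hx

/-- small values -/
theorem Tn.ev_small {f : X → D} {a : D} (hf : Tn B p l f a) {ε : ℝ} (hε : nm B p a < ε) :
    ∀ᶠ x in l, nm B p (f x) < ε := by
  filter_upwards [hf.ev_lt (sub_pos.mpr hε)] with x hx
  have := nm_add_le B p (f x - a) a
  rw [sub_add_cancel] at this
  linarith

/-- scalars -/
theorem Tn.smul {f : X → k} {c : k} (hf : Tendsto (fun x => plAbv p (f x - c)) l (𝓝 0)) (a : D) :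
    Tn B p l (fun x => f x • a) (c • a) := by
  have h1 := Tendsto.mul_const (nm B p a) hf
  rw [zero_mul] at h1
  refine h1.congr fun x => ?_
  rw [← sub_smul, nm_smul]

variable (B p)

/-- the size of a vector -/
noncomputable def nm2 (y : D × D) : ℝ := nm B p y.1 + nm B p y.2

theorem nm2_nonneg (y : D × D) : 0 ≤ nm2 B p y := add_nonneg (nm_nonneg B p _) (nm_nonneg B p _)

theorem nm2_zero : nm2 B p (0 : D × D) = 0 := by
  rw [nm2, Prod.fst_zero, Prod.snd_zero, nm_zero, add_zero]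

/-- the filter of neighbourhoods of a vector -/
noncomputable def nb (Y : D × D) : Filter (D × D) := comap (fun y => nm2 B p (y - Y)) (𝓝 0)

theorem nb_fst (Y : D × D) : Tn B p (nb B p Y) (fun y => y.1) Y.1 := by
  refine squeeze_zero (fun x => nm_nonneg B p _) (fun y => ?_) tendsto_comap
  exact le_add_of_nonneg_right (nm_nonneg B p _)

theorem nb_snd (Y : D × D) : Tn B p (nb B p Y) (fun y => y.2) Y.2 := by
  refine squeeze_zero (fun x => nm_nonneg B p _) (fun y => ?_) tendsto_comap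
  exact le_add_of_nonneg_left (nm_nonneg B p _)

theorem ev_nb {Y : D × D} {P : D × D → Prop} (h : ∀ᶠ y in nb B p Y, P y) :
    ∃ θ : ℝ, 0 < θ ∧ ∀ y, nm2 B p (y - Y) < θ → P y := by
  rw [nb, eventually_comap, Metric.eventually_nhds_iff] at h
  obtain ⟨θ, hθ, h⟩ := h
  refine ⟨θ, hθ, fun y hy => h ?_ y rfl⟩
  rw [Real.dist_0_eq_abs, abs_of_nonneg (nm2_nonneg B p _)]
  exact hy

theorem ev_nb2 {Y Z : D × D} {P : D × D → D × D → Prop}
    (h : ∀ᶠ y in nb B p Y ×ˢ nb B p Z, P y.1 y.2) :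
    ∃ θ : ℝ, 0 < θ ∧ ∀ y z, nm2 B p (y - Y) < θ → nm2 B p (z - Z) < θ → P y z := by
  rw [eventually_prod_iff] at h
  obtain ⟨pa, ha, pb, hb, h⟩ := h
  obtain ⟨θ₁, h1, h1'⟩ := ev_nb B p ha
  obtain ⟨θ₂, h2, h2'⟩ := ev_nb B p hb
  exact ⟨min θ₁ θ₂, lt_min h1 h2, fun y z hy hz =>
    h (h1' y (hy.trans_le (min_le_left _ _))) (h2' z (hz.trans_le (min_le_right _ _)))⟩

variable {B p}

theorem Tn.comp {Z : Type} {l' : Filter Z} {f : X → D} {a : D} (hf : Tn B p l f a) {h : Z → X}
    (hh : Tendsto h l' l) : Tn B p l' (fun z => f (h z)) a :=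
  Tendsto.comp (g := fun x => nm B p (f x - a)) hf hh

end Vale.Agent.P011.Two
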