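import Vale.Agent.P011.Two.SplitElt

/-!
Approximation at finitely many nonsplit finite places and at the real places, with integrality at
all other nonsplit finite places.
-/

open NumberField IsDedekindDomain Filter

namespace Vale.Agent.P011.Two

open Vale.Agent.P011.Arith

variable {k : Type} [Field k] [NumberField k]

theorem plAbv_le (v : HeightOneSpectrum (𝓞 k)) (x y : k) :
    plAbv (Sum.inl v) x ≤ plAbv (Sum.inl v) y ↔ v.valuation k x ≤ v.valuation k y := by
  rw [← not_lt, ← not_lt, plAbv_lt]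

theorem plAbv_eq_one {v : HeightOneSpectrum (𝓞 k)} {x : k} (h : v.valuation k x = 1) :
    plAbv (Sum.inl v) x = 1 := by
  have h1 := (plAbv_le v x 1).mpr (by rw [h, map_one])
  have h2 := (plAbv_le v 1 x).mpr (by rw [h, map_one])
  rw [map_one] at h1 h2
  exact le_antisymm h1 h2

/-- powers of an integer congruent to one -/
theorem exists_pow_sub_one (a : 𝓞 k) (m : ℕ) (hm : 0 < m) : ∃ e : ℕ, 0 < e ∧
    ∀ v : HeightOneSpectrum (𝓞 k), v.valuation k (a : k) = 1 →
      v.valuation k ((a : k) ^ e - 1) ≤ v.valuation k (m : k) := by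
  have hm0 : (m : 𝓞 k) ≠ 0 := Nat.cast_ne_zero.mpr hm.ne'
  have hne : Ideal.span {(m : 𝓞 k)} ≠ ⊥ := by
    rw [Ne, Ideal.span_singleton_eq_bot]
    exact hm0
  have hfin : Finite (𝓞 k ⧸ Ideal.span {(m : 𝓞 k)}) := Ideal.finiteQuotientOfFreeOfNeBot _ hne
  obtain ⟨i, j, hij, h⟩ := Finite.exists_ne_map_eq_of_infinite
    (fun n : ℕ => Ideal.Quotient.mk (Ideal.span {(m : 𝓞 k)}) (a ^ n))
  wlog hlt : i < j generalizing i j
  · exact this j i hij.symm h.symm (lt_of_le_of_ne (not_lt.mp hlt) hij.symm)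
  refine ⟨j - i, Nat.sub_pos_of_lt hlt, fun v hv => ?_⟩
  have h1 : a ^ j - a ^ i ∈ Ideal.span {(m : 𝓞 k)} := Ideal.Quotient.eq.mp h.symm
  obtain ⟨b, hb⟩ := Ideal.mem_span_singleton'.mp h1
  have h2 : (b : k) * (m : k) = (a : k) ^ i * ((a : k) ^ (j - i) - 1) := by
    have h3 := congrArg (algebraMap (𝓞 k) k) hb
    rw [map_mul, map_sub, map_pow, map_pow, map_natCast] at h3
    rw [mul_sub, ← pow_add, Nat.add_sub_cancel' hlt.le, mul_one]
    exact h3
  have h4 : v.valuation k ((a : k) ^ (j - i) - 1) = v.valuation k (b : k) * v.valuation k (m : k) := by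
    rw [← map_mul, h2, map_mul, map_pow, hv, one_pow, one_mul]
  rw [h4]
  exact mul_le_of_le_one_left' (val_int_le v b)

/-- 2C. Approximation at finitely many finite nonsplit places and all real places, with
integrality at all other finite nonsplit places. -/
theorem ssa (d : kˣ) (S : Finset (HeightOneSpectrum (𝓞 k))) (z : Pl k → k) (δ : Pl k → ℝ)
    (hδ : ∀ p, 0 < δ p) : ∃ x : k,
      (∀ v ∈ S, d ∉ LS (v.valuation k) → plAbv (.inl v) (x - z (.inl v)) < δ (.inl v)) ∧
      (∀ φ : k →+* ℝ, plAbv (.inr φ) (x - z (.inr φ)) < δ (.inr φ)) ∧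
      ∀ v ∉ S, d ∉ LS (v.valuation k) → v.valuation k x ≤ 1 := by
  classical
  -- weak approximation
  let T : Set (Pl k) := (Sum.inl '' (S : Set (HeightOneSpectrum (𝓞 k)))) ∪ Set.range Sum.inr
  have hT : T.Finite := ((Finset.finite_toSet _).image _).union (Set.finite_range _)
  obtain ⟨x₀, hx₀⟩ := approx T hT z (fun p => δ p / 2) (fun p => half_pos (hδ p))
  obtain ⟨a, ha1, ha2⟩ := exists_split_elt' d
  -- the bad places
  have hf : {v : HeightOneSpectrum (𝓞 k) | 1 < v.valuation k x₀}.Finite :=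
    HeightOneSpectrum.Support.finite (𝓞 k) x₀
  let U : Finset (HeightOneSpectrum (𝓞 k)) := S ∪ hf.toFinset
  obtain ⟨M, hM, hMU⟩ := exists_nat_lt (k := k) U
  -- a large power of `M`
  obtain ⟨N, hN⟩ : ∃ N : ℕ, ∀ v ∈ U, plAbv (.inl v) (((M ^ N : ℕ) : k) * x₀) <
      min 1 (δ (.inl v) / 2) := by
    have h1 : ∀ᶠ N : ℕ in atTop, ∀ v ∈ U, plAbv (.inl v) (((M ^ N : ℕ) : k) * x₀) <
        min 1 (δ (.inl v) / 2) := by
      rw [Filter.eventually_all_finset]
      intro v hv
      have h2 : plAbv (.inl v) (M : k) < 1 := (plAbv_lt_one v _).mpr (hMU v hv)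
      have h3 := tendsto_pow_atTop_nhds_zero_of_lt_one ((plAbv (.inl v)).nonneg (M : k)) h2
      have h4 := h3.mul_const (plAbv (.inl v) x₀)
      rw [zero_mul] at h4
      have h5 := h4.eventually_lt_const (lt_min one_pos (half_pos (hδ (.inl v))))
      refine h5.mono fun N hN => ?_
      rw [Nat.cast_pow, map_mul, map_pow]
      exact hN
    exact h1.exists
  have hMN : 0 < M ^ N := pow_pos hM N
  have hMN0 : ((M ^ N : ℕ) : k) ≠ 0 := Nat.cast_ne_zero.mpr hMN.ne'
  -- the exponent for the Chinese remainder theorem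
  obtain ⟨n, hn⟩ : ∃ n : ℕ, ∀ v ∈ U, WithZero.exp (-(n : ℤ)) ≤ v.valuation k ((M ^ N : ℕ) : k) := by
    refine ⟨∑ v ∈ U, (WithZero.log (v.valuation k ((M ^ N : ℕ) : k))).natAbs, fun v hv => ?_⟩
    have h0 : v.valuation k ((M ^ N : ℕ) : k) ≠ 0 := (Valuation.ne_zero_iff _).mpr hMN0
    rw [← WithZero.exp_log h0, WithZero.exp_le_exp]
    have h1 := Finset.single_le_sum (f := fun v : HeightOneSpectrum (𝓞 k) =>
      (WithZero.log (v.valuation k ((M ^ N : ℕ) : k))).natAbs) (fun _ _ => Nat.zero_le _) hv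
    omega
  obtain ⟨c, hc⟩ := crt U (fun v => if v ∈ S then 0 else 1) n
  have hcS : ∀ v ∈ S, v.valuation k (c : k) ≤ v.valuation k ((M ^ N : ℕ) : k) := by
    intro v hv
    have hvU : v ∈ U := Finset.mem_union_left _ hv
    have h1 := (hc v hvU).trans (hn v hvU)
    rw [if_pos hv] at h1
    simpa using h1
  have hcT : ∀ v ∈ U, v ∉ S →
      v.valuation k ((c : k) - 1) ≤ v.valuation k ((M ^ N : ℕ) : k) := by
    intro v hvU hv
    have h1 := (hc v hvU).trans (hn v hvU)
    rw [if_neg hv] at h1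
    simpa using h1
  obtain ⟨e, he, hae⟩ := exists_pow_sub_one a (M ^ N) hMN
  -- a large exponent
  have hφa : ∀ φ : k →+* ℝ, 2 ≤ |φ (a : k)| := by
    intro φ
    have h1 := ha2 (InfinitePlace.mk (Complex.ofRealHom.comp φ))
    have h2 : InfinitePlace.mk (Complex.ofRealHom.comp φ) (a : k) = |φ (a : k)| := by
      change ‖((φ (a : k) : ℝ) : ℂ)‖ = _
      rw [Complex.norm_real, Real.norm_eq_abs]
    rwa [h2] at h1
  obtain ⟨j, hj⟩ : ∃ j : ℕ, ∀ φ : k →+* ℝ,
      |φ (x₀ * c)| / |φ (a : k)| ^ (e * j) < δ (.inr φ) / 2 := by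
    have h1 : ∀ᶠ j : ℕ in atTop, ∀ φ : k →+* ℝ,
        |φ (x₀ * c)| / |φ (a : k)| ^ (e * j) < δ (.inr φ) / 2 := by
      rw [Filter.eventually_all]
      intro φ
      have h2 : Tendsto (fun j : ℕ => |φ (x₀ * c)| / |φ (a : k)| ^ (e * j)) atTop (nhds 0) := by
        refine Tendsto.div_atTop (a := |φ (x₀ * c)|) tendsto_const_nhds ?_
        have h3 : (1 : ℝ) < |φ (a : k)| ^ e := one_lt_pow₀ (by linarith [hφa φ]) he.ne'
        have h4 := tendsto_pow_atTop_atTop_of_one_lt h3
        refine h4.congr fun j => ?_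
        rw [pow_mul]
      exact h2.eventually_lt_const (half_pos (hδ _))
    exact h1.exists
  have ha0 : (a : k) ≠ 0 := by
    intro h
    obtain ⟨w⟩ := (inferInstance : Nonempty (InfinitePlace k))
    have := ha2 w
    rw [h, map_zero] at this
    linarith
  have haj : (a : k) ^ (e * j) ≠ 0 := pow_ne_zero _ ha0
  refine ⟨x₀ - x₀ * c / (a : k) ^ (e * j), fun v hv hd => ?_, fun φ => ?_, fun v hv hd => ?_⟩
  · -- the places in `S`
    have hvU : v ∈ U := Finset.mem_union_left _ hv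
    have h1 : plAbv (.inl v) (x₀ - z (.inl v)) < δ (.inl v) / 2 := hx₀ _ (Or.inl ⟨v, hv, rfl⟩)
    have h2 : plAbv (.inl v) (x₀ * c / (a : k) ^ (e * j)) < δ (.inl v) / 2 := by
      rw [map_div₀, map_pow, plAbv_eq_one (ha1 v hd), one_pow, div_one]
      refine lt_of_le_of_lt ?_ ((hN v hvU).trans_le (min_le_right _ _))
      rw [mul_comm x₀, map_mul, map_mul]
      exact mul_le_mul_of_nonneg_right ((plAbv_le v _ _).mpr (hcS v hv))
        ((plAbv (.inl v)).nonneg _)
    have e1 : x₀ - x₀ * c / (a : k) ^ (e * j) - z (.inl v) =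
        (x₀ - z (.inl v)) - x₀ * c / (a : k) ^ (e * j) := by ring
    rw [e1]
    have h3 := (plAbv (.inl v)).sub_le_add (x₀ - z (.inl v)) (x₀ * c / (a : k) ^ (e * j))
    linarith
  · have h1 : plAbv (.inr φ) (x₀ - z (.inr φ)) < δ (.inr φ) / 2 := hx₀ _ (Or.inr ⟨φ, rfl⟩)
    have h2 : plAbv (.inr φ) (x₀ * c / (a : k) ^ (e * j)) < δ (.inr φ) / 2 := by
      rw [plAbv_inr, map_div₀, map_pow, abs_div, abs_pow]
      exact hj φ
    have e1 : x₀ - x₀ * c / (a : k) ^ (e * j) - z (.inr φ) =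
        (x₀ - z (.inr φ)) - x₀ * c / (a : k) ^ (e * j) := by ring
    rw [e1]
    have h3 := (plAbv (.inr φ)).sub_le_add (x₀ - z (.inr φ)) (x₀ * c / (a : k) ^ (e * j))
    linarith
  · have hva := ha1 v hd
    have e1 : x₀ - x₀ * c / (a : k) ^ (e * j) =
        x₀ * (((a : k) ^ (e * j) - c) / (a : k) ^ (e * j)) := by
      field_simp
    rw [e1, map_mul, map_div₀, map_pow, hva, one_pow, div_one]
    by_cases hvU : v ∈ U
    · have h1 : v.valuation k ((a : k) ^ (e * j) - 1) ≤ v.valuation k ((M ^ N : ℕ) : k) := by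
        refine le_trans ?_ (hae v hva)
        have e2 : (a : k) ^ (e * j) - 1 = ((a : k) ^ e - 1) *
            ((∑ i ∈ Finset.range j, (a ^ e) ^ i : 𝓞 k) : k) := by
          have h3 : ((∑ i ∈ Finset.range j, (a ^ e) ^ i : 𝓞 k) : k) =
              ∑ i ∈ Finset.range j, ((a : k) ^ e) ^ i := by
            push_cast
            rfl
          rw [pow_mul, h3, mul_geom_sum]
        rw [e2, map_mul]
        exact mul_le_of_le_one_right' (val_int_le v _)
      have h2 : v.valuation k ((a : k) ^ (e * j) - c) ≤ v.valuation k ((M ^ N : ℕ) : k) := by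
        have e2 : (a : k) ^ (e * j) - c = ((a : k) ^ (e * j) - 1) - ((c : k) - 1) := by ring
        rw [e2]
        exact (v.valuation k).map_sub_le h1 (hcT v hvU hv)
      have h3 : v.valuation k (((M ^ N : ℕ) : k) * x₀) < 1 :=
        (plAbv_lt_one v _).mp ((hN v hvU).trans_le (min_le_left _ _))
      rw [map_mul, mul_comm] at h3
      exact (mul_le_mul_right h2 _).trans h3.le
    · have h1 : v.valuation k x₀ ≤ 1 := by
        by_contra h
        exact hvU (Finset.mem_union_right _ (hf.mem_toFinset.mpr (not_le.mp h)))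
      have h2 : v.valuation k ((a : k) ^ (e * j) - c) ≤ 1 := by
        have := val_int_le v (a ^ (e * j) - c)
        simpa using this
      exact mul_le_one' h1 h2

end Vale.Agent.P011.Two
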