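import Vale.Agent.P011.Even.GChoice
import Vale.Agent.P011.Two.Cont
import Vale.Agent.P011.Two.Ssa

/-!
Choice of a scalar making finitely many elements units at the nonsplit good places.
-/

open NumberField IsDedekindDomain Polynomial

set_option linter.unusedSectionVars false

namespace Vale.Agent.P011.Two

open Vale.Agent.P011.Arith Vale.Agent.P011.Even

variable {k K D : Type} [Field k] [NumberField k] [Field K] [StarRing K]
    [DivisionRing D] [StarRing D] [Algebra k K] [Algebra k D] [Algebra K D] [IsScalarTower k K D]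
    {d : kˣ} {s : K} {N : ℕ}

/-- The good finite places. -/
structure GoodAt (B : Module.Basis (Fin N) k D) (d : kˣ) (s : K) (v : HeightOneSpectrum (𝓞 k)) :
    Prop where
  two : v.valuation k 2 = 1
  dd : v.valuation k (d : k) = 1
  mul : MulC B v
  st : ∀ x : D, Ing B v x → Ing B v (star x)
  one : Ing B v (1 : D)
  ss : Ing B v (algebraMap K D s)

theorem exists_good (hS : Setting k K D d s) (B : Module.Basis (Fin N) k D) (L : Set D)
    (hL : L.Finite) (e : ℕ) (he : 0 < e) : ∃ S : Set (HeightOneSpectrum (𝓞 k)), S.Finite ∧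
      ∀ v ∉ S, GoodAt B d s v ∧ v.valuation k (e : k) = 1 ∧ ∀ x ∈ L, Ing B v x := by
  obtain ⟨S, hSf, hSg⟩ := exists_fin_bad hS B (L ∪ {1, algebraMap K D s}) (hL.union (by simp))
  have he' : (e : k) ≠ 0 := Nat.cast_ne_zero.mpr he.ne'
  refine ⟨S ∪ {v | v.valuation k ((Units.mk0 (e : k) he' : kˣ) : k) ≠ 1},
    hSf.union (finite_ne_one _), fun v hv => ?_⟩
  rw [Set.mem_union, not_or] at hv
  obtain ⟨h2, hd, hm, hst, hall⟩ := hSg v hv.1
  refine ⟨⟨h2, hd, hm, hst, hall _ (Or.inr (by simp)), hall _ (Or.inr (by simp))⟩,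
    not_not.mp hv.2, fun x hx => hall x (Or.inl hx)⟩

theorem shift_ne (hS : Setting k K D d s) {a : D}
    (hmin : minpoly K a ≠ (minpoly K a).map (starRingEnd K)) (z : k) :
    a + algebraMap k D z ≠ 0 := by
  have _ : CharZero K := charZero_of_injective_algebraMap (algebraMap k K).injective
  have _ := hS.fin
  obtain ⟨A, A', hrel⟩ := coprime_conj hmin
  intro h
  have h1 : a = algebraMap K D (-algebraMap k K z) := by
    rw [map_neg, ← IsScalarTower.algebraMap_apply]
    exact eq_neg_of_add_eq_zero_left h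
  have h2 : (minpoly K a).eval (-algebraMap k K z) = 0 := by
    have h3 := minpoly.aeval K a
    conv_lhs at h3 => rw [h1, Polynomial.aeval_algebraMap_apply, Polynomial.aeval_def]
    rw [map_eq_zero, Algebra.algebraMap_self] at h3
    rw [← h1] at h3
    exact h3
  have h4 : ((minpoly K a).map (starRingEnd K)).eval (-algebraMap k K z) = 0 := by
    have e : (-algebraMap k K z) = starRingEnd K (-algebraMap k K z) := by
      rw [map_neg]
      congr 1
      exact (star_algebraMap hS z).symm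
    conv_lhs => rw [e]
    rw [Polynomial.eval_map_apply, h2, map_zero]
  have h5 := congrArg (Polynomial.eval (-algebraMap k K z)) hrel
  rw [Polynomial.eval_add, Polynomial.eval_mul, Polynomial.eval_mul, h2, h4, mul_zero, mul_zero,
    add_zero, Polynomial.eval_one] at h5
  exact zero_ne_one h5

theorem shift_fin (hS : Setting k K D d s) (B : Module.Basis (Fin N) k D) {a : D}
    (hmin : minpoly K a ≠ (minpoly K a).map (starRingEnd K)) :
    ∃ T : Set (HeightOneSpectrum (𝓞 k)), T.Finite ∧ ∀ v ∉ T, GoodAt B d s v →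
      d ∉ LS (v.valuation k) → Ing B v a ∧
      ∀ z : k, v.valuation k z ≤ 1 → Ing B v (a + algebraMap k D z)⁻¹ := by
  have _ : CharZero K := charZero_of_injective_algebraMap (algebraMap k K).injective
  have _ := hS.fin
  obtain ⟨A, A', hrel⟩ := coprime_conj hmin
  have h1 : (⋃ q ∈ ({minpoly K a, A, A'} : Set K[X]), {v : HeightOneSpectrum (𝓞 k) |
      ¬ ∀ i, ∃ x y : k, v.valuation k x ≤ 1 ∧ v.valuation k y ≤ 1 ∧
      q.coeff i = algebraMap k K x + algebraMap k K y * s}).Finite :=
    (by simp : ({minpoly K a, A, A'} : Set K[X]).Finite).biUnion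
      fun q _ => finite_not_poly hS q
  refine ⟨_, (finite_not_ing B a).union h1, fun v hv hg hns => ?_⟩
  rw [Set.mem_union, not_or] at hv
  have hIa : Ing B v a := not_not.mp hv.1
  have hpol : ∀ q ∈ ({minpoly K a, A, A'} : Set K[X]), ∀ i, ∃ x y : k,
        v.valuation k x ≤ 1 ∧ v.valuation k y ≤ 1 ∧
        q.coeff i = algebraMap k K x + algebraMap k K y * s := by
    intro q hq
    by_contra hcon
    exact hv.2 (Set.mem_biUnion hq hcon)
  refine ⟨hIa, fun z hz => ?_⟩
  exact inv_integral hS hns hg.two hg.dd hg.mul hg.one hg.ss hIa (minpoly.aeval K a) hrel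
    (hpol _ (by simp)) (hpol _ (by simp)) (hpol _ (by simp)) hz

theorem shift_large {B : Module.Basis (Fin N) k D} {v : HeightOneSpectrum (𝓞 k)}
    (hg : GoodAt B d s v) {a : D} {z : k} (hz : z ≠ 0)
    (h : ∀ l, v.valuation k (B.repr (z⁻¹ • a) l) < 1) :
    Ing B v (z⁻¹ • (a + algebraMap k D z)) ∧ Ing B v (z⁻¹ • (a + algebraMap k D z))⁻¹ := by
  have e : z⁻¹ • (a + algebraMap k D z) = 1 + z⁻¹ • a := by
    rw [smul_add, Algebra.algebraMap_eq_smul_one, smul_smul, inv_mul_cancel₀ hz, one_smul,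
      add_comm]
  rw [e]
  exact ⟨hg.one.add fun l => (h l).le, Ing.inv_one_add hg.mul hg.one h⟩

/-- The choice of the scalar. -/
theorem exists_z (hS : Setting k K D d s) (B : Module.Basis (Fin N) k D)
    {S : Set (HeightOneSpectrum (𝓞 k))} (hSf : S.Finite) (hgood : ∀ v ∉ S, GoodAt B d s v)
    (A : Finset D) (hA : ∀ a ∈ A, minpoly K a ≠ (minpoly K a).map (starRingEnd K))
    (δ : Pl k → ℝ) (hδ : ∀ p, 0 < δ p) :
    ∃ z : k, (∀ v ∈ S, d ∉ LS (v.valuation k) → plAbv (.inl v) z < δ (.inl v)) ∧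
      (∀ φ : k →+* ℝ, plAbv (.inr φ) z < δ (.inr φ)) ∧
      (∀ a ∈ A, a + algebraMap k D z ≠ 0) ∧
      ∀ v ∉ S, d ∉ LS (v.valuation k) → ∃ c : k, c ≠ 0 ∧ v.valuation k c ≤ 1 ∧
        ∀ a ∈ A, Ing B v (c • (a + algebraMap k D z)) ∧
          Ing B v (c • (a + algebraMap k D z))⁻¹ := by
  classical
  have hT : ∀ a : D, ∃ T : Set (HeightOneSpectrum (𝓞 k)), T.Finite ∧ (a ∈ A → ∀ v ∉ T,
      GoodAt B d s v → d ∉ LS (v.valuation k) → Ing B v a ∧
      ∀ z : k, v.valuation k z ≤ 1 → Ing B v (a + algebraMap k D z)⁻¹) := by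
    intro a
    by_cases ha : a ∈ A
    · obtain ⟨T, h1, h2⟩ := shift_fin hS B (hA a ha)
      exact ⟨T, h1, fun _ => h2⟩
    · exact ⟨∅, Set.finite_empty, fun h => absurd h ha⟩
  choose T hTf hT using hT
  obtain ⟨U, hUd⟩ : ∃ U : Set (HeightOneSpectrum (𝓞 k)), U = S ∪ ⋃ a ∈ A, T a := ⟨_, rfl⟩
  have hUf : U.Finite := by
    rw [hUd]
    exact hSf.union ((Finset.finite_toSet A).biUnion fun a _ => hTf a)
  obtain ⟨M, hM⟩ : ∃ M : Pl k → ℝ, ∀ p, M p = 1 + ∑ a ∈ A, nm B p a := ⟨_, fun _ => rfl⟩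
  choose b hb using fun p : Pl k => exists_abv_gt p (M p)
  obtain ⟨z, hz1, hz2, hz3⟩ := ssa d hUf.toFinset
    (fun p => if ∃ v ∉ S, p = .inl v then b p else 0)
    (fun p => if ∃ v ∉ S, p = .inl v then plAbv p (b p) - M p else δ p) (fun p => by
      split_ifs
      · have := hb p
        linarith
      · exact hδ p)
  have hmemU : ∀ v, v ∈ hUf.toFinset ↔ v ∈ U := fun v => Set.Finite.mem_toFinset _
  refine ⟨z, fun v hv hns => ?_, fun φ => ?_, fun a ha => shift_ne hS (hA a ha) z,
    fun v hv hns => ?_⟩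
  · have hc : ¬ ∃ v' ∉ S, (Sum.inl v : Pl k) = .inl v' := by
      rintro ⟨v', hv', h⟩
      exact hv' (Sum.inl_injective h ▸ hv)
    have h1 := hz1 v ((hmemU v).mpr (hUd ▸ Or.inl hv)) hns
    rwa [if_neg hc, if_neg hc, sub_zero] at h1
  · have hc : ¬ ∃ v' ∉ S, (Sum.inr φ : Pl k) = .inl v' := by
      rintro ⟨v', hv', h⟩
      exact absurd h Sum.inr_ne_inl
    have h1 := hz2 φ
    rwa [if_neg hc, if_neg hc, sub_zero] at h1
  · by_cases hvU : v ∈ U
    · have hc : ∃ v' ∉ S, (Sum.inl v : Pl k) = .inl v' := ⟨v, hv, rfl⟩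
      have h1 := hz1 v ((hmemU v).mpr hvU) hns
      rw [if_pos hc, if_pos hc] at h1
      have h2 : plAbv (.inl v : Pl k) (b (.inl v)) ≤
          plAbv (.inl v : Pl k) z + plAbv (.inl v : Pl k) (z - b (.inl v)) := by
        have := (plAbv (.inl v : Pl k)).add_le z (-(z - b (.inl v)))
        rw [AbsoluteValue.map_neg] at this
        have e : z + -(z - b (.inl v)) = b (.inl v) := by ring
        rwa [e] at this
      have h3 : M (.inl v) < plAbv (.inl v : Pl k) z := by linarith
      rw [hM] at h3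
      have h4 : ∀ a ∈ A, nm B (.inl v) a < plAbv (.inl v : Pl k) z := by
        intro a ha
        have := Finset.single_le_sum (f := fun a => nm B (.inl v) a)
          (fun _ _ => nm_nonneg B _ _) ha
        linarith
      have h5 : (1 : ℝ) < plAbv (.inl v : Pl k) z := by
        have : 0 ≤ ∑ a ∈ A, nm B (.inl v) a := Finset.sum_nonneg fun _ _ => nm_nonneg B _ _
        linarith
      have hz0 : z ≠ 0 := by
        rintro rfl
        rw [map_zero] at h5
        linarith
      have h6 : v.valuation k 1 < v.valuation k z := by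
        rw [← plAbv_lt, map_one]
        exact h5
      rw [map_one] at h6
      refine ⟨z⁻¹, inv_ne_zero hz0, ?_, fun a ha => ?_⟩
      · rw [map_inv₀]
        exact (inv_lt_one_of_one_lt₀ h6).le
      · refine shift_large (hgood v hv) hz0 fun l => ?_
        have h7 := nm_lt_coord B (.inl v) (h4 a ha) l
        rw [plAbv_lt] at h7
        have hvz : 0 < v.valuation k z := zero_lt_one.trans h6
        rw [map_smul, Finsupp.smul_apply, smul_eq_mul, map_mul, map_inv₀, mul_comm,
          ← div_eq_mul_inv]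
        exact (div_lt_one₀ hvz).mpr h7
    · have hz4 := hz3 v (fun h => hvU ((hmemU v).mp h)) hns
      refine ⟨1, one_ne_zero, by rw [map_one], fun a ha => ?_⟩
      have hvT : v ∉ T a := fun h => hvU (hUd ▸ Or.inr (Set.mem_biUnion ha h))
      obtain ⟨h1, h2⟩ := hT a ha v hvT (hgood v hv) hns
      rw [one_smul]
      refine ⟨h1.add ?_, h2 z hz4⟩
      rw [Algebra.algebraMap_eq_smul_one]
      exact (hgood v hv).one.smul hz4

end Vale.Agent.P011.Two
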