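import Vale.Agent.P011.Even.Global
import Vale.Agent.P011.Two.Shift

/-!
Local conditions implying that the lines of two unit vectors are related by a plane rotation.
-/

open NumberField IsDedekindDomain Polynomial

set_option linter.unusedSectionVars false

namespace Vale.Agent.P011.Two

open Vale.Agent.P011.Arith Vale.Agent.P011.Even

section size

variable {k D : Type} [Field k] [NumberField k] [DivisionRing D] [Algebra k D] {N : ℕ}
  (B : Module.Basis (Fin N) k D)

theorem prod_fin (v : HeightOneSpectrum (𝓞 k)) (b : k) (hb : b ≠ 0) :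
    ∃ η : ℝ, 0 < η ∧ ∀ (E : Type) [Field E] [NumberField E] [Algebra k E] (j : E →ₐ[k] D)
      (w : HeightOneSpectrum (𝓞 E)), Ab w v → ∀ (c : E) (a : k),
      Even.nm B (.inl v) ((j c - 1) * (j c - algebraMap k D a)) < η →
      w.valuation E (c - 1) < w.valuation E (algebraMap k E b) ∨
      w.valuation E (c - algebraMap k E a) < w.valuation E (algebraMap k E b) := by
  obtain ⟨δ, hδ0, hδ⟩ := exists_small B v (b * b) (mul_ne_zero hb hb)
  obtain ⟨a, ha⟩ := HeightOneSpectrum.valuation_surjective k v δ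
  have ha0 : a ≠ 0 := by
    rintro rfl
    rw [map_zero] at ha
    exact hδ0 ha.symm
  refine ⟨plAbv (.inl v) a, (plAbv (.inl v)).pos ha0, fun E _ _ _ j w hw c a' hy => ?_⟩
  have e1 : (j c - 1) * (j c - algebraMap k D a') = j ((c - 1) * (c - algebraMap k E a')) := by
    rw [map_mul, map_sub, map_sub, map_one, AlgHom.commutes]
  rw [e1] at hy
  have h1 := hδ E j w hw _ fun i => by
    rw [← ha, ← plAbv_lt]
    exact nm_lt_coord B (.inl v) hy i
  rw [map_mul, map_mul, map_mul] at h1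
  by_contra hcon
  rw [not_or, not_lt, not_lt] at hcon
  exact absurd h1 (not_lt.mpr (mul_le_mul' hcon.1 hcon.2))

theorem small_real (φ : k →+* ℝ) {ε : ℝ} (hε : 0 < ε) :
    ∃ η : ℝ, 0 < η ∧ ∀ (E : Type) [Field E] [NumberField E] [Algebra k E] (j : E →ₐ[k] D)
      (ψ : E →+* ℝ), ψ.comp (algebraMap k E) = φ → ∀ y : E,
      Even.nm B (.inr φ) (j y) < η → |ψ y| < ε := by
  obtain ⟨η, hη, h'⟩ := exists_small_real B φ
  have h : ∀ (E : Type) [Field E] [NumberField E] [Algebra k E] (j : E →ₐ[k] D)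
      (ψ : E →+* ℝ), ψ.comp (algebraMap k E) = φ → ∀ y : E,
      Even.nm B (.inr φ) (j y) < η → |ψ y| < 1 := fun E _ _ _ j ψ hψ y hy =>
    h' E j ψ hψ y fun i => nm_lt_coord B (.inr φ) hy i
  obtain ⟨n, hn⟩ := exists_nat_gt (1 / ε)
  have hn0 : (0 : ℝ) < n := lt_trans (by positivity) hn
  refine ⟨η / n, by positivity, fun E _ _ _ j ψ hψ y hy => ?_⟩
  have h1 := h E j ψ hψ ((n : E) * y) (by
    have e : j ((n : E) * y) = (n : k) • j y := by
      rw [map_mul, map_natCast, Algebra.smul_def, map_natCast]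
    have e2 : plAbv (.inr φ : Pl k) (n : k) = n := by
      change |φ (n : k)| = n
      rw [map_natCast, abs_of_nonneg (Nat.cast_nonneg n)]
    rw [e, nm_smul, e2]
    rw [lt_div_iff₀ hn0] at hy
    linarith)
  rw [map_mul, map_natCast, abs_mul, abs_of_nonneg (Nat.cast_nonneg n)] at h1
  rw [div_lt_iff₀ hε] at hn
  by_contra hcon
  rw [not_lt] at hcon
  nlinarith [abs_nonneg (ψ y)]

end size

section val

variable {k E : Type} [Field k] [NumberField k] [Field E] [NumberField E] [Algebra k E]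

theorem val_mono {v : HeightOneSpectrum (𝓞 k)} {w : HeightOneSpectrum (𝓞 E)} (hw : Ab w v)
    {x y : k} (h : v.valuation k x ≤ v.valuation k y) :
    w.valuation E (algebraMap k E x) ≤ w.valuation E (algebraMap k E y) := by
  obtain ⟨n, -, hn⟩ := val_above hw
  rw [hn, hn]
  exact pow_le_pow_left₀ zero_le h n

theorem mem_of_close {d : kˣ} {v : HeightOneSpectrum (𝓞 k)} {w : HeightOneSpectrum (𝓞 E)}
    (hw : Ab w v) {a b : k} (c : Eˣ) (a' : kˣ) (haa : (a' : k) = a)
    (ha : a' ∈ NF d ⊔ LS (v.valuation k))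
    (hb : v.valuation k b ≤ v.valuation k (4 * a))
    (hc : w.valuation E ((c : E) - algebraMap k E a) < w.valuation E (algebraMap k E b)) :
    c ∈ NF (inc k E d) ⊔ LS (w.valuation E) := by
  have h1 : inc k E a' ∈ NF (inc k E d) ⊔ LS (w.valuation E) := Sch.sup_map hw ha
  have h2 : c * (inc k E a')⁻¹ ∈ LS (w.valuation E) := by
    refine ⟨1, ?_⟩
    have ha0 : algebraMap k E a ≠ 0 := (_root_.map_ne_zero _).mpr (haa ▸ a'.ne_zero)
    have e : ((c * (inc k E a')⁻¹ : Eˣ) : E) / ((1 : Eˣ) : E) ^ 2 - 1 =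
        ((c : E) - algebraMap k E a) / algebraMap k E a := by
      rw [Units.val_mul, Units.val_inv_eq_inv_val, inc_val_g, haa, Units.val_one]
      field_simp
    rw [e, map_div₀, div_lt_iff₀ (zero_lt_iff.mpr ((Valuation.ne_zero_iff _).mpr ha0)),
      ← map_mul]
    refine hc.trans_le ?_
    have := val_mono hw hb
    rwa [map_mul, map_ofNat] at this
  have h3 := mul_mem (Subgroup.mem_sup_right (S := NF (inc k E d)) h2) h1
  rwa [inv_mul_cancel_right] at h3

end val

section rel

variable {k D : Type} [Field k] [NumberField k] [DivisionRing D] [Algebra k D]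
    {d : kˣ} {N : ℕ}

/-- The local condition at a place. -/
def LRel (d : kˣ) (e : ℕ) (p : Pl k) (c : D) : Prop :=
  ∀ (E : Type) [Field E] [NumberField E] [Algebra k E] (j : E →ₐ[k] D) (c' : Eˣ), j c' = c →
    (∀ v, p = .inl v → ∀ w : HeightOneSpectrum (𝓞 E), Ab w v →
      c' ∈ NF (inc k E d) ⊔ LS (w.valuation E) ∧ ∀ c₁ : Eˣ, (c₁ : E) = 1 - c' →
      (-c₁ ∈ NF (inc k E d) ⊔ LS (w.valuation E) ∨
        w.valuation E (c₁ : E) < w.valuation E (4 * (e : E) ^ 4))) ∧
    (∀ φ, p = .inr φ → ∀ ψ : E →+* ℝ, ψ.comp (algebraMap k E) = φ → 0 < ψ c')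

theorem pos_of_mem {φ : k →+* ℝ} (hd : φ d < 0) {a : kˣ} (ha : a ∈ NF d ⊔ LSp (.inr φ)) :
    0 < φ a := by
  obtain ⟨n, ⟨x, y, hn⟩, l, hl, rfl⟩ := Subgroup.mem_sup.mp ha
  have h1 : 0 < φ l := hl
  have h2 : φ n ≠ 0 := (_root_.map_ne_zero _).mpr n.ne_zero
  have h3 : 0 ≤ φ n := by
    rw [hn, map_sub, map_mul, map_pow, map_pow]
    nlinarith [sq_nonneg (φ x), sq_nonneg (φ y)]
  rw [Units.val_mul, map_mul]
  exact mul_pos (lt_of_le_of_ne h3 h2.symm) h1

/-- The local condition holds for elements close to solutions of `(c - 1) (c - a) = 0`. -/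
theorem lrel_of_near (B : Module.Basis (Fin N) k D) (e : ℕ) (he : 0 < e) (p : Pl k)
    (hp : ∀ φ, p = .inr φ → φ d < 0) {μ : ℝ} (hμ : 0 < μ) :
    ∃ η : ℝ, 0 < η ∧ ∀ (c : D) (a : kˣ), (a = 1 ∨ (μ ≤ plAbv p (a : k) ∧ a ∈ NF d ⊔ LSp p ∧
      ∀ v, p = .inl v → ∃ a₁ : kˣ, (a₁ : k) = 1 - a ∧ μ ≤ plAbv p (a₁ : k) ∧
        -a₁ ∈ NF d ⊔ LSp p)) →
      Even.nm B p ((c - 1) * (c - algebraMap k D (a : k))) < η → LRel d e p c := by
  rcases p with v | φ
  · -- finite places
    have h4 : (4 : k) ≠ 0 := by norm_num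
    have he' : (e : k) ≠ 0 := Nat.cast_ne_zero.mpr he.ne'
    have hpos4 : 0 < plAbv (.inl v : Pl k) 4 := (plAbv _).pos h4
    have hpose : 0 < plAbv (.inl v : Pl k) (4 * (e : k) ^ 4) :=
      (plAbv _).pos (mul_ne_zero h4 (pow_ne_zero _ he'))
    obtain ⟨b, hb0, hb⟩ := exists_abv_lt (.inl v : Pl k) (ε := min (plAbv (.inl v : Pl k)
      (4 * (e : k) ^ 4)) (plAbv (.inl v : Pl k) 4 * min μ 1)) (by
        refine lt_min hpose (mul_pos hpos4 (lt_min hμ one_pos)))
    rw [lt_min_iff] at hb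
    obtain ⟨hb1, hb2⟩ := hb
    have hbμ : ∀ x : k, μ ≤ plAbv (.inl v : Pl k) x → v.valuation k b ≤ v.valuation k (4 * x) := by
      intro x hx
      refine le_of_lt ((plAbv_lt v _ _).mp ?_)
      rw [map_mul]
      refine hb2.trans_le (mul_le_mul_of_nonneg_left ((min_le_left _ _).trans hx) hpos4.le)
    have hb4 : v.valuation k b ≤ v.valuation k (4 * 1) := by
      refine le_of_lt ((plAbv_lt v _ _).mp ?_)
      rw [mul_one]
      refine hb2.trans_le ?_
      have := mul_le_mul_of_nonneg_left (min_le_right μ 1) hpos4.le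
      rwa [mul_one] at this
    have hbe : v.valuation k b ≤ v.valuation k (4 * (e : k) ^ 4) := ((plAbv_lt v _ _).mp hb1).le
    obtain ⟨η, hη, h⟩ := prod_fin B v b hb0
    refine ⟨η, hη, fun c a ha hc E _ _ _ j c' hj => ⟨fun v' hv' w hw => ?_, fun φ hφ =>
      absurd hφ Sum.inl_ne_inr⟩⟩
    obtain rfl : v = v' := Sum.inl_injective hv'
    rw [← hj] at hc
    have hor := h E j w hw c' a hc
    have key1 : w.valuation E ((c' : E) - 1) < w.valuation E (algebraMap k E b) →
        c' ∈ NF (inc k E d) ⊔ LS (w.valuation E) ∧ ∀ c₁ : Eˣ, (c₁ : E) = 1 - c' →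
        (-c₁ ∈ NF (inc k E d) ⊔ LS (w.valuation E) ∨
        w.valuation E (c₁ : E) < w.valuation E (4 * (e : E) ^ 4)) := by
      intro h1
      refine ⟨mem_of_close hw (a := 1) (b := b) c' 1 rfl (one_mem _) hb4
        (by rwa [map_one]), fun c₁ hc₁ => Or.inr ?_⟩
      have e1 : (c₁ : E) = -((c' : E) - 1) := by rw [hc₁]; ring
      rw [e1, Valuation.map_neg]
      refine h1.trans_le ?_
      have := val_mono (E := E) hw hbe
      rwa [map_mul, map_pow, map_natCast, map_ofNat] at this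
    rcases ha with rfl | ⟨ha1, ha2, ha3⟩
    · rw [Units.val_one, map_one] at hor
      rcases hor with h1 | h1
      · exact key1 h1
      · exact key1 h1
    · rcases hor with h1 | h1
      · exact key1 h1
      · obtain ⟨a₁, ha₁, hμ₁, hm₁⟩ := ha3 v rfl
        refine ⟨mem_of_close hw c' a rfl ha2 (hbμ _ ha1) h1, fun c₁ hc₁ => Or.inl ?_⟩
        refine mem_of_close hw (a := -(a₁ : k)) (b := b) (-c₁) (-a₁) (by rw [Units.val_neg]) hm₁
          (hbμ _ (by rwa [AbsoluteValue.map_neg])) ?_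
        have e1 : ((-c₁ : Eˣ) : E) - algebraMap k E (-(a₁ : k)) =
            (c' : E) - algebraMap k E a := by
          rw [Units.val_neg, hc₁, ha₁, map_neg, map_sub, map_one]
          ring
        rw [e1]
        exact h1
  · -- real places
    have hφ := hp φ rfl
    obtain ⟨η, hη, h⟩ := small_real B φ (ε := min μ 1) (lt_min hμ one_pos)
    refine ⟨η, hη, fun c a ha hc E _ _ _ j c' hj => ⟨fun v hv => absurd hv Sum.inr_ne_inl,
      fun φ' hφ' ψ hψ => ?_⟩⟩
    obtain rfl : φ = φ' := Sum.inr_injective hφ'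
    have e1 : (c - 1) * (c - algebraMap k D a) =
        j (((c' : E) - 1) * ((c' : E) - algebraMap k E a)) := by
      rw [map_mul, map_sub, map_sub, map_one, AlgHom.commutes, hj]
    rw [e1] at hc
    have h1 := h E j ψ hψ _ hc
    have hψa : ψ (algebraMap k E a) = φ a := by rw [← hψ]; rfl
    have ha' : min μ 1 ≤ φ a := by
      rcases ha with rfl | ⟨ha1, ha2, -⟩
      · rw [Units.val_one, map_one]
        exact min_le_right _ _
      · have h2 := pos_of_mem hφ ha2
        have h3 : plAbv (.inr φ : Pl k) (a : k) = |φ a| := rfl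
        rw [h3, abs_of_pos h2] at ha1
        exact (min_le_left _ _).trans ha1
    rw [map_mul, map_sub, map_sub, map_one, hψa] at h1
    by_contra hcon
    rw [not_lt] at hcon
    have h4 : 0 < min μ 1 := lt_min hμ one_pos
    have h5 : min μ 1 ≤ (1 - ψ c') * (φ a - ψ c') := by
      nlinarith
    have h6 : (ψ c' - 1) * (ψ c' - φ a) = (1 - ψ c') * (φ a - ψ c') := by ring
    rw [h6] at h1
    exact absurd (lt_of_le_of_lt (le_abs_self _) h1) (not_lt.mpr h5)

end rel

section main

variable {k K D : Type} [Field k] [NumberField k] [Field K] [StarRing K]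
    [DivisionRing D] [StarRing D] [Algebra k K] [Algebra k D] [Algebra K D] [IsScalarTower k K D]
    {d : kˣ} {s : K} {N : ℕ}

/-- The local condition holds at good places where the element is a unit. -/
theorem lrel_of_unit {B : Module.Basis (Fin N) k D} {v : HeightOneSpectrum (𝓞 k)}
    (hG : GoodAt B d s v) {e : ℕ} (he : v.valuation k (e : k) = 1) {c : D} (hc : Ing B v c)
    (hc' : Ing B v c⁻¹) : LRel d e (.inl v) c := by
  intro E _ _ _ j c' hj
  refine ⟨fun v' hv' w hw => ?_, fun φ hφ => absurd hφ Sum.inl_ne_inr⟩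
  obtain rfl : v = v' := Sum.inl_injective hv'
  have hc0 : c ≠ 0 := by
    rw [← hj]
    exact (_root_.map_ne_zero _).mpr c'.ne_zero
  have hle : ∀ z : E, Ing B v (j z) → w.valuation E z ≤ 1 := fun z hz =>
    val_le_one_of_stable B j hw z fun i => Ing.mul hG.mul hz (Ing.basis i)
  have h1 : w.valuation E (c' : E) ≤ 1 := hle _ (by rw [hj]; exact hc)
  refine ⟨mem_of_unit j hw hG.two hG.dd hG.mul one_ne_zero hc hc' c' (by
    rw [map_one, one_pow, mul_one, hj]) (mul_inv_cancel₀ hc0), fun c₁ hc₁ => ?_⟩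
  have h2 : w.valuation E (c₁ : E) ≤ 1 := by
    rw [hc₁]
    exact (Valuation.map_sub _ _ _).trans (max_le (by rw [map_one]) h1)
  have hw2 : w.valuation E 2 = 1 := by
    have := (val_eq_one_iff hw (2 : k)).mpr hG.two
    rwa [map_ofNat] at this
  have hwd : w.valuation E ((inc k E d : Eˣ) : E) = 1 := (val_eq_one_iff hw (d : k)).mpr hG.dd
  rcases h2.lt_or_eq with h3 | h3
  · right
    have hwe : w.valuation E (e : E) = 1 := by
      have := (val_eq_one_iff hw (e : k)).mpr he
      rwa [map_natCast] at this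
    have e4 : (4 : E) = 2 * 2 := by norm_num
    rw [map_mul, map_pow, hwe, e4, map_mul, hw2, one_pow, mul_one, mul_one]
    exact h3
  · left
    refine unit_norm w hw2 (inc k E d) (-c₁) hwd ?_
    rw [Units.val_neg, Valuation.map_neg]
    exact h3

/-- The local conditions imply the global one. -/
theorem rel_of_loc (hS : Setting k K D d s) (B : Module.Basis (Fin N) k D) {e : ℕ} {c : D}
    (hcs : star c = c) (hc0 : c ≠ 0)
    (hF : ∀ v : HeightOneSpectrum (𝓞 k), d ∉ LS (v.valuation k) → LRel d e (.inl v) c)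
    (hR : ∀ φ : k →+* ℝ, φ d < 0 → LRel d e (.inr φ) c) : Rel k d e c := by
  by_cases hc1 : c = 1
  · exact Or.inl hc1
  obtain ⟨E, _, _, _, j, g, hg, hgen⟩ := exists_gen B c
  have hg0 : g ≠ 0 := by
    rintro rfl
    rw [map_zero] at hg
    exact hc0 hg.symm
  have hg1 : 1 - g ≠ 0 := by
    intro h
    apply hc1
    rw [← hg, ← sub_eq_zero.mp h, map_one]
  obtain ⟨c', hc'⟩ : ∃ c' : Eˣ, (c' : E) = g := ⟨Units.mk0 g hg0, rfl⟩
  have hj : j c' = c := by rw [hc', hg]
  refine Or.inr ⟨E, inferInstance, inferInstance, inferInstance, j, c', Units.mk0 (1 - g) hg1,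
    ?_, hj, by rw [Units.val_mk0, hc'], ?_, ?_⟩
  · intro x
    obtain ⟨p, rfl⟩ := hgen x
    rw [← aeval_algHom_apply, hg]
    induction p using Polynomial.induction_on' with
    | add p q hp hq => rw [map_add, star_add, hp, hq]
    | monomial n a =>
      rw [aeval_monomial, star_mul, star_alg hS, star_pow, hcs]
      exact (Algebra.commutes _ _).symm
  · refine hasse_norm _ _ fun p => ?_
    rcases p with w | ψ
    · obtain ⟨v, hw⟩ := Arith.exists_below (F := k) w
      by_cases hd : d ∈ LS (v.valuation k)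
      · exact mem_of_split hw hd c'
      · exact ((hF v hd E j c' hj).1 v rfl w hw).1
    · by_cases hd : 0 < ψ (algebraMap k E d)
      · exact mem_of_split_real hd c'
      · have hφ : (ψ.comp (algebraMap k E)) (d : k) < 0 := by
          refine lt_of_le_of_ne (not_lt.mp hd) ?_
          exact (_root_.map_ne_zero _).mpr d.ne_zero
        exact Subgroup.mem_sup_right ((hR _ hφ E j c' hj).2 _ rfl ψ rfl)
  · intro w
    obtain ⟨v, hw⟩ := Arith.exists_below (F := k) w
    by_cases hd : d ∈ LS (v.valuation k)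
    · exact Or.inl (mem_of_split hw hd _)
    · exact ((hF v hd E j c' hj).1 v rfl w hw).2 _ (by rw [Units.val_mk0, hc'])

end main

end Vale.Agent.P011.Two
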