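import Vale.Agent.P011.Two.OneStep
import Vale.Agent.P011.Two.RelLoc
import Vale.Agent.P011.Two.Step
import Vale.Agent.P011.Two.ChainDefs

/-!
The orbits of lines generated by unit vectors, from local chains.
-/

open NumberField IsDedekindDomain Filter Topology

set_option linter.unusedSectionVars false

namespace Vale.Agent.P011.Two

open Vale.Agent.P011.Arith Vale.Agent.P011.Even

section pad

variable {k D : Type} [Field k] [NumberField k] [DivisionRing D] [StarRing D] [Algebra k D]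
    {N : ℕ} {B : Module.Basis (Fin N) k D} {d : kˣ} {g : D} {p : Pl k}

/-- Chains can be prolonged indefinitely. -/
theorem Chain.pad {y y' : D × D} (h : Chain B d g p y y') (h11 : (-1 : D) ≠ 1) :
    ∃ μ : ℝ, 0 < μ ∧ ∀ η : ℝ, 0 < η → ∃ (m : ℕ) (a : ℕ → kˣ) (Y : ℕ → D × D),
    (∀ i, a i = 1 ∨ (μ ≤ plAbv p (a i : k) ∧ a i ∈ NF d ⊔ LSp p ∧
      ∀ v, p = .inl v → ∃ a₁ : kˣ, (a₁ : k) = 1 - a i ∧ μ ≤ plAbv p (a₁ : k) ∧
        -a₁ ∈ NF d ⊔ LSp p)) ∧
    Y 0 = y ∧ (∀ i, m ≤ i → ∃ δ : D, δ * star δ = 1 ∧ Y i = δ • y') ∧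
    (∀ i, hh g (Y i) (Y i) = 1) ∧ (∀ i, hh g (Y i) (Y (i + 1)) ≠ 1) ∧
    ∀ i, Even.nm B p ((hh g (Y i) (Y (i + 1)) * star (hh g (Y i) (Y (i + 1))) - 1) *
      (hh g (Y i) (Y (i + 1)) * star (hh g (Y i) (Y (i + 1))) - algebraMap k D (a i))) < η := by
  obtain ⟨μ, hμ, h⟩ := h
  refine ⟨μ, hμ, fun η hη => ?_⟩
  obtain ⟨m, a, Y, ha, hY0, ⟨δ, hδ, hYm⟩, hu, hne, hsm⟩ := h η hη
  obtain ⟨Z, hZ⟩ : ∃ Z : ℕ → D × D, ∀ i, Z i = if i ≤ m then Y i else (-1 : D) ^ (i - m) • Y m :=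
    ⟨_, fun _ => rfl⟩
  have hZ1 : ∀ i, i ≤ m → Z i = Y i := fun i hi => by rw [hZ, if_pos hi]
  have hZ2 : ∀ n, Z (m + n) = (-1 : D) ^ n • Y m := by
    intro n
    rcases Nat.eq_zero_or_pos n with rfl | hn
    · rw [add_zero, hZ1 m le_rfl, pow_zero, one_smul]
    · rw [hZ, if_neg (by omega), Nat.add_sub_cancel_left]
  have hst : ∀ n : ℕ, star ((-1 : D) ^ n) = (-1) ^ n := by
    intro n
    rw [star_pow, star_neg, star_one]
  have hsq : ∀ n : ℕ, ((-1 : D) ^ n) * (-1) ^ n = 1 := by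
    intro n
    rw [← pow_add, ← two_mul, pow_mul, neg_one_sq, one_pow]
  have hum : ∀ n, hh g (Z (m + n)) (Z (m + n)) = 1 := by
    intro n
    rw [hZ2, hh_smul_left, hh_smul_right, hu m le_rfl, one_mul, hst, hsq]
  have hup : ∀ n, hh g (Z (m + n)) (Z (m + n + 1)) = -1 := by
    intro n
    rw [add_assoc, hZ2, hZ2, hh_smul_left, hh_smul_right, hu m le_rfl, one_mul, hst, pow_succ,
      ← mul_assoc, hsq, one_mul]
  refine ⟨m, fun i => if i < m then a i else 1, Z, fun i => ?_, ?_, fun i hi => ?_, fun i => ?_,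
    fun i => ?_, fun i => ?_⟩
  · by_cases hi : i < m
    · simp only [hi, if_true]
      exact ha i hi
    · exact Or.inl (if_neg hi)
  · rw [hZ1 0 (Nat.zero_le _), hY0]
  · obtain ⟨n, rfl⟩ := Nat.exists_eq_add_of_le hi
    refine ⟨(-1) ^ n * δ, ?_, ?_⟩
    · rw [star_mul, hst, mul_assoc, ← mul_assoc δ, hδ, one_mul, hsq]
    · rw [hZ2, hYm, smul_smul]
  · rcases le_or_gt i m with hi | hi
    · rw [hZ1 i hi]
      exact hu i hi
    · obtain ⟨n, rfl⟩ := Nat.exists_eq_add_of_le hi.le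
      exact hum n
  · rcases lt_or_ge i m with hi | hi
    · rw [hZ1 i hi.le, hZ1 (i + 1) hi]
      exact hne i hi
    · obtain ⟨n, rfl⟩ := Nat.exists_eq_add_of_le hi
      rw [hup]
      exact h11
  · rcases lt_or_ge i m with hi | hi
    · rw [hZ1 i hi.le, hZ1 (i + 1) hi]
      simp only [hi, if_true]
      exact hsm i hi
    · obtain ⟨n, rfl⟩ := Nat.exists_eq_add_of_le hi
      rw [hup, star_neg, star_one, neg_mul_neg, one_mul, sub_self, zero_mul, Even.nm_zero]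
      exact hη

end pad

section tol

variable {k K D : Type} [Field k] [NumberField k] [Field K] [StarRing K]
    [DivisionRing D] [StarRing D] [Algebra k K] [Algebra k D] [Algebra K D] [IsScalarTower k K D]
    {d : kˣ} {s : K} {N : ℕ}

theorem tn_star (hS : Setting k K D d s) {B : Module.Basis (Fin N) k D} {p : Pl k} {X : Type}
    {l : Filter X} {f : X → D} {a : D} (h : Tn B p l f a) :
    Tn B p l (fun x => star (f x)) (star a) := h.linear (sig hS)

theorem tn_hh (hS : Setting k K D d s) {B : Module.Basis (Fin N) k D} {p : Pl k} {X : Type}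
    {l : Filter X} {f h : X → D × D} {Y Z : D × D} (g : D)
    (hf1 : Tn B p l (fun x => (f x).1) Y.1) (hf2 : Tn B p l (fun x => (f x).2) Y.2)
    (hh1 : Tn B p l (fun x => (h x).1) Z.1) (hh2 : Tn B p l (fun x => (h x).2) Z.2) :
    Tn B p l (fun x => hh g (f x) (h x)) (hh g Y Z) :=
  (hf1.mul (tn_star hS hh1)).add ((hf2.mul (Tn.const g)).mul (tn_star hS hh2))

theorem tol (hS : Setting k K D d s) (B : Module.Basis (Fin N) k D) (p : Pl k) (g : D)
    (Y Z : D × D) (a : k) {η : ℝ}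
    (h : Even.nm B p ((hh g Y Z * star (hh g Y Z) - 1) *
      (hh g Y Z * star (hh g Y Z) - algebraMap k D a)) < η) :
    ∃ θ : ℝ, 0 < θ ∧ ∀ y z, nm2 B p (y - Y) < θ → nm2 B p (z - Z) < θ →
      Even.nm B p ((hh g y z * star (hh g y z) - 1) *
        (hh g y z * star (hh g y z) - algebraMap k D a)) < η := by
  have h1 : Tn B p (nb B p Y ×ˢ nb B p Z) (fun x => hh g x.1 x.2) (hh g Y Z) :=
    tn_hh hS g ((nb_fst B p Y).comp tendsto_fst) ((nb_snd B p Y).comp tendsto_fst)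
      ((nb_fst B p Z).comp tendsto_snd) ((nb_snd B p Z).comp tendsto_snd)
  have h2 := h1.mul (tn_star hS h1)
  exact ev_nb2 B p (((h2.sub (Tn.const 1)).mul (h2.sub (Tn.const _))).ev_small h)

theorem tol_ne (hS : Setting k K D d s) (B : Module.Basis (Fin N) k D) (p : Pl k) (g : D)
    (Y Z : D × D) (h : hh g Y Z ≠ 1) :
    ∃ θ : ℝ, 0 < θ ∧ ∀ y, nm2 B p (y - Y) < θ → hh g y Z ≠ 1 := by
  have h1 : Tn B p (nb B p Y) (fun x => hh g x Z) (hh g Y Z) :=
    tn_hh hS g (nb_fst B p Y) (nb_snd B p Y) (Tn.const _) (Tn.const _)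
  exact ev_nb B p (h1.ev_ne h)

theorem Pn_finite {S : Set (HeightOneSpectrum (𝓞 k))} (hS : S.Finite) : (Pn d S).Finite := by
  refine (SP_finite hS).subset ?_
  rintro p (⟨v, hv, -, rfl⟩ | ⟨φ, -, rfl⟩)
  · rw [inl_mem_SP]
    exact hv
  · exact inr_mem_SP

theorem neg_one_ne (_hS : Setting k K D d s) : (-1 : D) ≠ 1 := by
  have _ : CharZero D := charZero_of_injective_algebraMap (algebraMap k D).injective
  intro h
  have h1 : (2 : D) = 0 := by
    have : (1 : D) + 1 = 0 := by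
      nth_rewrite 1 [← h]
      rw [neg_add_cancel]
    rw [← this]; norm_num
  exact two_ne_zero h1

theorem ing_hh {B : Module.Basis (Fin N) k D} {v : HeightOneSpectrum (𝓞 k)}
    (hG : GoodAt B d s v) {g : D} (hg : Ing B v g) {x y : D × D} (hx1 : Ing B v x.1)
    (hx2 : Ing B v x.2) (hy1 : Ing B v y.1) (hy2 : Ing B v y.2) : Ing B v (hh g x y) :=
  (Ing.mul hG.mul hx1 (hG.st _ hy1)).add (Ing.mul hG.mul (Ing.mul hG.mul hx2 hg) (hG.st _ hy2))

/-- The conclusion for two unit vectors at a good place. -/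
theorem lrel_good {B : Module.Basis (Fin N) k D} {v : HeightOneSpectrum (𝓞 k)}
    (hG : GoodAt B d s v) {e : ℕ} (he : v.valuation k (e : k) = 1) {z : D} (hz : Ing B v z)
    (hz' : Ing B v z⁻¹) : LRel d e (.inl v) (z * star z) := by
  refine lrel_of_unit hG he (Ing.mul hG.mul hz (hG.st _ hz)) ?_
  rw [mul_inv_rev, ← star_inv₀]
  exact Ing.mul hG.mul (hG.st _ hz') hz'

end tol

section main

variable {k K D : Type} [Field k] [NumberField k] [Field K] [StarRing K]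
    [DivisionRing D] [StarRing D] [Algebra k K] [Algebra k D] [Algebra K D] [IsScalarTower k K D]
    {d : kˣ} {s : K} {M : ℕ}

/-- The orbit of the first basis vector, first case. -/
theorem transitive_of_chain (hS : Setting k K D d s) {g : D} (hg : star g = g) (han : An g)
    (B : Module.Basis (Fin M) k D) {e : ℕ} (he : 0 < e)
    {N : Subgroup ((D × D) ≃ₗ[D] (D × D))} (hHQ : HQ d s g e N) {y' : D × D}
    (hy' : hh g y' y' = 1) (hy1 : y'.1 ≠ 0)
    (hF : ∀ v : HeightOneSpectrum (𝓞 k), d ∉ LS (v.valuation k) → Chain B d g (.inl v) e₁ y')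
    (hR : ∀ φ : k →+* ℝ, φ d < 0 → Chain B d g (.inr φ) e₁ y') :
    ∃ u ∈ N, ∃ δ : D, δ ≠ 0 ∧ u e₁ = δ • y' := by
  classical
  have h11 := neg_one_ne hS
  obtain ⟨S, hSf, hSg⟩ := exists_good hS B {g, y'.1, y'.2, (y'.1)⁻¹} (by simp) e he
  -- the local data
  have hloc : ∀ p : Pl k, ∃ (m : ℕ) (Y : ℕ → D × D) (θ : ℕ → ℝ), (∀ i, 0 < θ i) ∧
      (p ∈ Pn d S → Y 0 = e₁ ∧ (∀ i, hh g (Y i) (Y i) = 1) ∧
        (∀ i y, nm2 B p (y - Y i) < θ i → hh g y (Y (i + 1)) ≠ 1) ∧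
        (∀ i y z, nm2 B p (y - Y i) < θ i → nm2 B p (z - Y (i + 1)) < θ (i + 1) →
          LRel d e p (hh g y z * star (hh g y z))) ∧
        (∀ i, m ≤ i → ∀ y, nm2 B p (y - Y i) < θ i →
          LRel d e p (hh g y y' * star (hh g y y')))) := by
    intro p
    by_cases hp : p ∈ Pn d S
    · have hch : Chain B d g p e₁ y' := by
        rcases hp with ⟨v, -, hns, rfl⟩ | ⟨φ, hφ, rfl⟩
        · exact hF v hns
        · exact hR φ hφ
      have hpr : ∀ φ, p = .inr φ → φ d < 0 := by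
        rintro φ rfl
        rcases hp with ⟨v, -, -, h⟩ | ⟨φ', hφ', h⟩
        · exact absurd h Sum.inr_ne_inl
        · obtain rfl := Sum.inr_injective h
          exact hφ'
      obtain ⟨μ, hμ, hch⟩ := hch.pad h11
      obtain ⟨η, hη, hηL⟩ := lrel_of_near B e he p hpr hμ
      obtain ⟨m, a, Y, ha, hY0, hYm, hu, hne, hsm⟩ := hch η hη
      choose θ1 hθ1 hθ1' using fun i => tol hS B p g (Y i) (Y (i + 1)) (a i : k) (hsm i)
      choose θ2 hθ2 hθ2' using fun i => tol_ne hS B p g (Y i) (Y (i + 1)) (hne i)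
      have h3 : ∀ i, ∃ θ : ℝ, 0 < θ ∧ (m ≤ i → ∀ y, nm2 B p (y - Y i) < θ →
          LRel d e p (hh g y y' * star (hh g y y'))) := by
        intro i
        by_cases hi : m ≤ i
        · obtain ⟨δ, hδ, hYi⟩ := hYm i hi
          have h4 : hh g (Y i) y' = δ := by rw [hYi, hh_smul_left, hy', mul_one]
          obtain ⟨θ, hθ, h5⟩ := tol hS B p g (Y i) y' (1 : k) (η := η) (by
            rw [h4, hδ, sub_self, zero_mul, Even.nm_zero]
            exact hη)
          refine ⟨θ, hθ, fun _ y hy => ?_⟩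
          refine hηL _ 1 (Or.inl rfl) ?_
          rw [Units.val_one]
          refine h5 y y' hy ?_
          rw [sub_self, nm2_zero]
          exact hθ
        · exact ⟨1, one_pos, fun h => absurd h hi⟩
      choose θ3 hθ3 hθ3' using h3
      refine ⟨m, Y, fun i => min (min (θ1 i) (θ1 (i - 1))) (min (θ2 i) (θ3 i)), fun i => ?_,
        fun _ => ⟨hY0, hu, fun i y hy => ?_, fun i y z hy hz => ?_, fun i hi y hy => ?_⟩⟩
      · exact lt_min (lt_min (hθ1 _) (hθ1 _)) (lt_min (hθ2 _) (hθ3 _))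
      · exact hθ2' i y (hy.trans_le ((min_le_right _ _).trans (min_le_left _ _)))
      · refine hηL _ (a i) (ha i) ?_
        refine hθ1' i y z (hy.trans_le ((min_le_left _ _).trans (min_le_left _ _))) ?_
        refine hz.trans_le ((min_le_left _ _).trans ((min_le_right _ _).trans ?_))
        rw [Nat.add_sub_cancel]
      · exact hθ3' i hi y (hy.trans_le ((min_le_right _ _).trans (min_le_right _ _)))
    · exact ⟨0, fun _ => 0, fun _ => 1, fun _ => one_pos, fun h => absurd h hp⟩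
  choose m Y θ hθ hY using hloc
  obtain ⟨m₀, hm₀⟩ : ∃ m₀ : ℕ, ∀ p ∈ Pn d S, m p ≤ m₀ := by
    obtain ⟨m₀, h⟩ := ((Pn_finite hSf).image m).bddAbove
    exact ⟨m₀, fun p hp => h ⟨p, hp, rfl⟩⟩
  -- the relation for two consecutive vectors
  have hrel : ∀ z z' : D × D, hh g z z' ≠ 0 →
      (∀ v ∉ S, d ∉ LS (v.valuation k) → Ing B v (hh g z z') ∧ Ing B v (hh g z z')⁻¹) →
      (∀ p ∈ Pn d S, LRel d e p (hh g z z' * star (hh g z z'))) →
      Rel k d e (hh g z z' * star (hh g z z')) := by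
    intro z z' h0 h1 h2
    refine rel_of_loc hS B (by rw [star_mul, star_star]) (mul_ne_zero h0 (star_ne_zero.mpr h0))
      (fun v hv => ?_) (fun φ hφ => h2 _ (Or.inr ⟨φ, hφ, rfl⟩))
    by_cases hvS : v ∈ S
    · exact h2 _ (Or.inl ⟨v, hvS, hv, rfl⟩)
    · obtain ⟨h3, h4⟩ := h1 v hvS hv
      exact lrel_good (hSg v hvS).1 (hSg v hvS).2.1 h3 h4
  have hgI : ∀ v ∉ S, Ing B v g := fun v hv => (hSg v hv).2.2 _ (by simp)
  have he₁I : ∀ v ∉ S, Ing B v (e₁ : D × D).1 ∧ Ing B v (e₁ : D × D).2 := fun v hv =>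
    ⟨(hSg v hv).1.one, Ing.zero⟩
  -- the global chain
  have hchain : ∀ i : ℕ, ∃ u ∈ Uh g, (∀ v ∉ S, d ∉ LS (v.valuation k) → IntIso B v u) ∧
      hh g (u e₁) y' ≠ 0 ∧
      (∀ v ∉ S, d ∉ LS (v.valuation k) → Ing B v (hh g (u e₁) y')⁻¹) ∧
      (∀ p ∈ Pn d S, nm2 B p (u e₁ - Y p i) < θ p i) ∧
      ∃ n ∈ N, ∃ δ : D, δ ≠ 0 ∧ n e₁ = δ • (u e₁) := by
    intro i
    induction i with
    | zero =>
      refine ⟨1, one_mem _, fun v hv hns => IntIso.one, ?_, fun v hv hns => ?_, fun p hp => ?_,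
        1, one_mem _, 1, one_ne_zero, by rw [one_smul]⟩
      · change hh g e₁ y' ≠ 0
        rw [hh_e₁]
        exact star_ne_zero.mpr hy1
      · change Ing B v (hh g e₁ y')⁻¹
        rw [hh_e₁, ← star_inv₀]
        exact (hSg v hv).1.st _ ((hSg v hv).2.2 _ (by simp))
      · change nm2 B p (e₁ - Y p 0) < θ p 0
        rw [(hY p hp).1, sub_self, nm2_zero]
        exact hθ p 0
    | succ i ih =>
      obtain ⟨u, hu, huI, hu0, huy, hun, n, hn, δ, hδ, hnδ⟩ := ih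
      obtain ⟨u', hu', hu'I, h1, h2, h3, h4⟩ := one_step hS hg B hSf
        (fun v hv => ⟨(hSg v hv).1, hgI v hv⟩) hu huI hu0
        (fun v hv hns => ⟨(hSg v hv).2.2 _ (by simp), (hSg v hv).2.2 _ (by simp),
          huy v hv hns⟩)
        (fun p => Y p (i + 1)) (fun p hp => (hY p hp).2.1 (i + 1))
        (fun p hp => (hY p hp).2.2.1 i _ (hun p hp)) (fun p => θ p (i + 1))
        (fun p => hθ p (i + 1))
      have hR' := hrel (u e₁) (u' e₁) h1 (fun v hv hns => by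
        obtain ⟨i1, i2⟩ := (huI v hv hns e₁ (he₁I v hv).1 (he₁I v hv).2).1
        obtain ⟨i3, i4⟩ := (hu'I v hv hns e₁ (he₁I v hv).1 (he₁I v hv).2).1
        exact ⟨ing_hh (hSg v hv).1 (hgI v hv) i1 i2 i3 i4, (h4 v hv hns).1⟩)
        (fun p hp => (hY p hp).2.2.2.1 i _ _ (hun p hp) (h3 p hp))
      have he1 : hh g (e₁ : D × D) e₁ = 1 := by rw [hh_e₁, e₁, star_one]
      obtain ⟨n', hn', δ', hδ', hnδ'⟩ := step hS hg han he hHQ
        (by rw [hu, he1]) (by rw [hu', he1]) hR'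
      refine ⟨u', hu', hu'I, h2, fun v hv hns => (h4 v hv hns).2, h3, n' * n, mul_mem hn' hn,
        δ * δ', mul_ne_zero hδ hδ', ?_⟩
      change n' (n e₁) = _
      rw [hnδ, map_smul, hnδ', smul_smul]
  obtain ⟨u, hu, huI, hu0, huy, hun, n, hn, δ, hδ, hnδ⟩ := hchain m₀
  have hR' := hrel (u e₁) y' hu0 (fun v hv hns => by
    obtain ⟨i1, i2⟩ := (huI v hv hns e₁ (he₁I v hv).1 (he₁I v hv).2).1
    exact ⟨ing_hh (hSg v hv).1 (hgI v hv) i1 i2 ((hSg v hv).2.2 _ (by simp))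
      ((hSg v hv).2.2 _ (by simp)), huy v hv hns⟩)
    (fun p hp => (hY p hp).2.2.2.2 m₀ (hm₀ p hp) _ (hun p hp))
  have he1 : hh g (e₁ : D × D) e₁ = 1 := by rw [hh_e₁, e₁, star_one]
  obtain ⟨n', hn', δ', hδ', hnδ'⟩ := step hS hg han he hHQ (by rw [hu, he1]) hy' hR'
  refine ⟨n' * n, mul_mem hn' hn, δ * δ', mul_ne_zero hδ hδ', ?_⟩
  change n' (n e₁) = _
  rw [hnδ, map_smul, hnδ', smul_smul]

/-- The orbit of the first basis vector. -/
theorem transitive_of_chains (hS : Setting k K D d s) {g : D} (hg : star g = g) (han : An g)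
    (B : Module.Basis (Fin M) k D) {e : ℕ} (he : 0 < e)
    {N : Subgroup ((D × D) ≃ₗ[D] (D × D))} (hN : ∀ v ∈ Uh g, ∀ x ∈ N, v * x * v⁻¹ ∈ N)
    (hHQ : HQ d s g e N)
    (hF : ∀ v : HeightOneSpectrum (𝓞 k), d ∉ LS (v.valuation k) → ∀ y : D × D,
      hh g y y = 1 → Chain B d g (.inl v) e₁ y)
    (hR : ∀ φ : k →+* ℝ, φ d < 0 → ∀ y : D × D, hh g y y = 1 → Chain B d g (.inr φ) e₁ y)
    {y' : D × D} (hy' : hh g y' y' = 1) :
    ∃ u ∈ N, ∃ δ : D, δ ≠ 0 ∧ u e₁ = δ • y' := by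
  have hmain : ∀ y : D × D, hh g y y = 1 → y.1 ≠ 0 → ∃ u ∈ N, ∃ δ : D, δ ≠ 0 ∧ u e₁ = δ • y :=
    fun y h h' => transitive_of_chain hS hg han B he hHQ h h' (fun v hv => hF v hv y h)
      (fun φ hφ => hR φ hφ y h)
  by_cases hy1 : y'.1 = 0
  · have _ : CharZero D := charZero_of_injective_algebraMap (algebraMap k D).injective
    obtain ⟨Sg, hSg⟩ : ∃ S : D, S = algebraMap K D s := ⟨_, rfl⟩
    have hSst : star Sg = -Sg := by rw [hSg]; exact star_S hS
    have hs0 : s ≠ 0 := by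
      intro h
      have := hS.sq
      rw [h, zero_pow two_ne_zero] at this
      exact d.ne_zero ((map_eq_zero _).mp this.symm)
    have hS0 : Sg ≠ 0 := by rw [hSg]; exact (_root_.map_ne_zero _).mpr hs0
    obtain ⟨a, ha⟩ : ∃ a : D, a = (2⁻¹ : k) • (1 + g) := ⟨_, rfl⟩
    have has : star a = a := by
      have h1 : star a = (2⁻¹ : k) • star (1 + g) := by rw [ha]; exact (sig hS).map_smul _ _
      rw [h1, star_add, star_one, hg, ha]
    have h2a : a + a = 1 + g := by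
      rw [ha, ← smul_add, ← two_smul k, smul_smul, inv_mul_cancel₀ two_ne_zero, one_smul]
    obtain ⟨w, hw⟩ : ∃ w : D, w = a + Sg := ⟨_, rfl⟩
    have hrel : w + star w = 1 + 1 * g * star 1 := by
      rw [hw, star_add, has, hSst, one_mul, star_one, mul_one, ← h2a]
      abel
    have hkey : ∀ c : D, star c = c → c ≠ Sg := by
      intro c hc h
      rw [h, hSst] at hc
      apply hS0
      have h1 : Sg + Sg = 0 := by nth_rewrite 1 [← hc]; rw [neg_add_cancel]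
      rw [← two_mul] at h1
      exact (mul_eq_zero.mp h1).resolve_left two_ne_zero
    have hw0 : w ≠ 0 := by
      intro h
      apply hkey (-a) (by rw [star_neg, has])
      rw [hw] at h
      exact neg_eq_of_add_eq_zero_right h
    have hw1 : w ≠ 1 := by
      intro h
      apply hkey (1 - a) (by rw [star_sub, star_one, has])
      rw [hw] at h
      rw [← h]
      abel
    obtain ⟨u₀, hu₀d⟩ : ∃ u₀, u₀ = qr g 1 w hw0 hrel := ⟨_, rfl⟩
    have hu₀ : u₀ ∈ Uh g := hu₀d ▸ qr_mem hg hw0 hrel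
    have hy'' : u₀ e₁ = (1 - w⁻¹, w⁻¹ * 1) := by rw [hu₀d, qr_e₁]
    have he1 : hh g (e₁ : D × D) e₁ = 1 := by rw [hh_e₁, e₁, star_one]
    obtain ⟨n₁, hn₁, δ₁, hδ₁, h1⟩ := hmain (u₀ e₁) (by rw [hu₀, he1]) (by
      rw [hy'']
      intro h
      apply hw1
      have h2 : w⁻¹ = 1 := (sub_eq_zero.mp h).symm
      rw [← inv_inv w, h2, inv_one])
    have hy2 : y'.2 ≠ 0 := by
      intro h
      have h2 : y' = 0 := Prod.ext hy1 h
      rw [h2, hh] at hy'
      simp at hy'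
    have hg0 : g ≠ 0 := by
      intro h
      have h2 := han (0, 1) (by rw [hh, h]; simp)
      exact one_ne_zero (congrArg Prod.snd h2)
    obtain ⟨x, hx⟩ : ∃ x, x = u₀⁻¹ y' := ⟨_, rfl⟩
    have hux : u₀ x = y' := by rw [hx]; exact u₀.apply_symm_apply y'
    obtain ⟨n₂, hn₂, δ₂, hδ₂, h2⟩ := hmain x (by
        have := hu₀ x x
        rw [hux] at this
        rw [← this, hy']) (by
      intro h
      have h3 : hh g e₁ x = 0 := by rw [hh_e₁, h, star_zero]
      rw [hx, ← hh_move hu₀, hy'', hh] at h3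
      simp only [hy1, star_zero, mul_zero, zero_add, mul_one] at h3
      exact mul_ne_zero (mul_ne_zero (inv_ne_zero hw0) hg0) (star_ne_zero.mpr hy2) h3)
    refine ⟨u₀ * n₂ * u₀⁻¹ * n₁, mul_mem (hN _ hu₀ _ hn₂) hn₁, δ₁ * δ₂, mul_ne_zero hδ₁ hδ₂, ?_⟩
    change u₀ (n₂ (u₀⁻¹ (n₁ e₁))) = _
    have h4 : u₀⁻¹ (u₀ e₁) = e₁ := u₀.symm_apply_apply e₁
    rw [h1, map_smul, map_smul, map_smul, h4, h2, map_smul, hux, smul_smul]
  · exact hmain y' hy' hy1

end main

end Vale.Agent.P011.Two
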