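import Vale.Agent.P011.Even.Split
import Vale.Agent.P011.Even.Completion
import Vale.Agent.P011.Even.Beta

/-!
Totally split primes from polynomials over the completion which split.
-/

open Module NumberField IsDedekindDomain Polynomial

namespace Vale.Agent.P011.Two

open Vale.Agent.P011.Arith Vale.Agent.P011.Even

variable {F : Type} [Field F] [NumberField F]

theorem exists_place_lt {E : Type} [Field E] [NumberField E] [Algebra F E]
    {v : HeightOneSpectrum (𝓞 F)} (θ : E) (c : Fˣ)
    (hN : v.valuation F (Algebra.norm F θ) < v.valuation F (c : F) ^ (finrank F E)) :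
    ∃ w : HeightOneSpectrum (𝓞 E), Ab w v ∧
      w.valuation E θ < w.valuation E (algebraMap F E (c : F)) := by
  by_contra hcon
  push Not at hcon
  by_cases h0 : θ = 0
  · obtain ⟨w, hw⟩ := exists_above (E := E) v
    have h1 := hcon w hw
    rw [h0, map_zero, le_zero_iff] at h1
    exact (Valuation.ne_zero_iff _).mpr ((_root_.map_ne_zero _).mpr c.ne_zero) h1
  · have h1 := val_norm_le v (algebraMap F E (c : F) / θ) fun w hw => by
      rw [map_div₀, div_le_one₀ (zero_lt_iff.mpr ((Valuation.ne_zero_iff _).mpr h0))]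
      exact hcon w hw
    have h2 : Algebra.norm F (algebraMap F E (c : F) / θ) * Algebra.norm F θ =
        (c : F) ^ finrank F E := by
      rw [← map_mul, div_mul_cancel₀ _ h0, Algebra.norm_algebraMap]
    refine absurd hN (not_lt.mpr ?_)
    rw [← map_pow, ← h2, map_mul]
    calc _ ≤ 1 * v.valuation F (Algebra.norm F θ) := mul_le_mul' h1 le_rfl
      _ = _ := one_mul _

theorem norm_sub_eq_eval {E : Type} [Field E] [NumberField E] [Algebra F E] (θ : E)
    (hdeg : (minpoly F θ).natDegree = finrank F E) (x : F) :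
    Algebra.norm F (algebraMap F E x - θ) = (minpoly F θ).eval x := by
  classical
  let c := Module.finBasis F E
  have hchar : (Algebra.leftMulMatrix c θ).charpoly = minpoly F θ := by
    have h1 : minpoly F θ ∣ (Algebra.leftMulMatrix c θ).charpoly := by
      refine minpoly.dvd F θ ?_
      rw [Algebra.leftMulMatrix_apply, LinearMap.charpoly_toMatrix]
      exact Algebra.aeval_self_charpoly_lmul θ
    refine Polynomial.eq_of_monic_of_dvd_of_natDegree_le (minpoly.monic
      (Algebra.IsIntegral.isIntegral θ)) (Matrix.charpoly_monic _) h1 ?_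
    rw [Matrix.charpoly_natDegree_eq_dim, hdeg, Fintype.card_fin]
  rw [← hchar, Matrix.eval_charpoly, Algebra.norm_eq_matrix_det c, map_sub]
  congr 2
  ext a b
  rw [Algebra.leftMulMatrix_eq_repr_mul, ← Algebra.smul_def, map_smul, Finsupp.smul_apply,
    c.repr_self, Matrix.scalar_apply, Matrix.diagonal_apply, Finsupp.single_apply]
  simp [eq_comm]

/-- The value of a polynomial close to a given one. -/
theorem eval_near {R : Type} [NormedField R] (q : R[X]) (x : R) {m : R[X]} {ε : ℝ}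
    (h : ∀ i, ‖m.coeff i - q.coeff i‖ < ε) {n : ℕ} (hm : m.natDegree ≤ n) (hq : q.natDegree ≤ n) :
    ‖m.eval x - q.eval x‖ ≤ ε * ∑ j ∈ Finset.range (n + 1), ‖x‖ ^ j := by
  rw [eval_eq_sum_range' (Nat.lt_succ_of_le hm), eval_eq_sum_range' (Nat.lt_succ_of_le hq),
    ← Finset.sum_sub_distrib, Finset.mul_sum]
  refine (norm_sum_le _ _).trans (Finset.sum_le_sum fun j _ => ?_)
  rw [← sub_mul, norm_mul, norm_pow]
  exact mul_le_mul_of_nonneg_right (h j).le (by positivity)

theorem val_lt_iff_norm (v : HeightOneSpectrum (𝓞 F)) (x y : F) :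
    v.valuation F x < v.valuation F y ↔
      ‖algebraMap F (v.adicCompletion F) x‖ < ‖algebraMap F (v.adicCompletion F) y‖ := by
  rw [norm_lt_iff, valued_alg, valued_alg]

theorem val_le_iff_norm (v : HeightOneSpectrum (𝓞 F)) (x y : F) :
    v.valuation F x ≤ v.valuation F y ↔
      ‖algebraMap F (v.adicCompletion F) x‖ ≤ ‖algebraMap F (v.adicCompletion F) y‖ := by
  rw [norm_le_iff, valued_alg, valued_alg]

/-- The minimal polynomial is close to a polynomial which splits over the completion. -/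
theorem key_fin (v : HeightOneSpectrum (𝓞 F)) {n : ℕ} (r : Fin n → v.adicCompletion F)
    (hr : Function.Injective r) (c : Fˣ)
    (hc : ‖∏ i, (2 - r i)‖ < ‖algebraMap F (v.adicCompletion F) (c : F)‖ ^ n) :
    ∃ ε : ℝ, 0 < ε ∧ ∀ (E : Type) [Field E] [NumberField E] [Algebra F E] (θ : E),
      finrank F E = n → (minpoly F θ).natDegree = n →
      (∀ i, ‖algebraMap F (v.adicCompletion F) ((minpoly F θ).coeff i) -
        (∏ i, (X - C (r i))).coeff i‖ < ε) →
      TotSplit E v ∧ ∃ w : HeightOneSpectrum (𝓞 E), Ab w v ∧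
        w.valuation E (2 - θ) < w.valuation E (algebraMap F E (c : F)) := by
  classical
  set a : F →+* v.adicCompletion F := algebraMap F (v.adicCompletion F) with ha
  set q : (v.adicCompletion F)[X] := ∏ i, (X - C (r i)) with hq
  obtain ⟨π, hπ⟩ := exists_val_lt_one v
  have hπ1 : ‖a π‖ < 1 := by rw [norm_lt_one_iff, valued_alg]; exact hπ
  have hπ0 : 0 < ‖a π‖ := norm_pos_iff.mpr ((_root_.map_ne_zero _).mpr π.ne_zero)
  -- the separation of the roots
  obtain ⟨μ, hμ0, hμ⟩ : ∃ μ : ℝ, 0 < μ ∧ ∀ i j, i ≠ j → μ ≤ ‖r i - r j‖ := by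
    rcases (Finset.univ.filter fun p : Fin n × Fin n => p.1 ≠ p.2).eq_empty_or_nonempty with h | h
    · refine ⟨1, one_pos, fun i j hij => ?_⟩
      exact absurd (Finset.mem_filter.mpr ⟨Finset.mem_univ (i, j), hij⟩) (by rw [h]; simp)
    · obtain ⟨p, hp, hmin⟩ := Finset.exists_min_image _ (fun p : Fin n × Fin n =>
        ‖r p.1 - r p.2‖) h
      refine ⟨‖r p.1 - r p.2‖, norm_pos_iff.mpr (sub_ne_zero.mpr fun h =>
        (Finset.mem_filter.mp hp).2 (hr h)), fun i j hij => ?_⟩
      exact hmin (i, j) (Finset.mem_filter.mpr ⟨Finset.mem_univ _, hij⟩)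
  obtain ⟨M, hM⟩ := exists_pow_lt_of_lt_one (show (0 : ℝ) < μ / 2 by linarith) hπ1
  let δ : Fˣ := π ^ M
  have hδn : ‖a δ‖ = ‖a π‖ ^ M := by
    change ‖a ((π ^ M : Fˣ) : F)‖ = _
    rw [Units.val_pow_eq_pow_val, map_pow, norm_pow]
  have hδ0 : 0 < ‖a δ‖ := by rw [hδn]; positivity
  have hδμ : ‖a δ‖ < μ / 2 := by rw [hδn]; exact hM
  -- approximate roots
  have hqr : ∀ i, q.eval (r i) = 0 := fun i => by
    rw [hq, eval_prod]
    exact Finset.prod_eq_zero (Finset.mem_univ i) (by simp)
  have hroot : ∀ i, ∃ x : F, ‖r i - a x‖ < ‖a δ‖ / 2 ∧ ‖q.eval (a x)‖ < ‖a δ‖ ^ n / 2 := by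
    intro i
    have h1 : ContinuousAt (fun x => q.eval x) (r i) := q.continuous.continuousAt
    have h2 := h1.eventually (Metric.ball_mem_nhds _ (show 0 < ‖a δ‖ ^ n / 2 by positivity))
    obtain ⟨ρ, hρ, hball⟩ := Metric.eventually_nhds_iff.mp h2
    obtain ⟨x, hx⟩ := dense v (r i) (min (‖a δ‖ / 2) ρ) (lt_min (by linarith) hρ)
    refine ⟨x, hx.trans_le (min_le_left _ _), ?_⟩
    have h3 := hball (y := a x) (by
      rw [dist_comm, dist_eq_norm]
      exact hx.trans_le (min_le_right _ _))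
    change dist (q.eval (a x)) (q.eval (r i)) < _ at h3
    rw [hqr, dist_zero_right] at h3
    exact h3
  choose x hx1 hx2 using hroot
  -- the radius
  let S : v.adicCompletion F → ℝ := fun y => ∑ j ∈ Finset.range (n + 1), ‖y‖ ^ j
  have hS : ∀ y, 0 < S y := fun y => by
    have h1 : (1 : ℝ) ≤ S y := by
      have := Finset.single_le_sum (f := fun j => ‖y‖ ^ j) (fun j _ => by positivity)
        (Finset.mem_range.mpr (Nat.succ_pos n))
      simpa using this
    linarith
  have hq2 : ‖q.eval 2‖ < ‖a c‖ ^ n := by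
    rw [hq, eval_prod]
    simpa using hc
  obtain ⟨ε₁, hε₁, hε₁'⟩ : ∃ ε : ℝ, 0 < ε ∧ ∀ i, ε * S (a (x i)) ≤ ‖a δ‖ ^ n / 2 := by
    rcases Nat.eq_zero_or_pos n with h0 | h0
    · subst h0
      exact ⟨1, one_pos, fun i => i.elim0⟩
    · have : Nonempty (Fin n) := ⟨⟨0, h0⟩⟩
      obtain ⟨i₀, hi₀⟩ := Finite.exists_max (fun i => S (a (x i)))
      refine ⟨‖a δ‖ ^ n / 2 / S (a (x i₀)), by have := hS (a (x i₀)); positivity, fun i => ?_⟩
      rw [div_mul_eq_mul_div, div_le_iff₀ (hS _)]
      exact mul_le_mul_of_nonneg_left (hi₀ i) (by positivity)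
  let ε₂ : ℝ := (‖a c‖ ^ n - ‖q.eval 2‖) / 2 / S 2
  have hε₂ : 0 < ε₂ := div_pos (by linarith) (hS 2)
  refine ⟨min ε₁ ε₂, lt_min hε₁ hε₂, ?_⟩
  intro E _ _ _ θ hE hdeg hnear
  have hqn : q.natDegree ≤ n := by
    rw [hq]
    refine (Polynomial.natDegree_prod_le _ _).trans ?_
    simp
  have hmn : ((minpoly F θ).map a).natDegree ≤ n := by
    rw [natDegree_map, hdeg]
  have hnear' : ∀ i, ‖((minpoly F θ).map a).coeff i - q.coeff i‖ < min ε₁ ε₂ := fun i => by
    rw [coeff_map]
    exact hnear i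
  have heval : ∀ y : F, ‖a ((minpoly F θ).eval y)‖ ≤
      min ε₁ ε₂ * S (a y) + ‖q.eval (a y)‖ := by
    intro y
    have h1 := eval_near q (a y) hnear' hmn hqn
    rw [eval_map_apply] at h1
    calc ‖a ((minpoly F θ).eval y)‖ = ‖(a ((minpoly F θ).eval y) - q.eval (a y)) +
          q.eval (a y)‖ := by rw [sub_add_cancel]
      _ ≤ _ := (norm_add_le _ _).trans (add_le_add_left h1 _)
  subst hE
  constructor
  · refine totSplit_of_norm θ δ x (fun i j hij => ?_) fun i => ?_
    · rw [val_le_iff_norm, map_sub]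
      have h1 := hμ i j hij
      have h2 : r i - r j = (r i - a (x i)) + (a (x i) - a (x j)) - (r j - a (x j)) := by ring
      have h3 : ‖r i - r j‖ ≤ ‖r i - a (x i)‖ + ‖a (x i) - a (x j)‖ + ‖r j - a (x j)‖ := by
        rw [h2]
        exact (norm_sub_le _ _).trans (add_le_add_left (norm_add_le _ _) _)
      have h4 := hx1 i
      have h5 := hx1 j
      change ‖a δ‖ ≤ ‖a (x i) - a (x j)‖
      linarith
    · have h1 : Algebra.norm F (θ - algebraMap F E (x i)) =
          Algebra.norm F (-1 : E) * Algebra.norm F (algebraMap F E (x i) - θ) := by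
        rw [← map_mul]
        congr 1
        ring
      have hone : v.valuation F (Algebra.norm F (-1 : E)) = 1 := by
        have h1 : (-1 : E) = algebraMap F E (-1) := by simp
        rw [h1, Algebra.norm_algebraMap, map_pow, Valuation.map_neg, map_one, one_pow]
      rw [h1, map_mul, hone, one_mul, norm_sub_eq_eval θ hdeg, ← map_pow, val_lt_iff_norm,
        map_pow, norm_pow]
      have h2 := heval (x i)
      have h3 := hx2 i
      have h4 : min ε₁ ε₂ * S (a (x i)) ≤ ‖a δ‖ ^ finrank F E / 2 :=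
        (mul_le_mul_of_nonneg_right (min_le_left _ _) (hS _).le).trans (hε₁' i)
      change ‖a ((minpoly F θ).eval (x i))‖ < ‖a δ‖ ^ finrank F E
      linarith
  · apply exists_place_lt
    have h1 : (2 : E) - θ = algebraMap F E 2 - θ := by rw [map_ofNat]
    rw [h1, norm_sub_eq_eval θ hdeg, ← map_pow, val_lt_iff_norm, map_pow, norm_pow]
    have h2 := heval 2
    have h3 : a 2 = 2 := map_ofNat a 2
    rw [h3] at h2
    have h4 : min ε₁ ε₂ * S 2 ≤ (‖a c‖ ^ finrank F E - ‖q.eval 2‖) / 2 := by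
      calc min ε₁ ε₂ * S 2 ≤ ε₂ * S 2 := mul_le_mul_of_nonneg_right (min_le_right _ _) (hS _).le
        _ = _ := div_mul_cancel₀ _ (hS 2).ne'
    change ‖a ((minpoly F θ).eval 2)‖ < ‖a c‖ ^ finrank F E
    linarith

end Vale.Agent.P011.Two
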