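import Vale.Agent.P011.Two.LocMk
import Vale.Agent.P011.Two.KeyFin

/-!
The local conditions for unitary elements, and the generation of the unitary group by elements
which satisfy them.
-/

open Module Filter Topology Polynomial Matrix NumberField IsDedekindDomain TensorProduct
open Vale.Agent.P011.RP (RData)
open Vale.Agent.P011.T2 (QuadL)

namespace Vale.Agent.P011.Two

open Vale.Agent.P011.Arith Vale.Agent.P011.Even

variable {k K D : Type} [Field k] [NumberField k] [Field K] [StarRing K]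
    [DivisionRing D] [StarRing D] [Algebra k K] [Algebra k D] [Algebra K D] [IsScalarTower k K D]
    {d : kˣ} {s : K} {n : ℕ} {N : ℕ}

/-- The condition at a finite place. -/
def WF (n : ℕ) (c : kˣ) (v : HeightOneSpectrum (𝓞 k)) (t : unitary D) : Prop :=
  LinearIndependent k (fun i : Fin n => ((t : D) + star (t : D)) ^ (i : ℕ)) ∧
  ∀ (E : Type) [Field E] [NumberField E] [Algebra k E] (θ : E), finrank k E = n →
    (minpoly k θ).natDegree = n → aeval ((t : D) + star (t : D)) (minpoly k θ) = 0 →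
    TotSplit E v ∧ ∃ w : HeightOneSpectrum (𝓞 E), Ab w v ∧
      w.valuation E (2 - θ) < w.valuation E (algebraMap k E (c : k))

/-- The condition at a real place. -/
def WR (n : ℕ) (φ : k →+* ℝ) (t : unitary D) : Prop :=
  LinearIndependent k (fun i : Fin n => ((t : D) + star (t : D)) ^ (i : ℕ)) ∧
  ∀ m : k[X], m.Monic → m.natDegree = n → aeval ((t : D) + star (t : D)) m = 0 →
    ∃ ρ : Fin n → ℝ, Function.Injective ρ ∧ m.map φ = ∏ i, (X - C (ρ i))

/-- The data at a finite place. -/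
theorem data_inl (hS : Setting k K D d s) (hn : 2 ≤ n) (hdeg : finrank K D = n ^ 2)
    (B : Basis (Fin N) k D) (c : kˣ) (v : HeightOneSpectrum (𝓞 k))
    (hv : d ∉ LS (v.valuation k)) : Nonempty (LocData B (Sum.inl v) (WF n c v)) := by
  classical
  let _ := nnf v
  obtain ⟨L, _, _, _, ρ, G, hfix, hL2, hGu, hGs, hG⟩ := exists_local_model hS hdeg v hv
  obtain ⟨dL, hQ⟩ := exists_quadL hfix hL2
  have : CharZero L :=
    charZero_of_injective_algebraMap (algebraMap (v.adicCompletion k) L).injective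
  have : FiniteDimensional (v.adicCompletion k) L :=
    Module.finite_of_finrank_pos (by rw [hL2]; exact two_pos)
  have hσ : ∀ x, hS.sig x = star x := fun x => rfl
  have hGd : IsUnit G.det := (Matrix.isUnit_iff_isUnit_det G).mp hGu
  have hGG : G * G⁻¹ = 1 := Matrix.mul_nonsing_inv _ hGd
  have hGG' : G⁻¹ * G = 1 := Matrix.nonsing_inv_mul _ hGd
  have hGis : (G⁻¹)ᴴ = G⁻¹ := by rw [Matrix.conjTranspose_nonsing_inv, hGs]
  let f : D →+* Matrix (Fin n) (Fin n) L :=
    (ρ.toAlgHom : v.adicCompletion k ⊗[k] D →+* Matrix (Fin n) (Fin n) L).comp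
      (Algebra.TensorProduct.includeRight : D →ₐ[k] v.adicCompletion k ⊗[k] D).toRingHom
  have hf : ∀ x, f x = ρ (1 ⊗ₜ x) := fun x => rfl
  refine exists_locData (c₀ := ‖algebraMap k (v.adicCompletion k) (c : k)‖ ^ n) B _ _ hQ hn f
    ?_ hGis ⟨⟨G⁻¹, G, hGG', hGG⟩, rfl⟩ ?_ ?_ ?_ ?_ ?_ ?_
  · intro a x
    rw [hf, hf, TensorProduct.tmul_smul, ← map_smul,
      ← algebraMap_smul (v.adicCompletion k) a ((1 : v.adicCompletion k) ⊗ₜ[k] x)]
  · intro x
    have h1 := hG (1 ⊗ₜ x)
    rw [LinearMap.baseChange_tmul, hσ, ← hf, ← hf] at h1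
    calc f (star x) * G⁻¹ = G⁻¹ * (G * f (star x)) * G⁻¹ := by
          rw [← mul_assoc, hGG', one_mul]
      _ = G⁻¹ * (f x)ᴴ * (G * G⁻¹) := by rw [h1]; simp only [mul_assoc]
      _ = _ := by rw [hGG, mul_one]
  · intro Y
    let BA := Algebra.TensorProduct.basis (v.adicCompletion k) B
    refine ⟨fun j => BA.repr (ρ.symm Y) j, ?_⟩
    have h1 : ∑ j, BA.repr (ρ.symm Y) j • BA j = ρ.symm Y := BA.sum_repr _
    have h2 := congrArg ρ h1
    rw [map_sum, AlgEquiv.apply_symm_apply] at h2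
    refine Eq.trans (Finset.sum_congr rfl fun j _ => ?_) h2
    rw [map_smul, hf, Algebra.TensorProduct.basis_apply]
  · exact fun x => norm_algebraMap_eq v x
  · intro y ε hε
    obtain ⟨x, hx⟩ := dense v y ε hε
    exact ⟨x, by rwa [← norm_neg, neg_sub]⟩
  · exact pow_pos (norm_pos_iff.mpr ((_root_.map_ne_zero _).mpr c.ne_zero)) n
  · intro r hr hrc
    obtain ⟨ε, hε, hE⟩ := key_fin v r hr c hrc
    refine ⟨ε, hε, fun t h1 h2 => ⟨h1, fun E _ _ _ θ hEn hθ hz => hE E θ hEn hθ fun i => ?_⟩⟩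
    have hfd : FiniteDimensional k E := Module.finite_of_finrank_pos (by rw [hEn]; omega)
    exact h2 _ (minpoly.monic (Algebra.IsIntegral.isIntegral θ)) hθ hz i

/-- The data at a real place. -/
theorem data_inr [NumberField K] (hS : Setting k K D d s) (hn : 2 ≤ n)
    (hdeg : finrank K D = n ^ 2) (B : Basis (Fin N) k D) (φ : k →+* ℝ) (hφ : φ d < 0) :
    Nonempty (LocData B (Sum.inr φ) (WR n φ)) := by
  classical
  obtain ⟨R, hR⟩ := exists_rdata_of (D := D) hS (by omega : 0 < n) hdeg hφ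
  let _ : Algebra k ℝ := φ.toAlgebra
  have hal : ∀ a : k, algebraMap k ℝ a = φ a := fun a => rfl
  refine exists_locData (c₀ := 1) B _ _ quadC hn R.f ?_ R.hA R.unit R.star_f ?_ ?_ ?_ one_pos ?_
  · intro a x
    rw [f_smul R hR, hal]
  · exact fun Y => span_real hS (by omega) hdeg R hR B Y
  · intro x
    rw [plAbv_inr, hal, Real.norm_eq_abs]
  · intro y ε hε
    obtain ⟨q, hq1, hq2⟩ := exists_rat_btwn (show y - ε < y + ε by linarith)
    refine ⟨(q : k), ?_⟩
    rw [hal, map_ratCast, Real.norm_eq_abs, abs_lt]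
    constructor <;> linarith
  · intro r hr _
    obtain ⟨ε, hε, hE⟩ := real_roots hr
    refine ⟨ε, hε, fun t h1 h2 => ⟨h1, fun m hm hmn hz => ?_⟩⟩
    refine hE (m.map φ) (hm.map φ) (by rw [natDegree_map, hmn]) fun i => ?_
    rw [coeff_map]
    exact h2 m hm hmn hz i

/-- The unitary group is generated by the elements which satisfy the local conditions. -/
theorem generate [NumberField K] (hS : Setting k K D d s) (hn : 2 ≤ n)
    (hdeg : finrank K D = n ^ 2) (c : kˣ) {V : Set (HeightOneSpectrum (𝓞 k))} (hV : V.Finite)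
    (hVns : ∀ v ∈ V, d ∉ LS (v.valuation k)) (H : Subgroup (unitary D))
    (hH : ∀ t : unitary D, (∀ v ∈ V, WF n c v t) → (∀ φ : k →+* ℝ, φ d < 0 → WR n φ t) → t ∈ H)
    (t : unitary D) : t ∈ H := by
  classical
  have := hS.fin_k
  let B := Module.finBasis k D
  let P : Set (Pl k) := Sum.inl '' V ∪ Sum.inr '' {φ | φ d < 0}
  have hP : P.Finite := (hV.image _).union (Set.toFinite _ |>.image _)
  let W : Pl k → unitary D → Prop := fun p t =>
    Sum.elim (fun v => WF n c v t) (fun φ => WR n φ t) p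
  have hdata : ∀ p ∈ P, Nonempty (LocData B p (W p)) := by
    rintro p (⟨v, hv, rfl⟩ | ⟨φ, hφ, rfl⟩)
    · exact data_inl hS hn hdeg B c v (hVns v hv)
    · exact data_inr hS hn hdeg B φ hφ
  exact combine B hP (fun p hp => (hdata p hp).some) H (fun t ht => hH t
    (fun v hv => ht (Sum.inl v) (Or.inl ⟨v, hv, rfl⟩))
    fun φ hφ => ht (Sum.inr φ) (Or.inr ⟨φ, hφ, rfl⟩)) t

end Vale.Agent.P011.Two
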