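import Vale.Agent.P011.Two.LocGood
import Vale.Agent.P011.Even.RealRoots

/-!
Construction of the local data of a division algebra at a nonsplit place.
-/

open Module Filter Topology Polynomial Matrix
open Vale.Agent.P011.T2 (QuadL)
open Vale.Agent.P011.Even (exists_diag)
open Vale.Agent.P011.Arith

namespace Vale.Agent.P011.Two

theorem prod_norm_le {F : Type} [NormedField F] {n : ℕ} (hn : 2 ≤ n) (i₀ : Fin n) {x : Fin n → F}
    {δ : ℝ} (hδ : δ ≤ 1) (hx : ∀ i, i ≠ i₀ → ‖x i‖ < δ) : ‖∏ i, x i‖ ≤ ‖x i₀‖ * δ := by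
  classical
  obtain ⟨i₁, hi₁⟩ : ∃ i₁ : Fin n, i₁ ≠ i₀ := by
    have : Nontrivial (Fin n) := Fin.nontrivial_iff_two_le.mpr hn
    exact exists_ne i₀
  rw [norm_prod, ← Finset.mul_prod_erase _ _ (Finset.mem_univ i₀)]
  refine mul_le_mul_of_nonneg_left ?_ (norm_nonneg _)
  rw [← Finset.mul_prod_erase _ _ (Finset.mem_erase.mpr ⟨hi₁, Finset.mem_univ i₁⟩)]
  calc ‖x i₁‖ * ∏ i ∈ (Finset.univ.erase i₀).erase i₁, ‖x i‖ ≤ δ * 1 := by
        refine mul_le_mul (hx i₁ hi₁).le ?_ (Finset.prod_nonneg fun _ _ => norm_nonneg _)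
          ((norm_nonneg _).trans (hx i₁ hi₁).le)
        refine Finset.prod_le_one (fun _ _ => norm_nonneg _) fun i hi => ?_
        have h1 := (Finset.mem_erase.mp (Finset.mem_erase.mp hi).2).1
        exact (hx i h1).le.trans hδ
    _ = δ := mul_one δ

section mk

variable {k D : Type} [Field k] [NumberField k] [DivisionRing D] [StarRing D] [Algebra k D]
  {N : ℕ} (B : Basis (Fin N) k D) (p : Pl k) (W : unitary D → Prop)
  {F L : Type} [NontriviallyNormedField F] [CharZero F] [Field L] [CharZero L] [StarRing L]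
  [Algebra F L] [FiniteDimensional F L] [Algebra k F] {d : F} (hQ : QuadL F L d)
  {n : ℕ} (hn : 2 ≤ n) (f : D →+* Matrix (Fin n) (Fin n) L)
  (hf : ∀ (a : k) x, f (a • x) = algebraMap k F a • f x)
  {A : Matrix (Fin n) (Fin n) L} (hA : Aᴴ = A) (hAu : IsUnit A)
  (hfA : ∀ x, f (star x) * A = A * (f x)ᴴ)
  (hspan : ∀ Y, ∃ b : Fin N → F, ∑ j, b j • f (B j) = Y)
  (hnorm : ∀ x : k, ‖algebraMap k F x‖ = plAbv p x)
  (hdense : ∀ (y : F) (ε : ℝ), 0 < ε → ∃ x : k, ‖algebraMap k F x - y‖ < ε)
  {c₀ : ℝ} (hc₀ : 0 < c₀)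
  (hkey : ∀ r : Fin n → F, Function.Injective r → ‖∏ i, (2 - r i)‖ < c₀ → ∃ ε : ℝ, 0 < ε ∧
    ∀ t : unitary D, LinearIndependent k (fun i : Fin n => ((t : D) + star (t : D)) ^ (i : ℕ)) →
     (∀ m : k[X], m.Monic → m.natDegree = n → aeval ((t : D) + star (t : D)) m = 0 →
        ∀ i, ‖algebraMap k F (m.coeff i) - (∏ i, (X - C (r i))).coeff i‖ < ε) → W t)

include hQ hn hf hA hAu hfA hspan hnorm hdense hc₀ hkey in
theorem exists_locData : Nonempty (LocData B p W) := by
  classical
  have : CharZero D := charZero_of_injective_algebraMap (algebraMap k D).injective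
  obtain ⟨U, hU⟩ := hAu
  let V : Matrix (Fin n) (Fin n) L :=
    ((U⁻¹ : (Matrix (Fin n) (Fin n) L)ˣ) : Matrix (Fin n) (Fin n) L)
  have hVA : V * A = 1 := by rw [← hU]; exact U.inv_mul
  have hAV : A * V = 1 := by rw [← hU]; exact U.mul_inv
  have hdet : A.det ≠ 0 := by
    rw [← hU]
    exact ((Matrix.isUnit_iff_isUnit_det _).mp U.isUnit).ne_zero
  let BA := Module.finBasis F (Matrix (Fin n) (Fin n) L)
  let I := invM hQ A V hA hVA hAV
  have hI : ∀ x, I.τ (f x) = f (star x) := by
    intro x
    change A * (f x)ᴴ * V = _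
    rw [← hfA, mul_assoc, hAV, mul_one]
  let g := gU BA f I hI
  let Ω : Set (UT BA I) := {T | ∀ᶠ T' in 𝓝 T, ∀ t, g t = T' → W t}
  let R : Set (UT BA I) := {T | T ∈ Ω ∧ IsUnit (1 + T.val)}
  have key2 : ∀ {P : (Matrix (Fin n) (Fin n) L)ˣ} {α : Fin n → Fˣ}
      (hP : (P : Matrix (Fin n) (Fin n) L) * A * (P : Matrix (Fin n) (Fin n) L)ᴴ =
        diagonal fun i => algebraMap F L (α i)) (θ : Fin n → L)
      (hθ : ∀ i, θ i * star (θ i) = 1) (_ : ∀ i, θ i ≠ -1) (r : Fin n → F)
      (_ : ∀ i, θ i + star (θ i) = algebraMap F L (r i)) (_ : Function.Injective r)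
      (_ : ‖∏ i, (2 - r i)‖ < c₀), dU hQ hA hVA hAV hP BA θ hθ ∈ R := by
    intro P α hP θ hθ hθ1 r hr hri hrc
    refine ⟨?_, dU_unit hQ hA hVA hAV hP BA θ hθ hθ1⟩
    obtain ⟨ε, hε, hW⟩ := hkey r hri hrc
    obtain ⟨h1, h2⟩ := dU_trace hQ hA hVA hAV hP BA θ hθ hr hri
    have h3 := near_U BA f I hI hf (dU hQ hA hVA hAV hP BA θ hθ) h1
      (monic_prod_of_monic _ _ fun i _ => monic_X_sub_C (r i))
      (Even.natDegree_prod_X_sub_C' _) h2 hε
    change ∀ᶠ T' in 𝓝 _, ∀ t, g t = T' → W t
    filter_upwards [h3] with T' hT' t ht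
    obtain ⟨h4, h5⟩ := hT' t ht
    exact hW t h4 h5
  have htr : ∀ θ : L, ∃ r : F, θ + star θ = algebraMap F L r := by
    intro θ
    obtain ⟨r, hr⟩ := hQ.fix (θ + star θ) (by rw [star_add, star_star, add_comm])
    exact ⟨r, hr.symm⟩
  refine ⟨{
    U := UT BA I
    grp := inferInstance
    top := inferInstance
    tgrp := inferInstance
    g := g
    Ω := Ω
    opn := isOpen_setOfPred_eventually_nhds
    good := fun t ht => (Filter.Eventually.self_of_nhds ht) t rfl
    R := R
    sub := fun T hT => hT.1
    ne := ?_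
    gen := ?_
    app := ?_ }⟩
  · obtain ⟨P, α, ⟨Pu, rfl⟩, hP⟩ := exists_diag hQ A hA hdet
    obtain ⟨η, r, hri, hη1, hηr, hr2, hrb⟩ := exists_eta hQ (lt_min one_pos hc₀)
      (Set.toFinite ({-2} : Set F)) n
    refine ⟨_, key2 hP η hη1 ?_ r hηr hri ?_⟩
    · intro i hi
      apply hrb i
      have h1 := hηr i
      rw [hi, star_neg, star_one] at h1
      have h2 : algebraMap F L (-2) = algebraMap F L (r i) := by
        rw [← h1, map_neg, map_ofNat]; ring
      exact ((algebraMap F L).injective h2).symm
    · have i₀ : Fin n := ⟨0, by omega⟩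
      refine (prod_norm_le hn i₀ (δ := min 1 c₀) (min_le_left _ _) fun i _ => hr2 i).trans_lt ?_
      have h1 := hr2 i₀
      have h2 : ‖2 - r i₀‖ < 1 := h1.trans_le (min_le_left _ _)
      calc ‖2 - r i₀‖ * min 1 c₀ < 1 * min 1 c₀ :=
            mul_lt_mul_of_pos_right h2 (lt_min one_pos hc₀)
        _ ≤ c₀ := by rw [one_mul]; exact min_le_right _ _
  · intro H hH
    let incl : UT BA I →* (Matrix (Fin n) (Fin n) L)ˣ := I.grp.subtype
    have hincl : ∀ T T' : UT BA I, incl T = incl T' → T = T' := fun T T' h => Subtype.ext h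
    rw [eq_top_iff]
    intro T _
    have h1 : incl T ∈ H.map incl := by
      refine mem_of_simple hQ A hA hdet (H.map incl) ?_ (incl T) ?_
      · rintro T' θ hθ hθ1 ⟨P, α, i₀, ⟨Pu, rfl⟩, hP, hPT⟩
        obtain ⟨rθ, hrθ⟩ := htr θ
        obtain ⟨η, r, hri, hη1, hηr, hr2, hrb⟩ := exists_eta hQ (ε := min 1 (c₀ / (‖2 - rθ‖ + 1)))
          (lt_min one_pos (div_pos hc₀ (by positivity)))
          (Set.toFinite ({-2, 2, rθ} : Set F)) n
        have hη' : ∀ i, η i ≠ -1 := by
          intro i hi
          apply hrb i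
          have h1 := hηr i
          rw [hi, star_neg, star_one] at h1
          have h2 : algebraMap F L (-2) = algebraMap F L (r i) := by
            rw [← h1, map_neg, map_ofNat]; ring
          exact Or.inl ((algebraMap F L).injective h2).symm
        have hupd : ∀ (z : L) (rz : F), z * star z = 1 → z ≠ -1 → z + star z = algebraMap F L rz →
            (∀ i, r i ≠ rz) → ‖2 - rz‖ ≤ ‖2 - rθ‖ →
            ∃ hz : ∀ i, Function.update η i₀ z i * star (Function.update η i₀ z i) = 1,
              dU hQ hA hVA hAV hP BA (Function.update η i₀ z) hz ∈ R := by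
          intro z rz hz hz1 hzr hzi hz2
          have hz' : ∀ i, Function.update η i₀ z i * star (Function.update η i₀ z i) = 1 := by
            intro i
            by_cases hi : i = i₀
            · subst hi
              rw [Function.update_self]
              exact hz
            · rw [Function.update_of_ne hi]
              exact hη1 i
          refine ⟨hz', key2 hP _ hz' ?_ (Function.update r i₀ rz) ?_ ?_ ?_⟩
          · intro i
            by_cases hi : i = i₀
            · subst hi
              rw [Function.update_self]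
              exact hz1
            · rw [Function.update_of_ne hi]
              exact hη' i
          · intro i
            by_cases hi : i = i₀
            · subst hi
              rw [Function.update_self, Function.update_self]
              exact hzr
            · rw [Function.update_of_ne hi, Function.update_of_ne hi]
              exact hηr i
          · intro i j hij
            by_cases hi : i = i₀
            · by_cases hj : j = i₀
              · rw [hi, hj]
              · rw [hi, Function.update_self, Function.update_of_ne hj] at hij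
                exact absurd hij.symm (hzi j)
            · by_cases hj : j = i₀
              · rw [hj, Function.update_self, Function.update_of_ne hi] at hij
                exact absurd hij (hzi i)
              · rw [Function.update_of_ne hi, Function.update_of_ne hj] at hij
                exact hri hij
          · have h1 := prod_norm_le hn i₀ (x := fun i => 2 - Function.update r i₀ rz i)
              (δ := min 1 (c₀ / (‖2 - rθ‖ + 1))) (min_le_left _ _) fun i hi => by
                rw [Function.update_of_ne hi]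
                exact hr2 i
            refine h1.trans_lt ?_
            rw [Function.update_self]
            have hpos : 0 < ‖2 - rθ‖ + 1 := by positivity
            calc ‖2 - rz‖ * min 1 (c₀ / (‖2 - rθ‖ + 1))
                ≤ ‖2 - rθ‖ * (c₀ / (‖2 - rθ‖ + 1)) :=
                  mul_le_mul hz2 (min_le_right _ _) (le_min zero_le_one (by positivity))
                    (norm_nonneg _)
              _ < (‖2 - rθ‖ + 1) * (c₀ / (‖2 - rθ‖ + 1)) :=
                  mul_lt_mul_of_pos_right (by linarith) (div_pos hc₀ hpos)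
              _ = c₀ := mul_div_cancel₀ _ hpos.ne'
        obtain ⟨hz₁, hT₁⟩ := hupd θ rθ hθ hθ1 hrθ (fun i hi => hrb i (Or.inr (Or.inr hi))) le_rfl
        obtain ⟨hz₂, hT₂⟩ := hupd 1 2 (by rw [star_one, one_mul]) (by
            intro h
            have h3 : (2 : L) = 0 := by linear_combination h
            exact two_ne_zero h3) (by rw [star_one, map_ofNat]; norm_num)
          (fun i hi => hrb i (Or.inr (Or.inl hi))) (by rw [sub_self, norm_zero]; positivity)
        refine ⟨_, hH _ hT₁ _ hT₂, ?_⟩
        change (Pu⁻¹ * dg _ hz₁ * Pu) * (Pu⁻¹ * dg _ hz₂ * Pu)⁻¹ = T'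
        have h2 : (Pu⁻¹ * dg _ hz₁ * Pu) * (Pu⁻¹ * dg _ hz₂ * Pu)⁻¹ =
            Pu⁻¹ * (dg _ hz₁ * (dg _ hz₂)⁻¹) * Pu := by group
        rw [h2]
        apply Units.ext
        have h3 : ((Pu⁻¹ * (dg _ hz₁ * (dg _ hz₂)⁻¹) * Pu : (Matrix (Fin n) (Fin n) L)ˣ) :
            Matrix (Fin n) (Fin n) L) = ((Pu⁻¹ : (Matrix (Fin n) (Fin n) L)ˣ) :
              Matrix (Fin n) (Fin n) L) *
              (diagonal (Function.update η i₀ θ) *
                diagonal (fun i => star (Function.update η i₀ 1 i))) * Pu := rfl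
        have h4 : diagonal (Function.update η i₀ θ) *
                diagonal (fun i => star (Function.update η i₀ (1 : L) i)) =
                diagonal (Function.update (1 : Fin n → L) i₀ θ) := by
          rw [diagonal_mul_diagonal]
          congr 1
          funext i
          by_cases hi : i = i₀
          · subst hi
            rw [Function.update_self, Function.update_self, Function.update_self, star_one,
              mul_one]
          · rw [Function.update_of_ne hi, Function.update_of_ne hi, Function.update_of_ne hi]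
            exact hη1 i
        rw [h3, h4, mul_assoc, ← hPT, ← mul_assoc, Pu.inv_mul, one_mul]
      · exact (mem_invM hQ hA hVA hAV).mp T.2
    obtain ⟨h, hhH, hh⟩ := h1
    rw [← hincl h T hh]
    exact hhH
  · intro T hT O hO
    obtain ⟨b, δ, hδ, hb⟩ := app_nhds BA f I hI B hf hspan T hT.2 hO
    choose x hx using fun j => hdense (b j) (δ / 2) (half_pos hδ)
    refine ⟨x, δ / 2, half_pos hδ, fun β hβ => hb β fun j => ?_⟩
    have e1 : algebraMap k F (B.repr β j) - b j =
        algebraMap k F (B.repr β j - x j) + (algebraMap k F (x j) - b j) := by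
      rw [map_sub]; ring
    rw [e1]
    refine (norm_add_le _ _).trans_lt ?_
    have e2 := hβ j
    rw [← hnorm] at e2
    have e3 := hx j
    linarith

end mk

end Vale.Agent.P011.Two
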