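import Vale.Agent.P011.Even.LocFin
import Vale.Agent.P011.Even.GNorm

/-!
Sequences in an algebra over a number field which converge in the completion of the algebra at a
finite place.
-/

open NumberField IsDedekindDomain TensorProduct Filter Topology

set_option linter.unusedSectionVars false

namespace Vale.Agent.P011.Two

open Vale.Agent.P011.Arith Vale.Agent.P011.Even

variable {k D : Type} [Field k] [NumberField k] [DivisionRing D] [Algebra k D] {N : ℕ}
  (B : Module.Basis (Fin N) k D) (v : HeightOneSpectrum (𝓞 k))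

/-- The coordinates in the completion. -/
noncomputable def cof (X : v.adicCompletion k ⊗[k] D) (i : Fin N) : v.adicCompletion k :=
  (Algebra.TensorProduct.basis (v.adicCompletion k) B).repr X i

/-- The sequence `x` converges to `X`. -/
def Cv (x : ℕ → D) (X : v.adicCompletion k ⊗[k] D) : Prop :=
  ∀ i, Tendsto (fun j => algebraMap k (v.adicCompletion k) (B.repr (x j) i)) atTop
    (𝓝 (cof B v X i))

theorem cof_tmul (x : D) (i : Fin N) :
    cof B v (1 ⊗ₜ x) i = algebraMap k (v.adicCompletion k) (B.repr x i) := by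
  rw [cof, Algebra.TensorProduct.basis_repr_tmul, Finsupp.smul_apply, Finsupp.mapRange_apply,
    one_smul]

theorem cof_ext {X Y : v.adicCompletion k ⊗[k] D} (h : ∀ i, cof B v X i = cof B v Y i) : X = Y :=
  (Algebra.TensorProduct.basis (v.adicCompletion k) B).repr.injective (Finsupp.ext h)

theorem Cv.unique {x : ℕ → D} {X Y : v.adicCompletion k ⊗[k] D} (h : Cv B v x X)
    (h' : Cv B v x Y) : X = Y :=
  cof_ext B v fun i => tendsto_nhds_unique (h i) (h' i)

theorem Cv.const (x : D) : Cv B v (fun _ => x) (1 ⊗ₜ x) := by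
  intro i
  rw [cof_tmul]
  exact tendsto_const_nhds

variable {B v}

theorem Cv.add {x y : ℕ → D} {X Y : v.adicCompletion k ⊗[k] D} (hx : Cv B v x X)
    (hy : Cv B v y Y) : Cv B v (fun j => x j + y j) (X + Y) := by
  intro i
  have h := (hx i).add (hy i)
  simp only [cof, map_add, Finsupp.add_apply] at h ⊢
  exact h

theorem Cv.neg {x : ℕ → D} {X : v.adicCompletion k ⊗[k] D} (hx : Cv B v x X) :
    Cv B v (fun j => -x j) (-X) := by
  intro i
  have h := (hx i).neg
  simp only [cof, map_neg, Finsupp.neg_apply] at h ⊢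
  exact h

theorem Cv.sub {x y : ℕ → D} {X Y : v.adicCompletion k ⊗[k] D} (hx : Cv B v x X)
    (hy : Cv B v y Y) : Cv B v (fun j => x j - y j) (X - Y) := by
  intro i
  have h := (hx i).sub (hy i)
  simp only [cof, map_sub, Finsupp.sub_apply] at h ⊢
  exact h

theorem exp_tensor (X : v.adicCompletion k ⊗[k] D) :
    X = ∑ i, cof B v X i ⊗ₜ[k] B i := by
  conv_lhs => rw [← (Algebra.TensorProduct.basis (v.adicCompletion k) B).sum_repr X]
  refine Finset.sum_congr rfl fun i _ => ?_
  rw [Algebra.TensorProduct.basis_apply, TensorProduct.smul_tmul', smul_eq_mul, mul_one]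
  rfl

theorem cof_smul (a : v.adicCompletion k) (X : v.adicCompletion k ⊗[k] D) (i : Fin N) :
    cof B v (a • X) i = a * cof B v X i := by
  rw [cof, map_smul, Finsupp.smul_apply, smul_eq_mul, cof]

theorem cof_sum {ι : Type} (s : Finset ι) (f : ι → v.adicCompletion k ⊗[k] D) (i : Fin N) :
    cof B v (∑ a ∈ s, f a) i = ∑ a ∈ s, cof B v (f a) i := by
  rw [cof, map_sum, Finsupp.finsetSum_apply]
  rfl

/-- linear maps -/
theorem Cv.linear (f : D →ₗ[k] D) {x : ℕ → D} {X : v.adicCompletion k ⊗[k] D}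
    (hx : Cv B v x X) : Cv B v (fun j => f (x j)) (f.baseChange (v.adicCompletion k) X) := by
  intro i
  have h1 : ∀ X : v.adicCompletion k ⊗[k] D, cof B v (f.baseChange (v.adicCompletion k) X) i =
      ∑ a, cof B v X a * algebraMap k (v.adicCompletion k) (B.repr (f (B a)) i) := by
    intro X
    conv_lhs => rw [exp_tensor (B := B) X]
    rw [map_sum, cof_sum]
    refine Finset.sum_congr rfl fun a _ => ?_
    rw [LinearMap.baseChange_tmul, ← mul_one (cof B v X a), ← smul_eq_mul,
      ← TensorProduct.smul_tmul', cof_smul, cof_tmul, smul_eq_mul, mul_one]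
  have h2 : ∀ y : D, algebraMap k (v.adicCompletion k) (B.repr (f y) i) =
      ∑ a, algebraMap k (v.adicCompletion k) (B.repr y a) *
        algebraMap k (v.adicCompletion k) (B.repr (f (B a)) i) := by
    intro y
    rw [← cof_tmul B v (f y) i, ← LinearMap.baseChange_tmul, h1]
    exact Finset.sum_congr rfl fun a _ => by rw [cof_tmul]
  rw [h1, show (fun j => algebraMap k (v.adicCompletion k) (B.repr (f (x j)) i)) = _ from
    funext fun j => h2 (x j)]
  exact tendsto_finsetSum _ fun a _ => (hx a).mul tendsto_const_nhds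

theorem cof_mul (X Y : v.adicCompletion k ⊗[k] D) (i : Fin N) : cof B v (X * Y) i =
    ∑ a, ∑ b, cof B v X a * cof B v Y b *
      algebraMap k (v.adicCompletion k) (B.repr (B a * B b) i) := by
  conv_lhs => rw [exp_tensor (B := B) X, exp_tensor (B := B) Y]
  rw [Finset.sum_mul, cof_sum]
  refine Finset.sum_congr rfl fun a _ => ?_
  rw [Finset.mul_sum, cof_sum]
  refine Finset.sum_congr rfl fun b _ => ?_
  rw [Algebra.TensorProduct.tmul_mul_tmul, ← mul_one (cof B v X a * cof B v Y b),
    ← smul_eq_mul (cof B v X a * cof B v Y b), ← TensorProduct.smul_tmul', cof_smul, cof_tmul,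
    smul_eq_mul, mul_one]

/-- products -/
theorem Cv.mul {x y : ℕ → D} {X Y : v.adicCompletion k ⊗[k] D} (hx : Cv B v x X)
    (hy : Cv B v y Y) : Cv B v (fun j => x j * y j) (X * Y) := by
  intro i
  have h2 : ∀ z w : D, algebraMap k (v.adicCompletion k) (B.repr (z * w) i) =
      ∑ a, ∑ b, algebraMap k (v.adicCompletion k) (B.repr z a) *
        algebraMap k (v.adicCompletion k) (B.repr w b) *
        algebraMap k (v.adicCompletion k) (B.repr (B a * B b) i) := by
    intro z w
    have h3 : (1 : v.adicCompletion k) ⊗ₜ[k] (z * w) = (1 ⊗ₜ z) * (1 ⊗ₜ w) := by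
      rw [Algebra.TensorProduct.tmul_mul_tmul, one_mul]
    rw [← cof_tmul B v (z * w) i, h3, cof_mul]
    exact Finset.sum_congr rfl fun a _ => Finset.sum_congr rfl fun b _ => by
      rw [cof_tmul, cof_tmul]
  rw [cof_mul, show (fun j => algebraMap k (v.adicCompletion k) (B.repr (x j * y j) i)) = _ from
    funext fun j => h2 (x j) (y j)]
  exact tendsto_finsetSum _ fun a _ => tendsto_finsetSum _ fun b _ =>
    ((hx a).mul (hy b)).mul tendsto_const_nhds

theorem Cv.congr {x y : ℕ → D} {X : v.adicCompletion k ⊗[k] D} (hx : Cv B v x X)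
    (h : ∀ j, x j = y j) : Cv B v y X := by
  rwa [show y = x from funext fun j => (h j).symm]

/-- Scalars. -/
theorem Cv.alg {a : ℕ → k} {α : v.adicCompletion k}
    (ha : Tendsto (fun j => algebraMap k (v.adicCompletion k) (a j)) atTop (𝓝 α)) :
    Cv B v (fun j => algebraMap k D (a j)) (algebraMap (v.adicCompletion k) _ α) := by
  intro i
  have h1 : ∀ c : v.adicCompletion k, algebraMap (v.adicCompletion k) (v.adicCompletion k ⊗[k] D) c
      = c • (1 ⊗ₜ (1 : D)) := by
    intro c
    rw [Algebra.algebraMap_eq_smul_one]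
    rfl
  have h2 : ∀ c : k, algebraMap k D c = c • (1 : D) := fun c => Algebra.algebraMap_eq_smul_one c
  simp only [h1, cof_smul, cof_tmul, h2, map_smul, Finsupp.smul_apply, smul_eq_mul, map_mul]
  exact ha.mul tendsto_const_nhds

/-- Every element is a limit. -/
theorem exists_Cv (B : Module.Basis (Fin N) k D) (v : HeightOneSpectrum (𝓞 k))
    (X : v.adicCompletion k ⊗[k] D) : ∃ x : ℕ → D, Cv B v x X := by
  have h : ∀ j : ℕ, ∀ i : Fin N, ∃ y : k,
      ‖cof B v X i - algebraMap k _ y‖ < 1 / ((j : ℝ) + 1) := fun j i =>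
    dense v _ _ (by positivity)
  choose y hy using h
  refine ⟨fun j => ∑ i, y j i • B i, fun i => ?_⟩
  have h1 : ∀ j, B.repr (∑ i, y j i • B i) i = y j i := fun j => by rw [B.repr_sum_self]
  simp only [h1]
  rw [tendsto_iff_dist_tendsto_zero]
  refine squeeze_zero (fun _ => dist_nonneg) (fun j => ?_) tendsto_one_div_add_atTop_nhds_zero_nat
  rw [dist_comm, dist_eq_norm]
  exact (hy j i).le

theorem exists_seq (v : HeightOneSpectrum (𝓞 k)) (α : v.adicCompletion k) :
    ∃ a : ℕ → k, Tendsto (fun j => algebraMap k (v.adicCompletion k) (a j)) atTop (𝓝 α) := by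
  choose y hy using fun j : ℕ => dense v α (1 / ((j : ℝ) + 1)) (by positivity)
  refine ⟨y, ?_⟩
  rw [tendsto_iff_dist_tendsto_zero]
  refine squeeze_zero (fun _ => dist_nonneg) (fun j => ?_) tendsto_one_div_add_atTop_nhds_zero_nat
  rw [dist_comm, dist_eq_norm]
  exact (hy j).le

theorem plAbv_norm (v : HeightOneSpectrum (𝓞 k)) (a : k) :
    plAbv (.inl v) a = ‖algebraMap k (v.adicCompletion k) a‖ := by
  rw [norm_eq, valued_alg]
  rfl

/-- Convergence to zero in terms of sizes. -/
theorem Cv.size {x : ℕ → D} {X : D} (hx : Cv B v x (1 ⊗ₜ X)) :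
    Tendsto (fun j => nm B (Sum.inl v) (x j - X)) atTop (𝓝 0) := by
  have h1 : ∀ j, nm B (Sum.inl v) (x j - X) =
      ∑ i, ‖algebraMap k (v.adicCompletion k) (B.repr (x j) i) - cof B v (1 ⊗ₜ X) i‖ := by
    intro j
    refine Finset.sum_congr rfl fun i _ => ?_
    rw [plAbv_norm, cof_tmul, ← map_sub, map_sub, Finsupp.sub_apply]
  simp only [h1]
  have h2 : (0 : ℝ) = ∑ i : Fin N, (0 : ℝ) := by simp
  rw [h2]
  exact tendsto_finsetSum _ fun i _ => by
    have := ((hx i).sub_const (cof B v (1 ⊗ₜ X) i)).norm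
    rwa [sub_self, norm_zero] at this

/-- Eventually different from the elements different from the limit. -/
theorem Cv.ne {x : ℕ → D} {X : v.adicCompletion k ⊗[k] D} (hx : Cv B v x X) {y : D}
    (hy : X ≠ 1 ⊗ₜ y) : ∀ᶠ j in atTop, x j ≠ y := by
  obtain ⟨i, hi⟩ : ∃ i, cof B v X i ≠ cof B v (1 ⊗ₜ y) i := by
    by_contra hcon
    push Not at hcon
    exact hy (cof_ext B v hcon)
  filter_upwards [(hx i).eventually_ne hi] with j hj h
  apply hj
  rw [h, cof_tmul]

/-- The size of an element of the completed algebra. -/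
noncomputable def szA (B : Module.Basis (Fin N) k D) (v : HeightOneSpectrum (𝓞 k))
    (X : v.adicCompletion k ⊗[k] D) : ℝ := ∑ i, ‖cof B v X i‖

theorem szA_nonneg (X : v.adicCompletion k ⊗[k] D) : 0 ≤ szA B v X :=
  Finset.sum_nonneg fun _ _ => norm_nonneg _

theorem szA_add (X Y : v.adicCompletion k ⊗[k] D) : szA B v (X + Y) ≤ szA B v X + szA B v Y := by
  rw [szA, szA, szA, ← Finset.sum_add_distrib]
  refine Finset.sum_le_sum fun i _ => ?_
  rw [cof, map_add, Finsupp.add_apply]
  exact norm_add_le _ _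

theorem szA_coord (X : v.adicCompletion k ⊗[k] D) (i : Fin N) : ‖cof B v X i‖ ≤ szA B v X :=
  Finset.single_le_sum (f := fun i => ‖cof B v X i‖) (fun _ _ => norm_nonneg _) (Finset.mem_univ i)

theorem szA_mul (B : Module.Basis (Fin N) k D) (v : HeightOneSpectrum (𝓞 k)) :
    ∃ C : ℝ, 0 < C ∧ ∀ X Y : v.adicCompletion k ⊗[k] D,
      szA B v (X * Y) ≤ C * szA B v X * szA B v Y := by
  let c : Fin N → Fin N → Fin N → ℝ := fun a b i =>
    ‖algebraMap k (v.adicCompletion k) (B.repr (B a * B b) i)‖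
  have hc : ∀ a b i, 0 ≤ c a b i := fun a b i => norm_nonneg _
  refine ⟨(∑ i, ∑ a, ∑ b, c a b i) + 1, ?_, fun X Y => ?_⟩
  · have : 0 ≤ ∑ i, ∑ a, ∑ b, c a b i := Finset.sum_nonneg fun i _ => Finset.sum_nonneg fun a _ =>
      Finset.sum_nonneg fun b _ => hc a b i
    linarith
  · have hX := szA_nonneg (B := B) X
    have hY := szA_nonneg (B := B) Y
    have h1 : ∀ i, ‖cof B v (X * Y) i‖ ≤ ∑ a, ∑ b, c a b i * (szA B v X * szA B v Y) := by
      intro i
      rw [cof_mul]
      refine (norm_sum_le _ _).trans (Finset.sum_le_sum fun a _ => ?_)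
      refine (norm_sum_le _ _).trans (Finset.sum_le_sum fun b _ => ?_)
      rw [norm_mul, norm_mul, mul_comm]
      refine mul_le_mul_of_nonneg_left ?_ (norm_nonneg _)
      exact mul_le_mul (szA_coord _ _) (szA_coord _ _) (norm_nonneg _) hX
    calc szA B v (X * Y) ≤ ∑ i, ∑ a, ∑ b, c a b i * (szA B v X * szA B v Y) :=
          Finset.sum_le_sum fun i _ => h1 i
      _ = (∑ i, ∑ a, ∑ b, c a b i) * (szA B v X * szA B v Y) := by
          simp only [← Finset.sum_mul]
      _ ≤ ((∑ i, ∑ a, ∑ b, c a b i) + 1) * (szA B v X * szA B v Y) := by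
          refine mul_le_mul_of_nonneg_right ?_ (mul_nonneg hX hY)
          linarith
      _ = _ := by ring

/-- inverses -/
theorem Cv.inv {x : ℕ → D} {X Λ : v.adicCompletion k ⊗[k] D} (hx : Cv B v x X)
    (h : X * Λ = 1) (hne : ∀ᶠ j in atTop, x j ≠ 0) : Cv B v (fun j => (x j)⁻¹) Λ := by
  obtain ⟨C, hC, hCm⟩ := szA_mul B v
  let y : ℕ → v.adicCompletion k ⊗[k] D := fun j => 1 ⊗ₜ (x j)⁻¹
  let ε : ℕ → ℝ := fun j => C * (C * szA B v (X - 1 ⊗ₜ x j)) * szA B v Λ
  have hε0 : Tendsto (fun j => szA B v (X - 1 ⊗ₜ x j)) atTop (𝓝 0) := by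
    have h2 : (0 : ℝ) = ∑ i : Fin N, (0 : ℝ) := by simp
    rw [h2]
    refine tendsto_finsetSum _ fun i _ => ?_
    have h3 := ((hx i).const_sub (cof B v X i)).norm
    rw [sub_self, norm_zero] at h3
    refine h3.congr fun j => ?_
    rw [← cof_tmul, cof, cof, cof, map_sub, Finsupp.sub_apply]
  have hε : Tendsto ε atTop (𝓝 0) := by
    have := ((hε0.const_mul C).const_mul C).mul_const (szA B v Λ)
    rwa [mul_zero, mul_zero, zero_mul] at this
  have hkey : ∀ᶠ j in atTop, szA B v (y j - Λ) ≤ 2 * (ε j * szA B v Λ) := by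
    filter_upwards [hne, hε.eventually (Iic_mem_nhds (show (0 : ℝ) < 1 / 2 by norm_num))] with
      j hj hj2
    have e1 : y j - Λ = y j * ((X - 1 ⊗ₜ x j) * Λ) := by
      have h4 : y j * (1 ⊗ₜ x j) = 1 := by
        change (1 ⊗ₜ (x j)⁻¹) * (1 ⊗ₜ x j) = _
        rw [Algebra.TensorProduct.tmul_mul_tmul, one_mul, inv_mul_cancel₀ hj]
        rfl
      rw [sub_mul, h, mul_sub, mul_one, ← mul_assoc, h4, one_mul]
    have h5 : szA B v (y j - Λ) ≤ ε j * szA B v (y j) := by
      rw [e1]
      refine (hCm _ _).trans ?_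
      have h6 := hCm (X - 1 ⊗ₜ x j) Λ
      calc C * szA B v (y j) * szA B v ((X - 1 ⊗ₜ x j) * Λ)
          ≤ C * szA B v (y j) * (C * szA B v (X - 1 ⊗ₜ x j) * szA B v Λ) :=
            mul_le_mul_of_nonneg_left h6 (mul_nonneg hC.le (szA_nonneg _))
        _ = ε j * szA B v (y j) := by
            change _ = C * (C * szA B v (X - 1 ⊗ₜ x j)) * szA B v Λ * szA B v (y j)
            ring
    have h7 : szA B v (y j) ≤ szA B v Λ + szA B v (y j - Λ) := by
      have := szA_add (B := B) Λ (y j - Λ)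
      rwa [add_sub_cancel] at this
    have h8 : ε j ≤ 1 / 2 := hj2
    have h9 : 0 ≤ ε j := by
      have h10 := szA_nonneg (B := B) (X - 1 ⊗ₜ x j)
      have h11 := szA_nonneg (B := B) Λ
      change 0 ≤ C * (C * szA B v (X - 1 ⊗ₜ x j)) * szA B v Λ
      positivity
    have h12 := szA_nonneg (B := B) (y j - Λ)
    nlinarith
  intro i
  rw [tendsto_iff_dist_tendsto_zero]
  have h13 : Tendsto (fun j => 2 * (ε j * szA B v Λ)) atTop (𝓝 0) := by
    have := (hε.mul_const (szA B v Λ)).const_mul 2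
    rwa [zero_mul, mul_zero] at this
  refine squeeze_zero' (Eventually.of_forall fun _ => dist_nonneg) ?_ h13
  filter_upwards [hkey] with j hj
  refine le_trans ?_ hj
  refine le_trans ?_ (szA_coord (B := B) (y j - Λ) i)
  rw [dist_eq_norm, ← cof_tmul, cof, cof, cof, map_sub, Finsupp.sub_apply]

end Vale.Agent.P011.Two
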