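import Vale.Agent.P011.Two.Comm

/-!
# P011, rank two: the theorem for the unitary group of a form on `D × D`

The inputs `TransStmt` (2T) and `MatchedStmt` (2G) are the statements of the other blocks.
-/

open NumberField IsDedekindDomain Module

set_option linter.unusedSectionVars false

namespace Vale.Agent.P011.Two

open Vale.Agent.P011.Arith Vale.Agent.P011.Even Vale.Agent.P011.MPQ

/-- The statement of block 2T. -/
def TransStmt : Prop :=
  ∀ (k K D : Type) [Field k] [NumberField k] [Field K] [StarRing K]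
    [DivisionRing D] [StarRing D] [Algebra k K] [Algebra k D] [Algebra K D] [IsScalarTower k K D]
    (d : kˣ) (s : K) (_ : Setting k K D d s) (n : ℕ) (_ : 2 ≤ n) (_ : finrank K D = n ^ 2)
    (g : D) (_ : star g = g) (_ : An g) (e : ℕ) (_ : 0 < e)
    (N : Subgroup ((D × D) ≃ₗ[D] (D × D))) (_ : ∀ v ∈ Uh g, ∀ x ∈ N, v * x * v⁻¹ ∈ N)
    (_ : HQ d s g e N) (y : D × D) (_ : hh g y y = 1),
    ∃ u ∈ N, ∃ δ : D, δ ≠ 0 ∧ u e₁ = δ • y

/-- The statement of block 2G. -/
def MatchedStmt : Prop :=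
  ∀ (k K D : Type) [Field k] [NumberField k] [Field K] [StarRing K]
    [DivisionRing D] [StarRing D] [Algebra k K] [Algebra k D] [Algebra K D] [IsScalarTower k K D]
    (d : kˣ) (s : K) (_ : Setting k K D d s) (n : ℕ) (_ : 2 ≤ n) (_ : finrank K D = n ^ 2)
    (g : D) (_ : star g = g) (_ : An g) (e : ℕ) (_ : 0 < e)
    (N : Subgroup ((D × D) ≃ₗ[D] (D × D))) (_ : HQ d s g e N) (t : D) (_ : t * star t = 1),
    ∃ t' : D, ∃ u ∈ N, IsDiag t t' u

section twist

variable {D : Type} [DivisionRing D] [StarRing D] {g : D}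

/-- The twisted involution. -/
@[reducible] def twistStar (hg : star g = g) (hg0 : g ≠ 0) : StarRing D where
  star y := g * star y * g⁻¹
  star_involutive y := by
    change g * star (g * star y * g⁻¹) * g⁻¹ = y
    rw [star_mul, star_mul, star_star, star_inv₀, hg]
    calc g * (g⁻¹ * (y * g)) * g⁻¹ = (g * g⁻¹) * y * (g * g⁻¹) := by noncomm_ring
      _ = y := by rw [mul_inv_cancel₀ hg0, one_mul, mul_one]
  star_mul x y := by
    change g * star (x * y) * g⁻¹ = (g * star y * g⁻¹) * (g * star x * g⁻¹)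
    rw [star_mul]
    calc g * (star y * star x) * g⁻¹ = g * star y * 1 * star x * g⁻¹ := by noncomm_ring
      _ = g * star y * (g⁻¹ * g) * star x * g⁻¹ := by rw [inv_mul_cancel₀ hg0]
      _ = _ := by noncomm_ring
  star_add x y := by
    change g * star (x + y) * g⁻¹ = g * star x * g⁻¹ + g * star y * g⁻¹
    rw [star_add]
    noncomm_ring

/-- The swap. -/
def sw (D : Type) [DivisionRing D] : (D × D) ≃ₗ[D] (D × D) := LinearEquiv.prodComm D D D

theorem sw_apply (x : D × D) : sw D x = (x.2, x.1) := rfl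

theorem sw_mul : sw D * sw D = 1 := rfl

theorem sw_inv : (sw D)⁻¹ = sw D := rfl

theorem sw_sw (x : D × D) : sw D (sw D x) = x := rfl

theorem hh_twist (hg : star g = g) (hg0 : g ≠ 0) (x y : D × D) :
    @hh D _ (twistStar hg hg0) g⁻¹ x y = hh g (sw D x) (sw D y) * g⁻¹ := by
  change x.1 * (g * star y.1 * g⁻¹) + x.2 * g⁻¹ * (g * star y.2 * g⁻¹) =
    (x.2 * star y.2 + x.1 * g * star y.1) * g⁻¹
  have : x.2 * g⁻¹ * (g * star y.2 * g⁻¹) = x.2 * star y.2 * g⁻¹ := by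
    calc x.2 * g⁻¹ * (g * star y.2 * g⁻¹) = x.2 * (g⁻¹ * g) * star y.2 * g⁻¹ := by noncomm_ring
      _ = _ := by rw [inv_mul_cancel₀ hg0, mul_one]
  rw [this]
  noncomm_ring

theorem mem_Uh_twist (hg : star g = g) (hg0 : g ≠ 0) (u : (D × D) ≃ₗ[D] (D × D)) :
    u ∈ @Uh D _ (twistStar hg hg0) g⁻¹ ↔ sw D * u * sw D ∈ Uh g := by
  have hgi : g⁻¹ ≠ 0 := inv_ne_zero hg0
  constructor
  · intro h x y
    have := h (sw D x) (sw D y)
    rw [hh_twist hg hg0, hh_twist hg hg0, sw_sw, sw_sw] at this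
    exact mul_right_cancel₀ hgi this
  · intro h x y
    have := h (sw D x) (sw D y)
    change hh g (sw D (u x)) (sw D (u y)) = _ at this
    rw [hh_twist hg hg0, hh_twist hg hg0, this]

theorem an_twist (hg : star g = g) (hg0 : g ≠ 0) (han : An g) :
    @An D _ (twistStar hg hg0) g⁻¹ := by
  intro x hx
  rw [hh_twist hg hg0] at hx
  have h := han _ ((mul_eq_zero.mp hx).resolve_right (inv_ne_zero hg0))
  have h2 := congrArg (sw D) h
  rwa [sw_sw, map_zero] at h2

theorem star_inv_twist (hg : star g = g) (hg0 : g ≠ 0) :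
    @star D (twistStar hg hg0).toStar g⁻¹ = g⁻¹ := by
  change g * star g⁻¹ * g⁻¹ = g⁻¹
  rw [star_inv₀, hg, mul_inv_cancel₀ hg0, one_mul]

end twist

variable {k K D : Type} [Field k] [NumberField k] [Field K] [StarRing K]
  [DivisionRing D] [StarRing D] [Algebra k K] [Algebra k D] [Algebra K D] [IsScalarTower k K D]
  {d : kˣ} {s : K}

theorem setting_twist (hS : Setting k K D d s) {g : D} (hg : star g = g) (hg0 : g ≠ 0) :
    @Setting k K D _ _ _ _ (twistStar hg hg0) _ _ d s := by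
  refine @Setting.mk k K D _ _ _ _ (twistStar hg hg0) _ _ d s hS.sq hS.star_s hS.ns hS.fix
    hS.rank hS.fin hS.cen ?_
  intro x y
  change g * star (x • y) * g⁻¹ = star x • (g * star y * g⁻¹)
  rw [hS.star_smul, mul_smul_comm, smul_mul_assoc]

/-- The elements of norm one of the quaternion algebras attached to planes: the condition does
not mention the involution. -/
def PlaneIn (d : kˣ) (s : K) (U G₀ : Subgroup ((D × D) ≃ₗ[D] (D × D))) : Prop :=
  ∀ (F : Type) [Field F] [NumberField F] [Algebra k F] (ι : F →ₐ[k] D) (b : Fˣ)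
    (p₀ p₁ q₀ q₁ : F) (y w : D × D) (u : (D × D) ≃ₗ[D] (D × D)),
    (∀ x, ∃ a c : D, x = a • y + c • w) →
    p₀ ^ 2 - algebraMap k F d * p₁ ^ 2 + b * (q₀ ^ 2 - algebraMap k F d * q₁ ^ 2) = 1 →
    u y = (ι p₀ + ι p₁ * algebraMap K D s) • y + (ι q₀ + ι q₁ * algebraMap K D s) • w →
    u w = (-(ι b * (ι q₀ - ι q₁ * algebraMap K D s))) • y +
      (ι p₀ - ι p₁ * algebraMap K D s) • w → u ∈ U → u ∈ G₀

theorem planeElt_spans {g : D} (hg : star g = g) (han : An g) {F : Type} [Field F]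
    [NumberField F] [Algebra k F] {ι : F →ₐ[k] D} {b : Fˣ} {p₀ p₁ q₀ q₁ : F} {y w : D × D}
    {u : (D × D) ≃ₗ[D] (D × D)} (h : PlaneElt d s g ι b p₀ p₁ q₀ q₁ y w u) :
    ∀ x, ∃ a c : D, x = a • y + c • w := by
  have hy : y ≠ 0 := by
    rintro rfl
    have := h.yy
    simp [hh] at this
  have hw : w ≠ 0 := by
    rintro rfl
    have h0 : ι (b : F) ≠ 0 := by
      rw [ne_eq, map_eq_zero]
      exact b.ne_zero
    apply h0
    rw [← h.ww]
    simp [hh]
  obtain ⟨E, hE⟩ := exists_basis hg han hy hw h.yw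
  intro x
  obtain ⟨⟨a, c⟩, rfl⟩ := E.surjective x
  exact ⟨a, c, hE a c⟩

/-- The theorem in rank two, modulo the blocks 2T and 2G and the theorem for quaternions. -/
theorem main_two (hM : MPQStatement) (hT : TransStmt) (hG2 : MatchedStmt)
    (hS : Setting k K D d s) {n : ℕ} (hn : 2 ≤ n) (hdeg : finrank K D = n ^ 2)
    {g : D} (hg : star g = g) (han : An g) (G₀ N₀ : Subgroup ((D × D) ≃ₗ[D] (D × D)))
    (hGp : PlaneIn d s (Uh g) G₀) (hG : G₀ ≤ Uh g) (hN : N₀ ≤ G₀)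
    (hNn : ∀ v ∈ G₀, ∀ x ∈ N₀, v * x * v⁻¹ ∈ N₀) (hfin : N₀.relIndex G₀ ≠ 0) :
    ∀ u ∈ Uh g, ∀ v ∈ Uh g, u * v * u⁻¹ * v⁻¹ ∈ N₀ := by
  have hg0 : g ≠ 0 := by
    rintro rfl
    have := han (0, 1) (by simp [hh])
    simp at this
  set e := N₀.relIndex G₀ with he
  have he0 : 0 < e := Nat.pos_of_ne_zero hfin
  have hNn' : (N₀.subgroupOf G₀).Normal := by
    refine ⟨fun a ha b => ?_⟩
    rw [Subgroup.mem_subgroupOf] at ha ⊢
    exact hNn b b.2 a ha
  have hexp : ∀ x ∈ G₀, x ^ e ∈ N₀ := by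
    intro x hx
    have h := Subgroup.pow_index_mem (N₀.subgroupOf G₀) (⟨x, hx⟩ : G₀)
    rw [Subgroup.mem_subgroupOf] at h
    exact h
  -- the core
  set N := coreOf (Uh g) N₀ with hNdef
  have hHQ : HQ d s g e N := hq_coreOf hM hS hg han G₀ N₀
    (fun F _ _ _ ι b p₀ p₁ q₀ q₁ y w u hu => hGp F ι b p₀ p₁ q₀ q₁ y w u
      (planeElt_spans hg han hu) hu.nrm hu.uy hu.uw (planeElt_mem hS hg han hu)) hNn hfin e he0 hexp
  have hNU : N ≤ Uh g := (coreOf_le _ _).trans (hN.trans hG)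
  -- the twisted form
  let φ : ((D × D) ≃ₗ[D] (D × D)) ≃* ((D × D) ≃ₗ[D] (D × D)) := MulAut.conj (sw D)
  have hφ : ∀ u, φ u = sw D * u * sw D := fun u => rfl
  have hφφ : ∀ u, φ (φ u) = u := by
    intro u
    ext1 x
    rfl
  set G₀' := G₀.comap φ.toMonoidHom with hG₀'
  set N₀' := N₀.comap φ.toMonoidHom with hN₀'
  have hmG : ∀ u, u ∈ G₀' ↔ φ u ∈ G₀ := fun u => Iff.rfl
  have hmN : ∀ u, u ∈ N₀' ↔ φ u ∈ N₀ := fun u => Iff.rfl
  have hNn'' : ∀ v ∈ G₀', ∀ x ∈ N₀', v * x * v⁻¹ ∈ N₀' := by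
    intro v hv x hx
    rw [hmN, map_mul, map_mul, map_inv]
    exact hNn _ hv _ hx
  have hfin' : N₀'.relIndex G₀' ≠ 0 := by
    rw [hN₀', hG₀', Subgroup.relIndex_comap, Subgroup.map_comap_eq_self_of_surjective φ.surjective]
    exact hfin
  have hexp' : ∀ x ∈ G₀', x ^ e ∈ N₀' := by
    intro x hx
    rw [hmN, map_pow]
    exact hexp _ hx
  have hgi := star_inv_twist hg hg0
  have han' := an_twist hg hg0 han
  have hS' := setting_twist hS hg hg0
  have hHQ' : @HQ k K D _ _ _ (twistStar hg hg0) _ _ d s g⁻¹ e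
      (coreOf (@Uh D _ (twistStar hg hg0) g⁻¹) N₀') := by
    refine @hq_coreOf k K D _ _ _ _ _ (twistStar hg hg0) _ _ _ _ d s hM hS' g⁻¹ hgi han'
      G₀' N₀' ?_ hNn'' hfin' e he0 hexp'
    intro F _ _ _ ι b p₀ p₁ q₀ q₁ y w u hu
    rw [hmG]
    have hmem := @planeElt_mem k K D _ _ _ _ _ (twistStar hg hg0) _ _ _ _ d s hS' g⁻¹ hgi han'
      F _ _ _ ι b p₀ p₁ q₀ q₁ y w u hu
    have hspan := @planeElt_spans k K D _ _ _ _ _ (twistStar hg hg0) _ _ _ _ d s g⁻¹ hgi han'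
      F _ _ _ ι b p₀ p₁ q₀ q₁ y w u hu
    obtain ⟨hsym, hyy, hyw, hww, hnrm, huy, huw⟩ := hu
    refine hGp F ι b p₀ p₁ q₀ q₁ (sw D y) (sw D w) (φ u) ?_ hnrm ?_ ?_ ?_
    · intro x
      obtain ⟨a, c, h⟩ := hspan (sw D x)
      refine ⟨a, c, ?_⟩
      rw [← map_smul, ← map_smul, ← map_add, ← h, sw_sw]
    · change sw D (u (sw D (sw D y))) = _
      rw [sw_sw, huy, map_add, map_smul, map_smul]
    · change sw D (u (sw D (sw D w))) = _
      rw [sw_sw, huw, map_add, map_smul, map_smul]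
    · rw [hφ]
      exact (mem_Uh_twist hg hg0 u).mp hmem
  have hA : ∀ t : D, t * star t = 1 → ∃ t' : D, ∃ u ∈ N, IsDiag t t' u := fun t ht =>
    hG2 k K D d s hS n hn hdeg g hg han e he0 N hHQ t ht
  have hB : ∀ t' : D, t' * g * star t' = g → ∃ t : D, ∃ u ∈ N, IsDiag t t' u := by
    intro t' ht'
    obtain ⟨t, u, hu, h1, h2⟩ := @hG2 k K D _ _ _ _ _ (twistStar hg hg0) _ _ _ _ d s hS' n hn hdeg
      g⁻¹ hgi han' e he0 _ hHQ' t' (by
        change t' * (g * star t' * g⁻¹) = 1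
        calc t' * (g * star t' * g⁻¹) = (t' * g * star t') * g⁻¹ := by noncomm_ring
          _ = 1 := by rw [ht', mul_inv_cancel₀ hg0])
    refine ⟨t, φ u, ?_, ?_, ?_⟩
    · intro v hv
      have hv' : φ v ∈ @Uh D _ (twistStar hg hg0) g⁻¹ := by
        rw [mem_Uh_twist hg hg0]
        have : sw D * φ v * sw D = v := hφφ v
        rw [this]
        exact hv
      have h := hu _ hv'
      rw [hmN, map_mul, map_mul, map_inv, hφφ] at h
      exact h
    · change sw D (u (sw D (1, 0))) = _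
      rw [sw_apply (1, 0)]
      change sw D (u (0, 1)) = _
      rw [h2]
      rfl
    · change sw D (u (sw D (0, 1))) = _
      rw [sw_apply (0, 1)]
      change sw D (u (1, 0)) = _
      rw [h1]
      rfl
  have hcomm := comm_of hg0 hNU (coreOf_normal _ _)
    (fun y hy => hT k K D d s hS n hn hdeg g hg han e he0 N (coreOf_normal _ _) hHQ y hy) hA hB
  intro u hu v hv
  exact coreOf_le _ _ (hcomm u hu v hv)

end Vale.Agent.P011.Two
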