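import Vale.Agent.P011.Two.Defs

/-!
Quasi-reflections of the hermitian plane, parametrised by stereographic coordinates.
-/

namespace Vale.Agent.P011.Two

variable {D : Type} [DivisionRing D] [StarRing D]

/-- The map `v ↦ v - h(v, f) w⁻¹ f`, where `f = (1, -b)`. -/
def qrl (g b w : D) : (D × D) →ₗ[D] (D × D) where
  toFun v := (v.1 - (v.1 - v.2 * g * star b) * w⁻¹, v.2 + (v.1 - v.2 * g * star b) * w⁻¹ * b)
  map_add' := by
    intro x y
    ext
    · simp only [Prod.fst_add, Prod.snd_add]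
      noncomm_ring
    · simp only [Prod.fst_add, Prod.snd_add]
      noncomm_ring
  map_smul' := by
    intro a x
    ext
    · simp only [Prod.smul_fst, Prod.smul_snd, smul_eq_mul, RingHom.id_apply]
      noncomm_ring
    · simp only [Prod.smul_fst, Prod.smul_snd, smul_eq_mul, RingHom.id_apply]
      noncomm_ring

theorem qrl_comp {g b w w' : D} (hw : w ≠ 0) (hw' : w' ≠ 0) (h : w + w' = 1 + b * g * star b)
    (v : D × D) : qrl g b w (qrl g b w' v) = v := by
  obtain ⟨c, hc⟩ : ∃ c, c = v.1 - v.2 * g * star b := ⟨_, rfl⟩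
  have h1 : qrl g b w' v = (v.1 - c * w'⁻¹, v.2 + c * w'⁻¹ * b) := by
    rw [hc]; rfl
  have h2 : (v.1 - c * w'⁻¹) - (v.2 + c * w'⁻¹ * b) * g * star b = -(c * w'⁻¹ * w) := by
    calc (v.1 - c * w'⁻¹) - (v.2 + c * w'⁻¹ * b) * g * star b
        = (v.1 - v.2 * g * star b) - c * w'⁻¹ * (1 + b * g * star b) := by noncomm_ring
      _ = c - c * w'⁻¹ * (w + w') := by rw [← hc, h]
      _ = c - c * w'⁻¹ * w - c * (w'⁻¹ * w') := by noncomm_ring
      _ = _ := by rw [inv_mul_cancel₀ hw']; noncomm_ring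
  rw [h1]
  change ((v.1 - c * w'⁻¹) - ((v.1 - c * w'⁻¹) - (v.2 + c * w'⁻¹ * b) * g * star b) * w⁻¹,
    (v.2 + c * w'⁻¹ * b) + ((v.1 - c * w'⁻¹) - (v.2 + c * w'⁻¹ * b) * g * star b) * w⁻¹ * b) = v
  rw [h2]
  have h3 : -(c * w'⁻¹ * w) * w⁻¹ = -(c * w'⁻¹) := by
    rw [neg_mul, mul_assoc, mul_inv_cancel₀ hw, mul_one]
  rw [h3]
  ext
  · simp only []
    noncomm_ring
  · simp only []
    noncomm_ring

/-- The quasi-reflection. -/
def qr (g b w : D) (hw : w ≠ 0) (h : w + star w = 1 + b * g * star b) : (D × D) ≃ₗ[D] (D × D) :=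
  { qrl g b w with
    invFun := qrl g b (star w)
    left_inv := qrl_comp (star_ne_zero.mpr hw) hw (by rw [add_comm]; exact h)
    right_inv := qrl_comp hw (star_ne_zero.mpr hw) h }

theorem qr_apply (g b w : D) (hw : w ≠ 0) (h : w + star w = 1 + b * g * star b) (v : D × D) :
    qr g b w hw h v =
      (v.1 - (v.1 - v.2 * g * star b) * w⁻¹, v.2 + (v.1 - v.2 * g * star b) * w⁻¹ * b) := rfl

theorem qr_symm_apply (g b w : D) (hw : w ≠ 0) (h : w + star w = 1 + b * g * star b) (v : D × D) :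
    (qr g b w hw h)⁻¹ v =
      (v.1 - (v.1 - v.2 * g * star b) * (star w)⁻¹,
        v.2 + (v.1 - v.2 * g * star b) * (star w)⁻¹ * b) := rfl

theorem qr_e₁ (g b w : D) (hw : w ≠ 0) (h : w + star w = 1 + b * g * star b) :
    qr g b w hw h e₁ = (1 - w⁻¹, w⁻¹ * b) := by
  rw [qr_apply]
  simp [e₁]

theorem qr_mem {g b w : D} (hg : star g = g) (hw : w ≠ 0) (h : w + star w = 1 + b * g * star b) :
    qr g b w hw h ∈ Uh g := by
  intro x y
  rw [qr_apply, qr_apply]
  have hw' : star w ≠ 0 := star_ne_zero.mpr hw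
  obtain ⟨c, hc⟩ : ∃ c, c = x.1 - x.2 * g * star b := ⟨_, rfl⟩
  obtain ⟨e, he⟩ : ∃ e, e = y.1 - y.2 * g * star b := ⟨_, rfl⟩
  have hes : star e = star y.1 - b * g * star y.2 := by
    rw [he, star_sub, star_mul, star_mul, star_star, hg, mul_assoc]
  rw [← hc, ← he]
  change (x.1 - c * w⁻¹) * star (y.1 - e * w⁻¹) +
    (x.2 + c * w⁻¹ * b) * g * star (y.2 + e * w⁻¹ * b) = x.1 * star y.1 + x.2 * g * star y.2
  have e1 : star (y.1 - e * w⁻¹) = star y.1 - (star w)⁻¹ * star e := by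
    rw [star_sub, star_mul, star_inv₀]
  have e2 : star (y.2 + e * w⁻¹ * b) = star y.2 + star b * ((star w)⁻¹ * star e) := by
    rw [star_add, star_mul, star_mul, star_inv₀]
  rw [e1, e2]
  obtain ⟨W, hW⟩ : ∃ W, W = (star w)⁻¹ * star e := ⟨_, rfl⟩
  obtain ⟨X, hX⟩ : ∃ X, X = c * w⁻¹ := ⟨_, rfl⟩
  rw [← hW, ← hX]
  have h1 : X * w = c := by rw [hX, mul_assoc, inv_mul_cancel₀ hw, mul_one]
  have h2 : star w * W = star e := by rw [hW, ← mul_assoc, mul_inv_cancel₀ hw', one_mul]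
  calc (x.1 - X) * (star y.1 - W) + (x.2 + X * b) * g * (star y.2 + star b * W)
      = x.1 * star y.1 + x.2 * g * star y.2 - X * (star y.1 - b * g * star y.2) -
        (x.1 - x.2 * g * star b) * W + X * (1 + b * g * star b) * W := by noncomm_ring
    _ = x.1 * star y.1 + x.2 * g * star y.2 - X * star e - c * W + X * (w + star w) * W := by
        rw [← hes, ← hc, h]
    _ = x.1 * star y.1 + x.2 * g * star y.2 - X * star e - c * W + (X * w) * W +
        X * (star w * W) := by noncomm_ring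
    _ = _ := by rw [h1, h2]; noncomm_ring

end Vale.Agent.P011.Two
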