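import Vale.Agent.P011.Two.Choose
import Vale.Agent.P011.Two.Qr

/-!
Approximation of local unit vectors by a global unit vector with integrality conditions.
-/

open NumberField IsDedekindDomain Filter Topology

set_option linter.unusedSectionVars false

namespace Vale.Agent.P011.Two

open Vale.Agent.P011.Arith Vale.Agent.P011.Even

variable {k K D : Type} [Field k] [NumberField k] [Field K] [StarRing K]
    [DivisionRing D] [StarRing D] [Algebra k K] [Algebra k D] [Algebra K D] [IsScalarTower k K D]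
    {d : kˣ} {s : K} {N : ℕ}

/-- Stereographic coordinates of a unit vector. -/
theorem coord_rel {g : D} {Y : D × D} (hY : hh g Y Y = 1) (hY1 : Y.1 ≠ 1) :
    (1 - Y.1)⁻¹ ≠ 0 ∧ (1 - Y.1)⁻¹ + star (1 - Y.1)⁻¹ =
      1 + ((1 - Y.1)⁻¹ * Y.2) * g * star ((1 - Y.1)⁻¹ * Y.2) ∧
      1 - ((1 - Y.1)⁻¹)⁻¹ = Y.1 ∧ ((1 - Y.1)⁻¹)⁻¹ * ((1 - Y.1)⁻¹ * Y.2) = Y.2 := by
  have h0 : 1 - Y.1 ≠ 0 := sub_ne_zero.mpr (Ne.symm hY1)
  obtain ⟨w, hw⟩ : ∃ w, w = (1 - Y.1)⁻¹ := ⟨_, rfl⟩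
  have hw0 : w ≠ 0 := hw ▸ inv_ne_zero h0
  have hws : star w ≠ 0 := star_ne_zero.mpr hw0
  have h1 : w⁻¹ = 1 - Y.1 := by rw [hw, inv_inv]
  have h2 : Y.1 = 1 - w⁻¹ := by rw [h1]; abel
  rw [← hw]
  refine ⟨hw0, ?_, by rw [h1]; abel, by rw [← mul_assoc, inv_mul_cancel₀ hw0, one_mul]⟩
  have h3 : Y.2 * g * star Y.2 = 1 - Y.1 * star Y.1 := by
    rw [eq_sub_iff_add_eq, add_comm]
    exact hY
  have h4 : w * (1 - w⁻¹) = w - 1 := by rw [mul_sub, mul_inv_cancel₀ hw0, mul_one]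
  have h5 : (1 - (star w)⁻¹) * star w = star w - 1 := by
    rw [sub_mul, inv_mul_cancel₀ hws, one_mul]
  calc w + star w = 1 + (w * star w - (w * (1 - w⁻¹)) * ((1 - (star w)⁻¹) * star w)) := by
        rw [h4, h5]
        noncomm_ring
    _ = 1 + w * (1 - Y.1 * star Y.1) * star w := by
        rw [h2, star_sub, star_one, star_inv₀]
        noncomm_ring
    _ = 1 + w * (Y.2 * g * star Y.2) * star w := by rw [h3]
    _ = _ := by
        rw [star_mul]
        noncomm_ring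

/-- Continuity of the stereographic coordinates. -/
theorem coord_cont (hS : Setting k K D d s) (B : Module.Basis (Fin N) k D) {g : D} (hg : star g = g) (p : Pl k)
    {Y : D × D} (hY : hh g Y Y = 1) (hY1 : Y.1 ≠ 1) {η : ℝ} (hη : 0 < η) :
    ∃ (b₀ σ₀ : D) (δ : ℝ), 0 < δ ∧ ∀ (b σ : D) (z : k), nm B p (b - b₀) < δ →
      nm B p (σ - σ₀) < δ → plAbv p z < δ → ∀ w : D,
      w = (2⁻¹ : k) • (1 + b * g * star b) + (2⁻¹ : k) • (σ - star σ) + z • algebraMap K D s →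
      nm2 B p ((1 - w⁻¹, w⁻¹ * b) - Y) < η := by
  obtain ⟨hw0, hrel, h1, h2⟩ := coord_rel hY hY1
  obtain ⟨w₀, hw₀⟩ : ∃ w, w = (1 - Y.1)⁻¹ := ⟨_, rfl⟩
  rw [← hw₀] at hw0 hrel h1 h2
  obtain ⟨b₀, hb₀⟩ : ∃ b, b = w₀ * Y.2 := ⟨_, rfl⟩
  rw [← hb₀] at hrel h2
  obtain ⟨σ₀, hσ₀⟩ : ∃ σ : D, σ = w₀ - (2⁻¹ : k) • (1 + b₀ * g * star b₀) := ⟨_, rfl⟩
  have hsm : ∀ (c : k) (x : D), star (c • x) = c • star x := fun c x => (sig hS).map_smul c x
  have h22 : ∀ x : D, (2⁻¹ : k) • (x + x) = x := by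
    intro x
    rw [← two_smul k x, smul_smul, inv_mul_cancel₀ two_ne_zero, one_smul]
  have hσs : star σ₀ = -σ₀ := by
    have h3 : star σ₀ = star w₀ - (2⁻¹ : k) • (1 + b₀ * g * star b₀) := by
      rw [hσ₀, star_sub, hsm, star_add, star_one, star_mul, star_mul, star_star, hg, mul_assoc]
    rw [h3, hσ₀, neg_sub, sub_eq_sub_iff_add_eq_add, ← smul_add, h22, add_comm, hrel]
  have hw₀' : w₀ = (2⁻¹ : k) • (1 + b₀ * g * star b₀) + (2⁻¹ : k) • (σ₀ - star σ₀) +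
      (0 : k) • algebraMap K D s := by
    rw [hσs, sub_neg_eq_add, h22, zero_smul, add_zero, hσ₀]
    abel
  -- the filter
  obtain ⟨F, hF⟩ : ∃ F : D × D × k → ℝ, ∀ x, F x =
      nm B p (x.1 - b₀) + nm B p (x.2.1 - σ₀) + plAbv p x.2.2 := ⟨_, fun _ => rfl⟩
  obtain ⟨l, hl⟩ : ∃ l : Filter (D × D × k), l = comap F (𝓝 0) := ⟨_, rfl⟩
  have hFt : Tendsto F l (𝓝 0) := hl ▸ tendsto_comap
  have hF1 : Tn B p l (fun x : D × D × k => x.1) b₀ := by
    refine squeeze_zero (fun x => nm_nonneg B p _) (fun x => ?_) hFt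
    rw [hF]
    have := nm_nonneg B p (x.2.1 - σ₀)
    have := (plAbv p).nonneg x.2.2
    linarith
  have hF2 : Tn B p l (fun x : D × D × k => x.2.1) σ₀ := by
    refine squeeze_zero (fun x => nm_nonneg B p _) (fun x => ?_) hFt
    rw [hF]
    have := nm_nonneg B p (x.1 - b₀)
    have := (plAbv p).nonneg x.2.2
    linarith
  have hF3 : Tendsto (fun x : D × D × k => plAbv p (x.2.2 - 0)) l (𝓝 0) := by
    refine squeeze_zero (fun x => (plAbv p).nonneg _) (fun x => ?_) hFt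
    rw [hF, sub_zero]
    have := nm_nonneg B p (x.1 - b₀)
    have := nm_nonneg B p (x.2.1 - σ₀)
    linarith
  have hst : ∀ {f : D × D × k → D} {a : D}, Tn B p l f a → Tn B p l (fun x => star (f x)) (star a) :=
    fun h => h.linear (sig hS)
  have hsc : ∀ {f : D × D × k → D} {a : D} (c : k), Tn B p l f a →
      Tn B p l (fun x => c • f x) (c • a) :=
    fun c h => h.linear (LinearMap.lsmul k D c)
  have hW : Tn B p l (fun x : D × D × k => (2⁻¹ : k) • (1 + x.1 * g * star x.1) +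
      (2⁻¹ : k) • (x.2.1 - star x.2.1) + x.2.2 • algebraMap K D s) w₀ := by
    rw [hw₀']
    refine ((hsc _ ?_).add (hsc _ ?_)).add (Tn.smul hF3 _)
    · exact (Tn.const 1).add ((hF1.mul (Tn.const g)).mul (hst hF1))
    · exact hF2.sub (hst hF2)
  have hWi := hW.inv hw0
  have hy1 := (Tn.const (B := B) (p := p) (l := l) (1 : D)).sub hWi
  have hy2 := hWi.mul hF1
  rw [h1] at hy1
  rw [h2] at hy2
  have hev := (hy1.ev_lt (half_pos hη)).and (hy2.ev_lt (half_pos hη))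
  rw [hl, eventually_comap, Metric.eventually_nhds_iff] at hev
  obtain ⟨δ, hδ, hev⟩ := hev
  refine ⟨b₀, σ₀, δ / 3, by positivity, fun b σ z hb hσ hz w hw => ?_⟩
  have hlt : F (b, σ, z) < δ := by
    rw [hF]
    change nm B p (b - b₀) + nm B p (σ - σ₀) + plAbv p z < δ
    linarith
  have hnn : 0 ≤ F (b, σ, z) := by
    rw [hF]
    have := nm_nonneg B p (b - b₀)
    have := nm_nonneg B p (σ - σ₀)
    have := (plAbv p).nonneg z
    change 0 ≤ nm B p (b - b₀) + nm B p (σ - σ₀) + plAbv p z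
    positivity
  have h5 := hev (y := F (b, σ, z)) (by rw [Real.dist_0_eq_abs, abs_of_nonneg hnn]; exact hlt)
    (b, σ, z) rfl
  simp only [] at h5
  rw [← hw] at h5
  change nm B p (1 - w⁻¹ - Y.1) + nm B p (w⁻¹ * b - Y.2) < η
  linarith [h5.1, h5.2]

/-- The base case of one step of the approximation. -/
theorem base_step (hS : Setting k K D d s) {g : D} (hg : star g = g)
    (B : Module.Basis (Fin N) k D) {S : Set (HeightOneSpectrum (𝓞 k))} (hSf : S.Finite)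
    (hgood : ∀ v ∉ S, GoodAt B d s v ∧ Ing B v g) {x' : D × D} (hx1 : x'.1 ≠ 0)
    (hxI : ∀ v ∉ S, d ∉ LS (v.valuation k) →
      Ing B v x'.1 ∧ Ing B v x'.2 ∧ Ing B v (x'.1)⁻¹)
    (Y : Pl k → D × D) (hY : ∀ p, hh g (Y p) (Y p) = 1) (hY1 : ∀ p, (Y p).1 ≠ 1)
    (η : Pl k → ℝ) (hη : ∀ p, 0 < η p) :
    ∃ (b w : D) (hw : w ≠ 0) (_ : w + star w = 1 + b * g * star b),
      1 - w⁻¹ ≠ 0 ∧ hh g (1 - w⁻¹, w⁻¹ * b) x' ≠ 0 ∧
      (∀ v ∈ S, d ∉ LS (v.valuation k) →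
        nm2 B (.inl v) ((1 - w⁻¹, w⁻¹ * b) - Y (.inl v)) < η (.inl v)) ∧
      (∀ φ : k →+* ℝ, nm2 B (.inr φ) ((1 - w⁻¹, w⁻¹ * b) - Y (.inr φ)) < η (.inr φ)) ∧
      ∀ v ∉ S, d ∉ LS (v.valuation k) → Ing B v b ∧ Ing B v w⁻¹ ∧ Ing B v (1 - w⁻¹)⁻¹ ∧
        Ing B v (hh g (1 - w⁻¹, w⁻¹ * b) x')⁻¹ := by
  classical
  have _ : CharZero K := charZero_of_injective_algebraMap (algebraMap k K).injective
  have _ := hS.fin
  choose bp σp δp hδp hcont using fun p => coord_cont hS B hg p (hY p) (hY1 p) (hη p)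
  obtain ⟨ρ, hρ⟩ : ∃ ρ : D, ρ = star x'.2 * (star x'.1)⁻¹ := ⟨_, rfl⟩
  obtain ⟨b, hb1, hb2, hb3, htr1, htr2, htr3⟩ := exists_b hS B hSf g ρ bp δp hδp
  obtain ⟨σ, hσ1, hσ2, hσ3⟩ := ssaD d B hSf σp δp hδp
  obtain ⟨w₀, hw₀⟩ : ∃ w₀ : D, w₀ = (2⁻¹ : k) • (1 + b * g * star b) + (2⁻¹ : k) • (σ - star σ) :=
    ⟨_, rfl⟩
  have hsm : ∀ (c : k) (x : D), star (c • x) = c • star x := fun c x => (sig hS).map_smul c x
  have h22 : ∀ x : D, (2⁻¹ : k) • (x + x) = x := by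
    intro x
    rw [← two_smul k x, smul_smul, inv_mul_cancel₀ two_ne_zero, one_smul]
  have hSs : star (b * g * star b) = b * g * star b := by
    rw [star_mul, star_mul, star_star, hg, mul_assoc]
  have hw₀s : w₀ + star w₀ = 1 + b * g * star b := by
    have e1 : star w₀ = (2⁻¹ : k) • (1 + b * g * star b) + (2⁻¹ : k) • (star σ - σ) := by
      rw [hw₀, star_add, hsm, hsm, star_add, star_one, hSs, star_sub, star_star]
    rw [e1, hw₀]
    rw [add_add_add_comm, ← smul_add, ← smul_add, h22,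
      show σ - star σ + (star σ - σ) = (0 : D) by abel, smul_zero, add_zero]
  obtain ⟨Sg, hSg⟩ : ∃ S : D, S = algebraMap K D s := ⟨_, rfl⟩
  obtain ⟨q, hq⟩ : ∃ q : D, q = algebraMap K D s⁻¹ := ⟨_, rfl⟩
  have hs0 : s ≠ 0 := by
    intro h
    have := hS.sq
    rw [h, zero_pow two_ne_zero] at this
    exact d.ne_zero ((map_eq_zero _).mp this.symm)
  have hqS : q * Sg = 1 := by rw [hq, hSg, ← map_mul, inv_mul_cancel₀ hs0, map_one]
  have hq0 : q ≠ 0 := left_ne_zero_of_mul_eq_one hqS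
  have hqc : ∀ x : D, q * x = x * q := fun x => by rw [hq]; exact Algebra.commutes _ x
  have hSst : star Sg = -Sg := by rw [hSg]; exact star_S hS
  have hS0 : Sg ≠ 0 := right_ne_zero_of_mul_eq_one hqS
  obtain ⟨A, hA⟩ : ∃ A : Finset D, A = {q * w₀, q * (w₀ - 1), q * (w₀ - 1 + b * g * ρ)} := ⟨_, rfl⟩
  obtain ⟨z, hz1, hz2, hz3, hz4⟩ := exists_z hS B hSf (fun v hv => (hgood v hv).1) A (by
    intro a ha
    rw [hA] at ha
    simp only [Finset.mem_insert, Finset.mem_singleton] at ha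
    rcases ha with rfl | rfl | rfl
    · rw [hq]
      refine minpoly_ne_of_tr hS ?_
      rw [hw₀s]
      exact htr1
    · rw [hq]
      refine minpoly_ne_of_tr hS ?_
      rw [star_sub, star_one, show w₀ - 1 + (star w₀ - 1) = (w₀ + star w₀) - 1 - 1 by abel, hw₀s,
        show 1 + b * g * star b - 1 - 1 = b * g * star b - 1 by abel]
      exact htr2
    · rw [hq]
      refine minpoly_ne_of_tr hS ?_
      rw [star_add, star_sub, star_one,
        show w₀ - 1 + b * g * ρ + (star w₀ - 1 + star (b * g * ρ)) =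
          (w₀ + star w₀) - 1 - 1 + (b * g * ρ + star (b * g * ρ)) by abel, hw₀s,
        show 1 + b * g * star b - 1 - 1 = b * g * star b - 1 by abel]
      exact htr3) δp hδp
  have hshift : ∀ x : D, q * x + algebraMap k D z = q * (x + z • Sg) := by
    intro x
    rw [mul_add, mul_smul_comm, hqS, Algebra.algebraMap_eq_smul_one]
  obtain ⟨w, hw⟩ : ∃ w : D, w = w₀ + z • Sg := ⟨_, rfl⟩
  have hA1 : q * w₀ ∈ A := by rw [hA]; simp
  have hA2 : q * (w₀ - 1) ∈ A := by rw [hA]; simp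
  have hA3 : q * (w₀ - 1 + b * g * ρ) ∈ A := by rw [hA]; simp
  have e2 : w₀ - 1 + z • Sg = w - 1 := by rw [hw]; abel
  have e3 : w₀ - 1 + b * g * ρ + z • Sg = w - 1 + b * g * ρ := by rw [hw]; abel
  have hw0 : w ≠ 0 := by
    have h1 := hz3 _ hA1
    rw [hshift, ← hw] at h1
    exact right_ne_zero_of_mul h1
  have hw1 : w - 1 ≠ 0 := by
    have h1 := hz3 _ hA2
    rw [hshift, e2] at h1
    exact right_ne_zero_of_mul h1
  have hw3 : w - 1 + b * g * ρ ≠ 0 := by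
    have h1 := hz3 _ hA3
    rw [hshift, e3] at h1
    exact right_ne_zero_of_mul h1
  have hrel : w + star w = 1 + b * g * star b := by
    rw [hw, star_add, hsm, hSst, smul_neg, ← hw₀s]
    abel
  have hx1s : star x'.1 ≠ 0 := star_ne_zero.mpr hx1
  have hR : hh g (1 - w⁻¹, w⁻¹ * b) x' = w⁻¹ * (w - 1 + b * g * ρ) * star x'.1 := by
    change (1 - w⁻¹) * star x'.1 + w⁻¹ * b * g * star x'.2 = _
    have h1 : ρ * star x'.1 = star x'.2 := by
      rw [hρ, mul_assoc, inv_mul_cancel₀ hx1s, mul_one]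
    calc (1 - w⁻¹) * star x'.1 + w⁻¹ * b * g * star x'.2
        = (w⁻¹ * w - w⁻¹) * star x'.1 + w⁻¹ * b * g * (ρ * star x'.1) := by
          rw [inv_mul_cancel₀ hw0, h1]
      _ = _ := by noncomm_ring
  have h1w : 1 - w⁻¹ = w⁻¹ * (w - 1) := by rw [mul_sub, inv_mul_cancel₀ hw0, mul_one]
  have hnear : ∀ p : Pl k, nm B p (b - bp p) < δp p → nm B p (σ - σp p) < δp p →
      plAbv p z < δp p → nm2 B p ((1 - w⁻¹, w⁻¹ * b) - Y p) < η p := by
    intro p h1 h2 h3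
    refine hcont p b σ z h1 h2 h3 w ?_
    rw [hw, hw₀, hSg]
  refine ⟨b, w, hw0, hrel, ?_, ?_, fun v hv hns => ?_, fun φ => ?_, fun v hv hns => ?_⟩
  · rw [h1w]
    exact mul_ne_zero (inv_ne_zero hw0) hw1
  · rw [hR]
    exact mul_ne_zero (mul_ne_zero (inv_ne_zero hw0) hw3) hx1s
  · exact hnear _ (hb1 v hv hns) (hσ1 v hv hns) (hz1 v hv hns)
  · exact hnear _ (hb2 φ) (hσ2 φ) (hz2 φ)
  · obtain ⟨hG, hIg⟩ := hgood v hv
    obtain ⟨hx1I, hx2I, hx1I'⟩ := hxI v hv hns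
    obtain ⟨c, hc0, hc1, hcA⟩ := hz4 v hv hns
    have hIb := hb3 v hv hns
    have hcD : algebraMap k D c ≠ 0 := (_root_.map_ne_zero _).mpr hc0
    obtain ⟨m, hm⟩ : ∃ m : D, m = algebraMap k D c * q := ⟨_, rfl⟩
    have hm0 : m ≠ 0 := hm ▸ mul_ne_zero hcD hq0
    have hmc : ∀ x : D, m * x = x * m := by
      intro x
      rw [hm, mul_assoc, hqc, ← mul_assoc, Algebra.commutes c x, mul_assoc]
    have hIq : Ing B v q := by
      have e : q = (d : k)⁻¹ • Sg := by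
        apply mul_right_cancel₀ hS0
        rw [hqS, smul_mul_assoc, hSg, ← map_mul, ← sq, hS.sq, ← IsScalarTower.algebraMap_apply,
          Algebra.algebraMap_eq_smul_one, smul_smul, inv_mul_cancel₀ d.ne_zero, one_smul]
      rw [e, hSg]
      refine hG.ss.smul ?_
      rw [map_inv₀, hG.dd, inv_one]
    have hIm : Ing B v m := by
      rw [hm, ← Algebra.smul_def]
      exact hIq.smul hc1
    have hu : ∀ x : D, c • (q * x + algebraMap k D z) = m * (x + z • Sg) := by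
      intro x
      rw [hshift, hm, Algebra.smul_def, mul_assoc]
    have hU1 := hcA _ hA1
    rw [hu, ← hw] at hU1
    have hU2 := hcA _ hA2
    rw [hu, e2] at hU2
    have hU3 := hcA _ hA3
    rw [hu, e3] at hU3
    have hdiv : ∀ x y : D, (m * x)⁻¹ * (m * y) = x⁻¹ * y := by
      intro x y
      rw [mul_inv_rev, mul_assoc, ← mul_assoc m⁻¹, inv_mul_cancel₀ hm0, one_mul]
    have hIw : Ing B v w⁻¹ := by
      have e : w⁻¹ = (m * w)⁻¹ * m := by
        rw [mul_inv_rev, mul_assoc, inv_mul_cancel₀ hm0, mul_one]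
      rw [e]
      exact Ing.mul hG.mul hU1.2 hIm
    refine ⟨hIb, hIw, ?_, ?_⟩
    · rw [h1w, mul_inv_rev, inv_inv, ← hdiv (w - 1) w]
      exact Ing.mul hG.mul hU2.2 hU1.1
    · rw [hR, mul_inv_rev, mul_inv_rev, inv_inv, ← hdiv (w - 1 + b * g * ρ) w]
      refine Ing.mul hG.mul ?_ (Ing.mul hG.mul hU3.2 hU1.1)
      rw [← star_inv₀]
      exact hG.st _ hx1I'

end Vale.Agent.P011.Two
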