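import Vale.Agent.P011.Even.PlaneAlg
import Vale.Agent.P011.T2.MaxSub

/-!
The centralizer of a symmetric element of maximal degree.
-/

open Module Polynomial NumberField

namespace Vale.Agent.P011.Two

open Vale.Agent.P011.Even

variable {k K D : Type} [Field k] [NumberField k] [Field K] [StarRing K]
    [DivisionRing D] [StarRing D] [Algebra k K] [Algebra k D] [Algebra K D] [IsScalarTower k K D]
    {d : kˣ} {s : K} {n : ℕ}

theorem mem_cent (hS : Setting k K D d s) (hn : 0 < n) (hdeg : finrank K D = n ^ 2) {Ω : Type}
    [Field Ω] [Algebra K Ω] (f : D →ₐ[K] Matrix (Fin n) (Fin n) Ω)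
    {η : D} (hη : star η = η) (hli : LinearIndependent k (fun i : Fin n => η ^ (i : ℕ)))
    {t : D} (ht : t * η = η * t) :
    ∃ p₀ p₁ : k[X], t = aeval η p₀ + aeval η p₁ * algebraMap K D s := by
  have := hS.fin
  have := hS.cen
  obtain ⟨h1, h2⟩ := minpoly_map hS hn hdeg f (c0 := 1) one_ne_zero
    (by rw [one_mul, inv_one, mul_one, hη]) hli
  have hdK : (minpoly K η).natDegree = n := by rw [h2, natDegree_map, h1]
  have hKli : LinearIndependent K (fun i : Fin n => η ^ (i : ℕ)) := by
    have h3 := linearIndependent_pow (K := K) η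
    rw [hdK] at h3
    exact h3
  let W : Submodule K D := Submodule.span K (Set.range fun i : Fin n => η ^ (i : ℕ))
  have hW : finrank K W = n := by
    have := finrank_span_eq_card hKli
    rwa [Fintype.card_fin] at this
  let A : Subalgebra K D := Algebra.adjoin K {η}
  let C : Subalgebra K D := Subalgebra.centralizer K (A : Set D)
  have hWA : W ≤ Subalgebra.toSubmodule A := by
    refine Submodule.span_le.mpr ?_
    rintro _ ⟨i, rfl⟩
    exact A.pow_mem (Algebra.self_mem_adjoin_singleton K η) _
  have hcomm : ∀ x ∈ A, ∀ y, y * η = η * y → y * x = x * y := by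
    intro x hx y hy
    have hx' : x ∈ Algebra.adjoin K {η} := hx
    rw [Algebra.adjoin_singleton_eq_range_aeval] at hx'
    obtain ⟨q, rfl⟩ := hx'
    exact T2.aeval_comm' hy q
  have hAC : Subalgebra.toSubmodule A ≤ Subalgebra.toSubmodule C := by
    intro x hx
    change x ∈ C
    rw [Subalgebra.mem_centralizer_iff]
    intro y hy
    exact (hcomm y hy x (by
      have := hcomm x hx η rfl
      exact this.symm)).symm
  have htC : t ∈ Subalgebra.toSubmodule C := by
    change t ∈ C
    rw [Subalgebra.mem_centralizer_iff]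
    intro y hy
    exact (hcomm y hy t ht).symm
  have hprod : finrank K A * finrank K C = n ^ 2 := by
    rw [← hdeg]
    exact T2.finrank_centralizer A
  have hA : n ≤ finrank K A := by
    rw [← hW]
    exact Submodule.finrank_mono hWA
  have hC : n ≤ finrank K C := hA.trans (Submodule.finrank_mono hAC)
  have hCn : finrank K C = n := by
    apply le_antisymm _ hC
    by_contra hcon
    push Not at hcon
    have h3 : n * n < finrank K A * finrank K C := by
      calc n * n < n * finrank K C := Nat.mul_lt_mul_of_pos_left hcon hn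
        _ ≤ _ := Nat.mul_le_mul_right _ hA
    rw [hprod, pow_two] at h3
    exact lt_irrefl _ h3
  have hWC : W = Subalgebra.toSubmodule C := by
    apply Submodule.eq_of_le_of_finrank_eq (hWA.trans hAC)
    rw [hW]
    exact hCn.symm
  rw [← hWC, Submodule.mem_span_range_iff_exists_fun] at htC
  obtain ⟨a, ha⟩ := htC
  choose α β hαβ using fun i => hS.span (a i)
  refine ⟨∑ i : Fin n, Polynomial.C (α i) * X ^ (i : ℕ), ∑ i : Fin n, Polynomial.C (β i) * X ^ (i : ℕ), ?_⟩
  rw [← ha, map_sum, map_sum, Finset.sum_mul, ← Finset.sum_add_distrib]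
  refine Finset.sum_congr rfl fun i _ => ?_
  rw [hαβ, map_mul, map_mul, aeval_C, aeval_C, map_pow, aeval_X, Algebra.smul_def, map_add,
    map_mul, add_mul, ← IsScalarTower.algebraMap_apply, ← IsScalarTower.algebraMap_apply,
    mul_assoc, mul_assoc, Algebra.commutes s (η ^ (i : ℕ))]

end Vale.Agent.P011.Two
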