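import Mathlib

/-!
Fine chains along a path in the plane which avoids finitely many points.
-/

namespace Vale.Agent.P011.Two.CR

open Complex

/-- The segment from `a` to `b`. -/
def sg (a b : ℂ) (t : ℝ) : ℂ := (1 - t) * a + t * b

theorem sg_zero (a b : ℂ) : sg a b 0 = a := by simp [sg]

theorem sg_one (a b : ℂ) : sg a b 1 = b := by simp [sg]

theorem continuous_sg (a b : ℂ) : Continuous (sg a b) := by
  unfold sg
  fun_prop

/-- There is a point `c` such that the segments from `0` to `c` and from `c` to `1` avoid a given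
finite set not containing `0` and `1`. -/
theorem exists_mid {S : Set ℂ} (hS : S.Finite) (h0 : (0 : ℂ) ∉ S) (h1 : (1 : ℂ) ∉ S) :
    ∃ c : ℂ, (∀ t ∈ Set.Icc (0 : ℝ) 1, sg 0 c t ∉ S) ∧ ∀ t ∈ Set.Icc (0 : ℝ) 1, sg c 1 t ∉ S := by
  -- candidates `1/2 + i r`; each bad point excludes at most one value of `r` for each segment
  have hf : {r : ℝ | ∃ t ∈ Set.Icc (0 : ℝ) 1, sg 0 ⟨1 / 2, r⟩ t ∈ S}.Finite := by
    refine Set.Finite.subset (hS.image fun z : ℂ => z.im / (2 * z.re)) ?_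
    rintro r ⟨t, ht, hz⟩
    refine ⟨_, hz, ?_⟩
    have hre : (sg 0 ⟨1 / 2, r⟩ t).re = t / 2 := by
      simp [sg]; ring
    have him : (sg 0 ⟨1 / 2, r⟩ t).im = t * r := by
      simp [sg]
    have ht0 : t ≠ 0 := by
      rintro rfl
      rw [sg_zero] at hz
      exact h0 hz
    change (sg 0 ⟨1 / 2, r⟩ t).im / (2 * (sg 0 ⟨1 / 2, r⟩ t).re) = r
    rw [hre, him]
    field_simp
  have hg : {r : ℝ | ∃ t ∈ Set.Icc (0 : ℝ) 1, sg ⟨1 / 2, r⟩ 1 t ∈ S}.Finite := by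
    refine Set.Finite.subset (hS.image fun z : ℂ => z.im / (2 * (1 - z.re))) ?_
    rintro r ⟨t, ht, hz⟩
    refine ⟨_, hz, ?_⟩
    have hre : (sg ⟨1 / 2, r⟩ 1 t).re = (1 + t) / 2 := by
      simp [sg]; ring
    have him : (sg ⟨1 / 2, r⟩ 1 t).im = (1 - t) * r := by
      simp [sg]
    have ht0 : 1 - t ≠ 0 := by
      intro h
      have : t = 1 := by linarith
      rw [this, sg_one] at hz
      exact h1 hz
    change (sg ⟨1 / 2, r⟩ 1 t).im / (2 * (1 - (sg ⟨1 / 2, r⟩ 1 t).re)) = r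
    rw [hre, him]
    have : 2 * (1 - (1 + t) / 2) = 1 - t := by ring
    rw [this]
    field_simp
  obtain ⟨r, hr⟩ := (hf.union hg).exists_notMem
  rw [Set.mem_union, not_or] at hr
  exact ⟨⟨1 / 2, r⟩, fun t ht h => hr.1 ⟨t, ht, h⟩, fun t ht h => hr.2 ⟨t, ht, h⟩⟩

variable {E : Type*} [NormedAddCommGroup E]

/-- The relation of closeness between good points of a dense set. -/
def Cl2 (Dn S : Set ℂ) (H : ℂ → E) (M ε : ℝ) (w w' : ℂ) : Prop :=
  w ∈ Dn ∧ w ∉ S ∧ w' ∈ Dn ∧ w' ∉ S ∧ ‖H w‖ ≤ M ∧ ‖H w'‖ ≤ M ∧ ‖H w' - H w‖ < ε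

/-- Chains along a path. -/
theorem exists_chain_path {Dn S : Set ℂ} (hD : Dense Dn) (hS : S.Finite) (H : ℂ → E)
    (hH : ∀ w, w ∉ S → ContinuousAt H w) (γ : ℝ → ℂ) (hγ : Continuous γ)
    (hγS : ∀ t ∈ Set.Icc (0 : ℝ) 1, γ t ∉ S) :
    ∃ M : ℝ, ∀ ε : ℝ, 0 < ε → ∀ w w' : ℂ, w ∈ Dn → w' ∈ Dn → w ∉ S → w' ∉ S →
      ‖H w - H (γ 0)‖ < ε → ‖H w' - H (γ 1)‖ < ε → ε ≤ 1 →
      Relation.ReflTransGen (Cl2 Dn S H M (3 * ε)) w w' := by
  have hcont : ContinuousOn (fun t => H (γ t)) (Set.Icc (0 : ℝ) 1) := fun t ht =>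
    ((hH (γ t) (hγS t ht)).comp hγ.continuousAt).continuousWithinAt
  obtain ⟨M₀, hM₀⟩ := isCompact_Icc.exists_bound_of_continuousOn hcont
  refine ⟨M₀ + 1, fun ε hε w w' hw hw' hwS hwS' h0 h1 hε1 => ?_⟩
  have huc := isCompact_Icc.uniformContinuousOn_of_continuous hcont
  rw [Metric.uniformContinuousOn_iff] at huc
  obtain ⟨δ, hδ, huc⟩ := huc ε hε
  obtain ⟨n, hn⟩ := exists_nat_gt (1 / δ)
  have hn0 : 0 < n := by
    have : (0 : ℝ) < n := lt_trans (by positivity) hn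
    exact_mod_cast this
  have hnR : (0 : ℝ) < n := by exact_mod_cast hn0
  have htmem : ∀ i : ℕ, i ≤ n → (i / n : ℝ) ∈ Set.Icc (0 : ℝ) 1 := fun i hi =>
    ⟨by positivity, (div_le_one hnR).mpr (by exact_mod_cast hi)⟩
  -- a good point near every point of the path
  have hnear : ∀ t ∈ Set.Icc (0 : ℝ) 1, ∃ z ∈ Dn, z ∉ S ∧ ‖H z - H (γ t)‖ < ε := by
    intro t ht
    have h2 := hH (γ t) (hγS t ht)
    rw [Metric.continuousAt_iff] at h2
    obtain ⟨r, hr, h3⟩ := h2 ε hε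
    have hopen : IsOpen (Metric.ball (γ t) r ∩ Sᶜ) :=
      Metric.isOpen_ball.inter hS.isClosed.isOpen_compl
    obtain ⟨z, hz, hzD⟩ := hD.inter_open_nonempty _ hopen ⟨γ t, Metric.mem_ball_self hr, hγS t ht⟩
    refine ⟨z, hzD, hz.2, ?_⟩
    have := h3 (Metric.mem_ball.mp hz.1)
    rwa [dist_eq_norm] at this
  have hbd : ∀ t ∈ Set.Icc (0 : ℝ) 1, ∀ z, ‖H z - H (γ t)‖ < ε → ‖H z‖ ≤ M₀ + 1 := by
    intro t ht z hz
    have h2 : ‖H z‖ ≤ ‖H z - H (γ t)‖ + ‖H (γ t)‖ := by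
      have := norm_add_le (H z - H (γ t)) (H (γ t))
      rwa [sub_add_cancel] at this
    have h3 : ‖H (γ t)‖ ≤ M₀ := hM₀ t ht
    linarith
  have hstep : ∀ i : ℕ, i ≤ n → ∀ z ∈ Dn, z ∉ S → ‖H z - H (γ (i / n))‖ < ε →
      Relation.ReflTransGen (Cl2 Dn S H (M₀ + 1) (3 * ε)) w z := by
    intro i
    induction i with
    | zero =>
      intro _ z hz hzS hzε
      simp only [Nat.cast_zero, zero_div] at hzε
      refine Relation.ReflTransGen.single ⟨hw, hwS, hz, hzS, hbd 0 ⟨le_rfl, zero_le_one⟩ w h0,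
        hbd 0 ⟨le_rfl, zero_le_one⟩ z hzε, ?_⟩
      have : H z - H w = (H z - H (γ 0)) - (H w - H (γ 0)) := by abel
      rw [this]
      refine (norm_sub_le _ _).trans_lt ?_
      linarith
    | succ i ih =>
      intro hi z hz hzS hzε
      have hi' : i ≤ n := by omega
      obtain ⟨z', hz', hzS', hzε'⟩ := hnear (i / n) (htmem i hi')
      refine (ih hi' z' hz' hzS' hzε').tail ⟨hz', hzS', hz, hzS, hbd _ (htmem i hi') z' hzε',
        hbd _ (htmem _ hi) z hzε, ?_⟩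
      have hclose : ‖H (γ ((i + 1 : ℕ) / n)) - H (γ (i / n))‖ < ε := by
        have := huc ((i + 1 : ℕ) / n) (htmem _ hi) (i / n) (htmem i hi') (by
          rw [Real.dist_eq]
          have e : ((i + 1 : ℕ) : ℝ) / n - i / n = 1 / n := by push_cast; ring
          rw [e, abs_of_nonneg (by positivity), div_lt_iff₀ hnR]
          rw [div_lt_iff₀ hδ] at hn
          linarith)
        rwa [dist_eq_norm] at this
      have e : H z - H z' = (H z - H (γ ((i + 1 : ℕ) / n))) +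
          (H (γ ((i + 1 : ℕ) / n)) - H (γ (i / n))) - (H z' - H (γ (i / n))) := by abel
      rw [e]
      refine (norm_sub_le _ _).trans_lt ?_
      have := norm_add_le (H z - H (γ ((i + 1 : ℕ) / n)))
        (H (γ ((i + 1 : ℕ) / n)) - H (γ (i / n)))
      linarith
  refine hstep n le_rfl w' hw' hwS' ?_
  rwa [div_self hnR.ne']

/-- Fine chains from `0` to `1` avoiding a finite set. -/
theorem exists_chain01 {Dn S : Set ℂ} (hD : Dense Dn) (hS : S.Finite) (H : ℂ → E)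
    (hH : ∀ w, w ∉ S → ContinuousAt H w) (h0 : (0 : ℂ) ∉ S) (h1 : (1 : ℂ) ∉ S)
    (h0D : (0 : ℂ) ∈ Dn) (h1D : (1 : ℂ) ∈ Dn) :
    ∃ M : ℝ, ∀ ε : ℝ, 0 < ε → Relation.ReflTransGen (Cl2 Dn S H M ε) 0 1 := by
  obtain ⟨c, hc1, hc2⟩ := exists_mid hS h0 h1
  obtain ⟨M₁, hM₁⟩ := exists_chain_path hD hS H hH (sg 0 c) (continuous_sg 0 c) hc1
  obtain ⟨M₂, hM₂⟩ := exists_chain_path hD hS H hH (sg c 1) (continuous_sg c 1) hc2
  refine ⟨max M₁ M₂, fun ε hε => ?_⟩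
  have hcS : c ∉ S := by
    have := hc1 1 ⟨zero_le_one, le_rfl⟩
    rwa [sg_one] at this
  set ε' : ℝ := min (ε / 3) 1 with hε'
  have hε'0 : 0 < ε' := lt_min (by positivity) one_pos
  have h3 : 3 * ε' ≤ ε := by
    have := min_le_left (ε / 3) 1
    linarith
  have h4 := hH c hcS
  rw [Metric.continuousAt_iff] at h4
  obtain ⟨r, hr, h5⟩ := h4 ε' hε'0
  have hopen : IsOpen (Metric.ball c r ∩ Sᶜ) :=
    Metric.isOpen_ball.inter hS.isClosed.isOpen_compl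
  obtain ⟨z, hz, hzD⟩ := hD.inter_open_nonempty _ hopen ⟨c, Metric.mem_ball_self hr, hcS⟩
  have hzε : ‖H z - H c‖ < ε' := by
    have := h5 (Metric.mem_ball.mp hz.1)
    rwa [dist_eq_norm] at this
  have hmono : ∀ {M : ℝ} (_ : M ≤ max M₁ M₂) {w w' : ℂ}, Cl2 Dn S H M (3 * ε') w w' →
      Cl2 Dn S H (max M₁ M₂) ε w w' := by
    rintro M hM w w' ⟨a1, a2, a3, a4, a5, a6, a7⟩
    exact ⟨a1, a2, a3, a4, a5.trans hM, a6.trans hM, a7.trans_le h3⟩
  have p1 := hM₁ ε' hε'0 0 z h0D hzD h0 hz.2 (by rw [sg_zero]; simpa using hε'0)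
    (by rw [sg_one]; exact hzε) (min_le_right _ _)
  have p2 := hM₂ ε' hε'0 z 1 hzD h1D hz.2 h1 (by rw [sg_zero]; exact hzε)
    (by rw [sg_one]; simpa using hε'0) (min_le_right _ _)
  exact (Relation.ReflTransGen.mono (fun _ _ => hmono (le_max_left _ _)) _ _ p1).trans
    (Relation.ReflTransGen.mono (fun _ _ => hmono (le_max_right _ _)) _ _ p2)

end Vale.Agent.P011.Two.CR
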