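import Vale.Agent.P011.Two.ChainDefs
import Vale.Agent.P011.Even.GChoice

/-!
Rotations along a line: the algebra.
-/

open NumberField IsDedekindDomain

set_option linter.unusedSectionVars false

namespace Vale.Agent.P011.Two.CR

open Vale.Agent.P011.Arith Vale.Agent.P011.Even

section form

variable {D : Type} [DivisionRing D] [StarRing D] {g : D}

theorem hh_add_left (x y z : D × D) : hh g (x + y) z = hh g x z + hh g y z := by
  simp only [hh, Prod.fst_add, Prod.snd_add, add_mul]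
  abel

theorem hh_smul_left (c : D) (x z : D × D) : hh g (c • x) z = c * hh g x z := by
  simp only [hh, Prod.smul_fst, Prod.smul_snd, smul_eq_mul, mul_add, mul_assoc]

theorem hh_add_right (x y z : D × D) : hh g x (y + z) = hh g x y + hh g x z := by
  simp only [hh, Prod.fst_add, Prod.snd_add, star_add, mul_add]
  abel

theorem hh_smul_right (c : D) (x z : D × D) : hh g x (c • z) = hh g x z * star c := by
  simp only [hh, Prod.smul_fst, Prod.smul_snd, smul_eq_mul, star_mul, add_mul, mul_assoc]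

theorem hh_symm (hg : star g = g) (x y : D × D) : star (hh g x y) = hh g y x := by
  simp only [hh, star_add, star_mul, star_star, hg, mul_assoc]

theorem hh_neg_left (x z : D × D) : hh g (-x) z = -hh g x z := by
  rw [← neg_one_smul D x, hh_smul_left, neg_one_mul]

theorem hh_sub_left (x y z : D × D) : hh g (x - y) z = hh g x z - hh g y z := by
  rw [sub_eq_add_neg, hh_add_left, hh_neg_left, sub_eq_add_neg]

theorem hh_neg_right (x z : D × D) : hh g x (-z) = -hh g x z := by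
  rw [← neg_one_smul D z, hh_smul_right, star_neg, star_one, mul_neg_one]

theorem hh_sub_right (x y z : D × D) : hh g x (y - z) = hh g x y - hh g x z := by
  rw [sub_eq_add_neg, hh_add_right, hh_neg_right, sub_eq_add_neg]

/-- Unit vectors with product one are equal. -/
theorem eq_of_hh_one (hg : star g = g) (han : An g) {y y' : D × D} (hy : hh g y y = 1)
    (hy' : hh g y' y' = 1) (h : hh g y y' = 1) : y = y' := by
  have h1 : hh g y' y = 1 := by rw [← hh_symm hg, h, star_one]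
  have h2 : hh g (y - y') (y - y') = 0 := by
    rw [hh_sub_left, hh_sub_right, hh_sub_right, hy, hy', h, h1]
    simp
  exact sub_eq_zero.mp (han _ h2)

/-- The rotated vector is a unit vector. -/
theorem rot_unit (hg : star g = g) {y z : D × D} {lam ρ ω : D} (hy : hh g y y = 1)
    (hz : hh g z z = ω) (hyz : hh g y z = lam * ω) (hρ : ρ * ω * star ρ = ω) :
    hh g (y + (lam * (ρ - 1)) • z) (y + (lam * (ρ - 1)) • z) = 1 := by
  have hω : star ω = ω := by rw [← hz, hh_symm hg]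
  have hzy : hh g z y = ω * star lam := by rw [← hh_symm hg, hyz, star_mul, hω]
  rw [hh_add_left, hh_add_right, hh_add_right, hh_smul_left, hh_smul_right, hh_smul_left,
    hh_smul_right, hy, hyz, hzy, hz, star_mul, star_sub, star_one]
  have key : (ρ - 1) * ω + ω * (star ρ - 1) + (ρ - 1) * ω * (star ρ - 1) = 0 := by
    have : (ρ - 1) * ω + ω * (star ρ - 1) + (ρ - 1) * ω * (star ρ - 1) = ρ * ω * star ρ - ω := by
      noncomm_ring
    rw [this, hρ, sub_self]
  have e : 1 + lam * ω * ((star ρ - 1) * star lam) + (lam * (ρ - 1) * (ω * star lam) +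
      lam * (ρ - 1) * (ω * ((star ρ - 1) * star lam))) =
      1 + lam * ((ρ - 1) * ω + ω * (star ρ - 1) + (ρ - 1) * ω * (star ρ - 1)) * star lam := by
    noncomm_ring
  rw [e, key, mul_zero, zero_mul, add_zero]

end form

variable {k K D : Type} [Field k] [NumberField k] [Field K] [StarRing K]
  [DivisionRing D] [StarRing D] [Algebra k K] [Algebra k D] [Algebra K D] [IsScalarTower k K D]
  {d : kˣ} {s : K}

/-- The rotation. -/
noncomputable def rot (ρ : D) (w : K) : D :=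
  (1 + algebraMap K D w * ρ) * (algebraMap K D (star w) + ρ)⁻¹ * ρ

omit [StarRing D] in
theorem rot_zero {ρ : D} (hρ : ρ ≠ 0) : rot ρ (0 : K) = 1 := by
  rw [rot, star_zero, map_zero, zero_mul, add_zero, one_mul, zero_add, inv_mul_cancel₀ hρ]

omit [StarRing D] in
theorem rot_one {ρ : D} (hρ : 1 + ρ ≠ 0) : rot ρ (1 : K) = ρ := by
  rw [rot, star_one, map_one, one_mul, mul_inv_cancel₀ hρ, one_mul]

theorem star_algK (hS : Setting k K D d s) (w : K) :
    star (algebraMap K D w) = algebraMap K D (star w) := by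
  rw [Algebra.algebraMap_eq_smul_one, hS.star_smul, star_one, Algebra.algebraMap_eq_smul_one]

/-- The rotation is an isometry of the form of rank one. -/
theorem rot_isom (hS : Setting k K D d s) {ρ ω : D} (hω0 : ω ≠ 0) (hω : star ω = ω)
    (hρ : ρ * ω * star ρ = ω) {w : K} (hw : algebraMap K D (star w) + ρ ≠ 0) :
    rot ρ w * ω * star (rot ρ w) = ω := by
  have hρ0 : ρ ≠ 0 := by
    rintro rfl
    rw [zero_mul, zero_mul] at hρ
    exact hω0 hρ.symm
  have hsρ : star ρ = ω⁻¹ * ρ⁻¹ * ω := by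
    have : ω * star ρ = ρ⁻¹ * ω := by
      rw [eq_inv_mul_iff_mul_eq₀ hρ0, ← mul_assoc]; exact hρ
    rw [mul_assoc, ← this, inv_mul_cancel_left₀ hω0]
  set A : D := 1 + algebraMap K D w * ρ with hA
  set C : D := algebraMap K D (star w) + ρ with hC
  have hcw : ∀ (x : K) (y : D), algebraMap K D x * y = y * algebraMap K D x := fun x y =>
    Algebra.commutes x y
  have hsC : star C = ω⁻¹ * (A * ρ⁻¹) * ω := by
    rw [hC, star_add, star_algK hS, star_star, hsρ, hA]
    rw [add_mul, one_mul, mul_assoc (algebraMap K D w), mul_inv_cancel₀ hρ0, mul_one,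
      mul_add, add_mul, ← hcw w (ω⁻¹), mul_assoc, mul_assoc, inv_mul_cancel₀ hω0, mul_one,
      ← mul_assoc, add_comm]
  have hsA : star A = ω⁻¹ * (C * ρ⁻¹) * ω := by
    rw [hA, star_add, star_one, star_mul, star_algK hS, hsρ, hC]
    rw [add_mul, mul_inv_cancel₀ hρ0, mul_add, add_mul, mul_one, inv_mul_cancel₀ hω0,
      ← hcw, ← mul_assoc, ← mul_assoc, ← mul_assoc, hcw (star w) (ω⁻¹), add_comm]
  have hAρ : A * ρ = ρ * A := by
    rw [hA, add_mul, mul_add, one_mul, mul_one, ← mul_assoc, ← hcw w ρ]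
  have hCρ : C * ρ = ρ * C := by
    rw [hC, add_mul, mul_add, hcw]
  have hAC : A * C = C * A := by
    have hc : Commute C (algebraMap K D w * ρ) :=
      Commute.mul_right (hcw w C).symm hCρ
    exact ((Commute.one_right C).add_right hc).eq.symm
  have hA0 : A ≠ 0 := by
    intro h0
    have : star C = 0 := by rw [hsC, h0]; simp
    exact hw (by rw [← star_star C, this, star_zero])
  have hrot : rot ρ w = A * C⁻¹ * ρ := rfl
  rw [hrot, star_mul, star_mul, star_inv₀, hsA, hsC, hsρ]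
  have hρA : ρ * A⁻¹ = A⁻¹ * ρ := by
    have hc : Commute A ρ := hAρ
    exact (hc.inv_left₀).eq.symm
  have hCA : C⁻¹ * A⁻¹ = A⁻¹ * C⁻¹ := by
    rw [← mul_inv_rev, ← mul_inv_rev, hAC]
  have hAρi : (A * ρ⁻¹)⁻¹ = ρ * A⁻¹ := by rw [mul_inv_rev, inv_inv]
  calc A * C⁻¹ * ρ * ω * (ω⁻¹ * ρ⁻¹ * ω * ((ω⁻¹ * (A * ρ⁻¹) * ω)⁻¹ * (ω⁻¹ * (C * ρ⁻¹) * ω)))
      = A * C⁻¹ * ρ * ω * (ω⁻¹ * ρ⁻¹ * ω * ((ω⁻¹ * (A * ρ⁻¹)⁻¹ * ω) * (ω⁻¹ * (C * ρ⁻¹) * ω))) := by
        rw [mul_inv_rev, mul_inv_rev, inv_inv, ← mul_assoc ω⁻¹]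
    _ = A * C⁻¹ * ρ * (ω * ω⁻¹) * ρ⁻¹ * (ω * ω⁻¹) * (A * ρ⁻¹)⁻¹ * (ω * ω⁻¹) * (C * ρ⁻¹) * ω := by
        noncomm_ring
    _ = A * C⁻¹ * (ρ * ρ⁻¹) * (ρ * A⁻¹) * C * ρ⁻¹ * ω := by
        rw [mul_inv_cancel₀ hω0, hAρi]; noncomm_ring
    _ = A * C⁻¹ * (ρ * A⁻¹) * C * ρ⁻¹ * ω := by rw [mul_inv_cancel₀ hρ0, mul_one]
    _ = A * C⁻¹ * (A⁻¹ * ρ) * C * ρ⁻¹ * ω := by rw [hρA]
    _ = A * (C⁻¹ * A⁻¹) * (ρ * C) * ρ⁻¹ * ω := by noncomm_ring
    _ = A * (A⁻¹ * C⁻¹) * (C * ρ) * ρ⁻¹ * ω := by rw [hCA, hCρ]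
    _ = (A * A⁻¹) * (C⁻¹ * C) * (ρ * ρ⁻¹) * ω := by noncomm_ring
    _ = ω := by rw [mul_inv_cancel₀ hA0, inv_mul_cancel₀ hw, mul_inv_cancel₀ hρ0]; simp

end Vale.Agent.P011.Two.CR
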