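import Vale.Agent.P011.Two.ChainRealA
import Vale.Agent.P011.Two.ChainRealB
import Vale.Agent.P011.Even.RealSide
import Vale.Agent.P011.Even.RealLoc

/-!
Rotations along a line: continuity at a real place.
-/

open NumberField IsDedekindDomain Module Matrix

set_option linter.unusedSectionVars false

namespace Vale.Agent.P011.Two.CR

open Vale.Agent.P011.Arith Vale.Agent.P011.Even
open Vale.Agent.P011.RP (RData)

variable {k K D : Type} [Field k] [NumberField k] [Field K] [StarRing K]
  [DivisionRing D] [StarRing D] [Algebra k K] [Algebra k D] [Algebra K D] [IsScalarTower k K D]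
  {d : kˣ} {s : K} {n N : ℕ}

/-- The image of `K` is dense in the complex numbers. -/
theorem dense_range (hS : Setting k K D d s) (R : RData K D n) {φ : k →+* ℝ}
    (hφ : ∀ a, R.s (algebraMap k K a) = ((φ a : ℝ) : ℂ)) (hd : φ d < 0) :
    Dense (Set.range R.s) := by
  have hre : (R.s s).re = 0 := by
    have h2 := R.hs s
    rw [hS.star_s, map_neg] at h2
    have h3 := congrArg Complex.re h2
    simp only [Complex.neg_re, Complex.star_def, Complex.conj_re] at h3
    linarith
  have him : (R.s s).im ≠ 0 := by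
    intro h
    have h0 : R.s s = 0 := Complex.ext hre h
    have h2 : ((φ d : ℝ) : ℂ) = R.s s ^ 2 := by rw [← hφ, ← hS.sq, map_pow]
    rw [h0] at h2
    have h3 : φ d = 0 := by
      have : ((φ d : ℝ) : ℂ) = 0 := by rw [h2]; norm_num
      exact_mod_cast this
    linarith
  rw [Metric.dense_iff]
  intro z r hr
  set τ := (R.s s).im with hτ
  have hτ0 : 0 < |τ| := abs_pos.mpr him
  obtain ⟨a, ha1, ha2⟩ := exists_rat_btwn (show z.re - r / 2 < z.re + r / 2 by linarith)
  obtain ⟨b, hb1, hb2⟩ := exists_rat_btwn (show z.im / τ - r / (2 * |τ|) < z.im / τ + r / (2 * |τ|)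
    by have : 0 < r / (2 * |τ|) := by positivity
       linarith)
  have := numberField_of_setting hS
  refine ⟨R.s ((a : K) + (b : K) * s), ?_, ⟨_, rfl⟩⟩
  rw [Metric.mem_ball, Complex.dist_eq]
  have hA : |(a : ℝ) - z.re| < r / 2 := by rw [abs_lt]; constructor <;> linarith
  have hB : |(b : ℝ) - z.im / τ| < r / (2 * |τ|) := by rw [abs_lt]; constructor <;> linarith
  have e : R.s ((a : K) + (b : K) * s) - z =
      (((a : ℝ) - z.re : ℝ) : ℂ) + (((b : ℝ) - z.im / τ : ℝ) : ℂ) * (τ * Complex.I) := by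
    rw [map_add, map_mul, map_ratCast, map_ratCast]
    apply Complex.ext
    · simp [hre]
    · simp [hre, ← hτ]
      field_simp
  rw [e]
  refine (norm_add_le _ _).trans_lt ?_
  rw [norm_mul, norm_mul, Complex.norm_I, mul_one, Complex.norm_real, Complex.norm_real,
    Complex.norm_real, Real.norm_eq_abs, Real.norm_eq_abs, Real.norm_eq_abs]
  have : |(b : ℝ) - z.im / τ| * |τ| < r / 2 := by
    calc |(b : ℝ) - z.im / τ| * |τ| < r / (2 * |τ|) * |τ| := mul_lt_mul_of_pos_right hB hτ0
      _ = r / 2 := by field_simp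
  linarith

/-- The complex rotation. -/
noncomputable def GG (P : Matrix (Fin n) (Fin n) ℂ) (w : ℂ) : Matrix (Fin n) (Fin n) ℂ :=
  (1 + Matrix.scalar (Fin n) w * P) * (Matrix.scalar (Fin n) (star w) + P)⁻¹ * P

/-- The bad points. -/
def SS (P : Matrix (Fin n) (Fin n) ℂ) : Set ℂ := {w | (Matrix.scalar (Fin n) (star w) + P).det = 0}

theorem SS_finite (P : Matrix (Fin n) (Fin n) ℂ) : (SS P).Finite := by
  have h1 : {z : ℂ | (P.charpoly).IsRoot z}.Finite := by
    have h0 : P.charpoly ≠ 0 := (Matrix.charpoly_monic P).ne_zero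
    exact (Polynomial.finite_setOfPred_isRoot h0)
  refine Set.Finite.subset (h1.image fun z => -star z) ?_
  intro w hw
  refine ⟨-star w, ?_, by simp⟩
  have hw' : (Matrix.scalar (Fin n) (star w) + P).det = 0 := hw
  change P.charpoly.eval (-star w) = 0
  rw [Matrix.eval_charpoly]
  have e : Matrix.scalar (Fin n) (-star w) - P = -(Matrix.scalar (Fin n) (star w) + P) := by
    rw [map_neg]; abel
  rw [e, Matrix.det_neg, hw', mul_zero]

theorem GG_continuousAt (P : Matrix (Fin n) (Fin n) ℂ) {w : ℂ} (hw : w ∉ SS P) :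
    ContinuousAt (GG P) w := by
  have hdet : (Matrix.scalar (Fin n) (star w) + P).det ≠ 0 := hw
  have hc1 : Continuous fun w : ℂ => (1 + Matrix.scalar (Fin n) w * P) := by
    simp only [Matrix.scalar_apply]
    fun_prop
  have hc2 : Continuous fun w : ℂ => (Matrix.scalar (Fin n) (star w) + P) := by
    simp only [Matrix.scalar_apply]
    fun_prop
  have hinv : ContinuousAt (fun w : ℂ => (Matrix.scalar (Fin n) (star w) + P)⁻¹) w := by
    have e : (fun w : ℂ => (Matrix.scalar (Fin n) (star w) + P)⁻¹) = fun w =>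
        ((Matrix.scalar (Fin n) (star w) + P).det)⁻¹ •
          (Matrix.scalar (Fin n) (star w) + P).adjugate := by
      funext w
      rw [Matrix.inv_def, Ring.inverse_eq_inv']
    rw [e]
    exact ((Continuous.matrix_det hc2).continuousAt.inv₀ hdet).smul
      (Continuous.matrix_adjugate hc2).continuousAt
  exact (hc1.continuousAt.mul hinv).mul continuousAt_const

variable (B : Module.Basis (Fin N) k D)

theorem rc_add (φ : k →+* ℝ) (x y : D) : rc B φ (x + y) = rc B φ x + rc B φ y := by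
  funext i; simp [rc]

theorem rc_sub (φ : k →+* ℝ) (x y : D) : rc B φ (x - y) = rc B φ x - rc B φ y := by
  funext i; simp [rc]

theorem nm_le_rc (φ : k →+* ℝ) (x : D) : nm B (.inr φ) x ≤ N * ‖rc B φ x‖ := by
  rw [Even.nm]
  calc ∑ i, plAbv (.inr φ) (B.repr x i) ≤ ∑ _i : Fin N, ‖rc B φ x‖ := by
        refine Finset.sum_le_sum fun i _ => ?_
        rw [plAbv_inr, ← Real.norm_eq_abs]
        exact norm_le_pi_norm (rc B φ x) i
    _ = N * ‖rc B φ x‖ := by simp

/-- Fine chains of rotations. -/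
theorem rot_chain (hS : Setting k K D d s) (hn : 0 < n) (hdeg : finrank K D = n ^ 2)
    {φ : k →+* ℝ} (hd : φ d < 0) {ρ : D} (hρ0 : ρ ≠ 0) (hρ1 : 1 + ρ ≠ 0) :
    ∃ M : ℝ, ∀ ε : ℝ, 0 < ε → Relation.ReflTransGen (fun w w' : K =>
      algebraMap K D (star w) + ρ ≠ 0 ∧ algebraMap K D (star w') + ρ ≠ 0 ∧
      nm B (.inr φ) (rot ρ w) ≤ M ∧ nm B (.inr φ) (rot ρ w') ≤ M ∧
      nm B (.inr φ) (rot ρ w' - rot ρ w) < ε) 0 1 := by
  have _ := numberField_of_setting hS
  obtain ⟨R, hR⟩ := exists_rdata_of hS hn hdeg hd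
  set P : Matrix (Fin n) (Fin n) ℂ := R.f ρ with hP
  have hbij := Lam_bij hS B hn hdeg hd R hR
  set L : (Fin N → ℝ) ≃ₗ[ℝ] Matrix (Fin n) (Fin n) ℂ := LinearEquiv.ofBijective (Lam B R) hbij with hL
  have hLrc : ∀ x : D, L.symm (R.f x) = rc B φ x := by
    intro x
    rw [LinearEquiv.symm_apply_eq]
    exact (Lam_rc B R hR x).symm
  set Hf : ℂ → (Fin N → ℝ) := fun w => L.symm (GG P w) with hHf
  have hLc : Continuous L.symm := LinearMap.continuous_of_finiteDimensional L.symm.toLinearMap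
  have hHc : ∀ w, w ∉ SS P → ContinuousAt Hf w := fun w hw =>
    hLc.continuousAt.comp (GG_continuousAt P hw)
  have hfC : ∀ w : K, R.f (algebraMap K D (star w) + ρ) =
      Matrix.scalar (Fin n) (star (R.s w)) + P := by
    intro w
    rw [map_add, R.hf, R.hs]
  have hgood : ∀ w : K, R.s w ∉ SS P → algebraMap K D (star w) + ρ ≠ 0 := by
    intro w hw h0
    apply hw
    change (Matrix.scalar (Fin n) (star (R.s w)) + P).det = 0
    rw [← hfC, h0, map_zero]
    have : Nonempty (Fin n) := ⟨⟨0, hn⟩⟩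
    exact Matrix.det_zero
  have hrot : ∀ w : K, R.s w ∉ SS P → Hf (R.s w) = rc B φ (rot ρ w) := by
    intro w hw
    rw [← hLrc]
    change L.symm (GG P (R.s w)) = _
    congr 1
    rw [rot, map_mul, map_mul, map_add, map_one, map_mul, R.hf, GG]
    congr 2
    have h1 : IsUnit (Matrix.scalar (Fin n) (star (R.s w)) + P).det := isUnit_iff_ne_zero.mpr hw
    have h2 : R.f (algebraMap K D (star w) + ρ) * R.f (algebraMap K D (star w) + ρ)⁻¹ = 1 := by
      rw [← map_mul, mul_inv_cancel₀ (hgood w hw), map_one]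
    rw [hfC] at h2
    exact (Matrix.inv_eq_right_inv h2)
  have h0S : (0 : ℂ) ∉ SS P := by
    change (Matrix.scalar (Fin n) (star (0 : ℂ)) + P).det ≠ 0
    rw [star_zero, map_zero, zero_add]
    exact ((Matrix.isUnit_iff_isUnit_det _).mp (f_unit R hρ0)).ne_zero
  have h1S : (1 : ℂ) ∉ SS P := by
    change (Matrix.scalar (Fin n) (star (1 : ℂ)) + P).det ≠ 0
    have e : Matrix.scalar (Fin n) (star (1 : ℂ)) + P = R.f (1 + ρ) := by
      rw [map_add, map_one, star_one, map_one]
    rw [e]
    exact ((Matrix.isUnit_iff_isUnit_det _).mp (f_unit R hρ1)).ne_zero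
  obtain ⟨M, hM⟩ := exists_chain01 (dense_range hS R hR hd) (SS_finite P) Hf hHc h0S h1S
    ⟨0, map_zero _⟩ ⟨1, map_one _⟩
  refine ⟨N * M, fun ε hε => ?_⟩
  have hinj : Function.Injective R.s := R.s.injective
  have hε' : 0 < ε / (N + 1) := by positivity
  have hchain := hM (ε / (N + 1)) hε'
  -- transfer to `K`
  have key : ∀ z z' : ℂ, Relation.ReflTransGen (Cl2 (Set.range R.s) (SS P) Hf M (ε / (N + 1))) z z' →
      ∀ w : K, R.s w = z → ∀ w' : K, R.s w' = z' → Relation.ReflTransGen (fun w w' : K =>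
      algebraMap K D (star w) + ρ ≠ 0 ∧ algebraMap K D (star w') + ρ ≠ 0 ∧
      nm B (.inr φ) (rot ρ w) ≤ N * M ∧ nm B (.inr φ) (rot ρ w') ≤ N * M ∧
      nm B (.inr φ) (rot ρ w' - rot ρ w) < ε) w w' := by
    intro z z' h
    induction h with
    | refl =>
      intro w hw w' hw'
      rw [hinj (hw.trans hw'.symm)]
    | tail _ hlast ih =>
      intro w hw w' hw'
      obtain ⟨⟨w₁, rfl⟩, a2, a3, a4, a5, a6, a7⟩ := hlast
      refine (ih w hw w₁ rfl).tail ?_
      subst hw'
      refine ⟨hgood _ a2, hgood _ a4, ?_, ?_, ?_⟩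
      · rw [hrot _ a2] at a5
        exact (nm_le_rc B φ _).trans (mul_le_mul_of_nonneg_left a5 (by positivity))
      · rw [hrot _ a4] at a6
        exact (nm_le_rc B φ _).trans (mul_le_mul_of_nonneg_left a6 (by positivity))
      · rw [hrot _ a2, hrot _ a4, ← rc_sub] at a7
        refine (nm_le_rc B φ _).trans_lt ?_
        calc (N : ℝ) * ‖rc B φ (rot ρ w' - rot ρ w₁)‖ ≤ N * (ε / (N + 1)) :=
              mul_le_mul_of_nonneg_left a7.le (by positivity)
          _ < ε := by
              rw [mul_div_assoc', div_lt_iff₀ (by positivity)]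
              nlinarith
  exact key 0 1 hchain 0 (map_zero _) 1 (map_one _)

end Vale.Agent.P011.Two.CR
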