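import Vale.Agent.P011.Even.GTrick

/-!
The trace of the left multiplication and the minimal polynomial.
-/

open Polynomial Module

set_option linter.unusedSectionVars false

namespace Vale.Agent.P011.Two

open Vale.Agent.P011.Arith Vale.Agent.P011.Even

/-- The trace of the left multiplication. -/
noncomputable def tr (K : Type) {D : Type} [Field K] [DivisionRing D] [Algebra K D] : D →ₗ[K] K :=
  (LinearMap.trace K D).comp (LinearMap.mul K D)

section trace

variable {K D : Type} [Field K] [DivisionRing D] [Algebra K D] [FiniteDimensional K D]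

theorem trace_sub {L : Type} [Field L] [Algebra K L] [FiniteDimensional K L] (ι : L →ₐ[K] D) :
    ∃ r : ℕ, ∀ y : L, tr K (ι y) = r * Algebra.trace K L y := by
  classical
  let _ : Module L D := Module.compHom D (ι : L →+* D)
  have hsm : ∀ (l : L) (d : D), l • d = ι l * d := fun _ _ => rfl
  have : IsScalarTower K L D := ⟨fun k l d => by
    rw [hsm, hsm, map_smul, smul_mul_assoc]⟩
  have : FiniteDimensional L D := FiniteDimensional.right K L D
  let b := Module.finBasis K L
  let c := Module.finBasis L D
  refine ⟨finrank L D, fun y => ?_⟩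
  have h0 : tr K (ι y) = LinearMap.trace K D (LinearMap.mul K D (ι y)) := rfl
  rw [h0, LinearMap.trace_eq_matrix_trace K (b.smulTower c), Algebra.trace_apply,
    LinearMap.trace_eq_matrix_trace K b, Matrix.trace, Matrix.trace, Fintype.sum_prod_type]
  simp only [Matrix.diag_apply, LinearMap.toMatrix_apply, Basis.smulTower_apply,
    Basis.smulTower_repr]
  have h1 : ∀ (i : Fin (finrank K L)) (j : Fin (finrank L D)),
      (b.repr ((c.repr ((LinearMap.mulLeft K (ι y)) (b i • c j))) j)) i = (b.repr (y * b i)) i := by
    intro i j
    have e1 : (LinearMap.mulLeft K (ι y)) (b i • c j) = (y * b i) • c j := by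
      rw [LinearMap.mulLeft_apply, mul_smul, hsm y]
    rw [e1, map_smul, Basis.repr_self]
    simp
  have h2 : ∀ (i : Fin (finrank K L)) (j : Fin (finrank L D)),
      (b.repr ((c.repr ((LinearMap.mul K D) (ι y) (b i • c j))) j)) i = (b.repr (y * b i)) i := h1
  have h3 : ∀ i, (b.repr ((Algebra.lmul K L) y (b i))) i = (b.repr (y * b i)) i := fun i => rfl
  simp only [h2, h3, Finset.sum_const, Finset.card_univ, Fintype.card_fin, nsmul_eq_mul,
    Finset.mul_sum]

theorem tr_one : tr K (1 : D) = finrank K D := by
  have h0 : tr K (1 : D) = LinearMap.trace K D (LinearMap.mul K D 1) := rfl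
  have h1 : LinearMap.mul K D 1 = LinearMap.id := by
    ext x
    simp
  rw [h0, h1, LinearMap.trace_id]

open scoped IsMulCommutative in
/-- The trace is determined by the minimal polynomial. -/
theorem natDegree_mul_tr (x : D) :
    ((minpoly K x).natDegree : K) * tr K x = -((finrank K D : K) * (minpoly K x).nextCoeff) := by
  have _ : IsMulCommutative (Algebra.adjoin K {x}) := by
    apply IsMulCommutative.of_setLike_mul_comm
    intro a ha b hb
    rw [Algebra.adjoin_singleton_eq_range_aeval] at ha hb
    obtain ⟨p, rfl⟩ := ha
    obtain ⟨q, rfl⟩ := hb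
    change aeval x p * aeval x q = aeval x q * aeval x p
    rw [← map_mul, mul_comm, map_mul]
  let _ : Field (Algebra.adjoin K {x}) := fieldOfFiniteDimensional K _
  obtain ⟨r, hr⟩ := trace_sub (K := K) (Algebra.adjoin K {x}).val
  obtain ⟨g, hg⟩ : ∃ g : Algebra.adjoin K {x}, g = ⟨x, Algebra.self_mem_adjoin_singleton K x⟩ :=
    ⟨_, rfl⟩
  have hgx : (Algebra.adjoin K {x}).val g = x := by rw [hg]; rfl
  have hm : minpoly K g = minpoly K x := by
    have h := minpoly.algHom_eq (Algebra.adjoin K {x}).val Subtype.val_injective g
    rw [hgx] at h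
    exact h.symm
  have h1 := hr g
  have h2 := hr 1
  rw [map_one, tr_one] at h2
  rw [hgx, trace_eq_finrank_mul_minpoly_nextCoeff, hm] at h1
  have h3 : Algebra.trace K (Algebra.adjoin K {x}) 1 = finrank K (Algebra.adjoin K {x}) := by
    have := Algebra.trace_algebraMap (R := K) (S := Algebra.adjoin K {x}) (1 : K)
    rw [map_one, nsmul_eq_mul, mul_one] at this
    exact this
  rw [h3] at h2
  have h4 : finrank K (IntermediateField.adjoin K {g}) *
      finrank (IntermediateField.adjoin K {g}) (Algebra.adjoin K {x}) =
      finrank K (Algebra.adjoin K {x}) := Module.finrank_mul_finrank _ _ _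
  rw [IntermediateField.adjoin.finrank (IsIntegral.of_finite K g), hm] at h4
  rw [h1, h2, ← h4]
  push_cast
  ring

end trace

section star

variable {k K D : Type} [Field k] [NumberField k] [Field K] [StarRing K]
    [DivisionRing D] [StarRing D] [Algebra k K] [Algebra k D] [Algebra K D] [IsScalarTower k K D]
    {d : kˣ} {s : K}

theorem star_aeval (hS : Setting k K D d s) (x : D) (p : K[X]) :
    star (aeval x p) = aeval (star x) (p.map (starRingEnd K)) := by
  have hs : ∀ c : K, star (algebraMap K D c) = algebraMap K D (star c) := by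
    intro c
    rw [Algebra.algebraMap_eq_smul_one, hS.star_smul, star_one, ← Algebra.algebraMap_eq_smul_one]
  induction p using Polynomial.induction_on' with
  | add p q hp hq => rw [map_add, star_add, Polynomial.map_add, map_add, hp, hq]
  | monomial n a =>
    rw [Polynomial.map_monomial, aeval_monomial, aeval_monomial, star_mul, star_pow, hs]
    exact (Algebra.commutes _ _).symm

theorem minpoly_star (hS : Setting k K D d s) (x : D) :
    minpoly K (star x) = (minpoly K x).map (starRingEnd K) := by
  have _ := hS.fin
  have hdvd : ∀ x : D, minpoly K (star x) ∣ (minpoly K x).map (starRingEnd K) := by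
    intro x
    apply minpoly.dvd
    rw [← star_aeval hS, minpoly.aeval, star_zero]
  have hdeg : ∀ x : D, (minpoly K (star x)).natDegree ≤ (minpoly K x).natDegree := by
    intro x
    have h := Polynomial.natDegree_le_of_dvd (hdvd x)
      (((minpoly.monic (IsIntegral.of_finite K x)).map _).ne_zero)
    rwa [Polynomial.natDegree_map] at h
  symm
  apply Polynomial.eq_of_monic_of_dvd_of_natDegree_le (minpoly.monic (IsIntegral.of_finite K _))
    ((minpoly.monic (IsIntegral.of_finite K x)).map _) (hdvd x)
  rw [Polynomial.natDegree_map]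
  have := hdeg (star x)
  rwa [star_star] at this

theorem tr_star (hS : Setting k K D d s) (x : D) : tr K (star x) = star (tr K x) := by
  have _ := hS.fin
  have _ : CharZero K := charZero_of_injective_algebraMap (algebraMap k K).injective
  have h1 := natDegree_mul_tr (K := K) x
  have h2 := natDegree_mul_tr (K := K) (star x)
  rw [minpoly_star hS, Polynomial.natDegree_map,
    Polynomial.nextCoeff_map (starRingEnd K).injective] at h2
  have h3 := congrArg star h1
  rw [star_mul', star_neg, star_mul', star_natCast, star_natCast] at h3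
  have h4 : ((minpoly K x).natDegree : K) ≠ 0 :=
    Nat.cast_ne_zero.mpr (minpoly.natDegree_pos (IsIntegral.of_finite K x)).ne'
  apply mul_left_cancel₀ h4
  rw [h2, h3]
  rfl

theorem tr_conj (hS : Setting k K D d s) {x : D}
    (h : minpoly K x = (minpoly K x).map (starRingEnd K)) : star (tr K x) = tr K x := by
  have _ := hS.fin
  have _ : CharZero K := charZero_of_injective_algebraMap (algebraMap k K).injective
  have h1 := natDegree_mul_tr (K := K) x
  have h2 := natDegree_mul_tr (K := K) (star x)
  rw [minpoly_star hS, ← h] at h2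
  have h4 : ((minpoly K x).natDegree : K) ≠ 0 :=
    Nat.cast_ne_zero.mpr (minpoly.natDegree_pos (IsIntegral.of_finite K x)).ne'
  rw [← tr_star hS]
  apply mul_left_cancel₀ h4
  rw [h1, h2]

/-- The criterion used for the coprimality of the minimal polynomial with its conjugate. -/
theorem minpoly_ne_of_tr (hS : Setting k K D d s) {x : D} (h : tr K (x + star x) ≠ 0) :
    minpoly K (algebraMap K D s⁻¹ * x) ≠
      (minpoly K (algebraMap K D s⁻¹ * x)).map (starRingEnd K) := by
  intro hc
  apply h
  have h1 := tr_conj hS hc
  have h2 : tr K (algebraMap K D s⁻¹ * x) = s⁻¹ * tr K x := by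
    rw [← Algebra.smul_def, map_smul, smul_eq_mul]
  rw [h2, star_mul', star_inv₀, hS.star_s, inv_neg, neg_mul] at h1
  have h3 : s⁻¹ ≠ 0 := by
    refine inv_ne_zero ?_
    intro h0
    have := hS.sq
    rw [h0, zero_pow two_ne_zero] at this
    exact d.ne_zero ((map_eq_zero _).mp this.symm)
  rw [map_add, tr_star hS]
  apply mul_left_cancel₀ h3
  rw [mul_zero, mul_add, ← h1]
  ring

end star

end Vale.Agent.P011.Two
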