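import Vale.Agent.P011.Two.Shift
import Vale.Agent.P011.Two.Tr

/-!
Choice of the stereographic coordinates.
-/

open NumberField IsDedekindDomain Polynomial

set_option linter.unusedSectionVars false

namespace Vale.Agent.P011.Two

open Vale.Agent.P011.Arith Vale.Agent.P011.Even

theorem exists_scale {K : Type} [Field K] [CharZero K] (n A C' : K) (hn : n ≠ 0) (t : K)
    (ht : t ≠ 0) : ∃ j : ℕ, j < 7 ∧ n + (1 + j * t) ^ 2 * A ≠ 0 ∧
      (1 + j * t) ^ 2 * A - n ≠ 0 ∧ (1 + j * t) ^ 2 * A - n + (1 + j * t) * C' ≠ 0 := by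
  classical
  obtain ⟨P, hP⟩ : ∃ P : K[X], P = (C n + X ^ 2 * C A) * (X ^ 2 * C A - C n) *
    (X ^ 2 * C A - C n + X * C C') := ⟨_, rfl⟩
  have hev : ∀ x : K, P.eval x = (n + x ^ 2 * A) * (x ^ 2 * A - n) * (x ^ 2 * A - n + x * C') := by
    intro x
    rw [hP]
    simp only [eval_mul, eval_add, eval_sub, eval_C, eval_pow, eval_X]
  have hP0 : P ≠ 0 := by
    intro h
    have h1 := hev 0
    rw [h, eval_zero] at h1
    apply hn
    have h2 : n ^ 3 = 0 := by linear_combination -h1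
    exact pow_eq_zero_iff (by norm_num) |>.mp h2
  have hdeg : P.natDegree ≤ 6 := by
    rw [hP]
    compute_degree
  by_contra hcon
  push Not at hcon
  apply hP0
  refine Polynomial.eq_zero_of_natDegree_lt_card_of_eval_eq_zero' P
    ((Finset.range 7).image fun j : ℕ => 1 + (j : K) * t) ?_ ?_
  · intro x hx
    obtain ⟨j, hj, rfl⟩ := Finset.mem_image.mp hx
    rw [Finset.mem_range] at hj
    rw [hev]
    by_cases h1 : n + (1 + j * t) ^ 2 * A = 0
    · rw [h1, zero_mul, zero_mul]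
    · by_cases h2 : (1 + j * t) ^ 2 * A - n = 0
      · rw [h2, mul_zero, zero_mul]
      · rw [hcon j hj h1 h2, mul_zero]
  · rw [Finset.card_image_of_injective, Finset.card_range]
    · omega
    · intro a b hab
      have h1 : (a : K) * t = b * t := by linear_combination hab
      exact Nat.cast_injective (mul_right_cancel₀ ht h1)

variable {k K D : Type} [Field k] [NumberField k] [Field K] [StarRing K]
    [DivisionRing D] [StarRing D] [Algebra k K] [Algebra k D] [Algebra K D] [IsScalarTower k K D]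
    {d : kˣ} {s : K} {N : ℕ}

theorem plAbv_nat_le (p : Pl k) (j : ℕ) : plAbv p (j : k) ≤ j := by
  induction j with
  | zero => simp
  | succ j ih =>
    rw [Nat.cast_succ, Nat.cast_succ]
    refine ((plAbv p).add_le _ _).trans ?_
    rw [AbsoluteValue.map_one]
    linarith

theorem ssaD (d : kˣ) (B : Module.Basis (Fin N) k D) {S : Set (HeightOneSpectrum (𝓞 k))}
    (hSf : S.Finite) (y : Pl k → D) (δ : Pl k → ℝ) (hδ : ∀ p, 0 < δ p) : ∃ x : D,
      (∀ v ∈ S, d ∉ LS (v.valuation k) → nm B (.inl v) (x - y (.inl v)) < δ (.inl v)) ∧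
      (∀ φ : k →+* ℝ, nm B (.inr φ) (x - y (.inr φ)) < δ (.inr φ)) ∧
      ∀ v ∉ S, d ∉ LS (v.valuation k) → Ing B v x := by
  have h1 : ∀ i : Fin N, ∃ f : k,
      (∀ v ∈ hSf.toFinset, d ∉ LS (v.valuation k) →
        plAbv (.inl v) (f - B.repr (y (.inl v)) i) < δ (.inl v) / (N + 1)) ∧
      (∀ φ : k →+* ℝ, plAbv (.inr φ) (f - B.repr (y (.inr φ)) i) < δ (.inr φ) / (N + 1)) ∧
      ∀ v ∉ hSf.toFinset, d ∉ LS (v.valuation k) → v.valuation k f ≤ 1 := fun i =>
    ssa d hSf.toFinset (fun p => B.repr (y p) i) (fun p => δ p / (N + 1)) (fun p => by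
      have := hδ p
      positivity)
  choose f hf1 hf2 hf3 using h1
  have h2 : ∀ p : Pl k, ∀ i, B.repr (∑ i, f i • B i - y p) i = f i - B.repr (y p) i := by
    intro p i
    rw [map_sub, Finsupp.sub_apply, B.repr_sum_self]
  have h3 : ∀ p : Pl k, (∀ i, plAbv p (f i - B.repr (y p) i) < δ p / (N + 1)) →
      nm B p (∑ i, f i • B i - y p) < δ p := by
    intro p hp
    rw [Even.nm]
    have h3 : ∀ i ∈ (Finset.univ : Finset (Fin N)),
        plAbv p (B.repr (∑ i, f i • B i - y p) i) ≤ δ p / (N + 1) := by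
      intro i _
      rw [h2]
      exact (hp i).le
    refine (Finset.sum_le_sum h3).trans_lt ?_
    rw [Finset.sum_const, Finset.card_univ, Fintype.card_fin, nsmul_eq_mul]
    have h4 := hδ p
    rw [mul_div_assoc', div_lt_iff₀ (by positivity)]
    nlinarith
  refine ⟨∑ i, f i • B i, fun v hv hns => h3 _ fun i => ?_, fun φ => h3 _ fun i => hf2 i φ,
    fun v hv hns l => ?_⟩
  · exact hf1 i v ((Set.Finite.mem_toFinset _).mpr hv) hns
  · rw [B.repr_sum_self]
    exact hf3 l v (fun h => hv ((Set.Finite.mem_toFinset _).mp h)) hns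

theorem small_scalar (d : kˣ) {S : Set (HeightOneSpectrum (𝓞 k))}
    (hSf : S.Finite) (δ : Pl k → ℝ) (hδ : ∀ p, 0 < δ p) : ∃ t : k, t ≠ 0 ∧
      (∀ v ∈ S, d ∉ LS (v.valuation k) → plAbv (.inl v) t < δ (.inl v)) ∧
      (∀ φ : k →+* ℝ, plAbv (.inr φ) t < δ (.inr φ)) ∧
      ∀ v ∉ S, d ∉ LS (v.valuation k) → v.valuation k t ≤ 1 := by
  by_cases hex : (∃ v ∈ S, d ∉ LS (v.valuation k)) ∨ ∃ φ : k →+* ℝ, True
  · choose r hr0 hr1 using fun p : Pl k => exists_abv_lt p (half_pos (hδ p))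
    obtain ⟨t, h1, h2, h3⟩ := ssa d hSf.toFinset r (fun p => plAbv p (r p))
      (fun p => (plAbv p).pos (hr0 p))
    have key : ∀ p : Pl k, plAbv p (t - r p) < plAbv p (r p) → t ≠ 0 ∧ plAbv p t < δ p := by
      intro p hp
      refine ⟨?_, ?_⟩
      · rintro rfl
        rw [zero_sub, AbsoluteValue.map_neg] at hp
        exact lt_irrefl _ hp
      · have h4 : plAbv p t ≤ plAbv p (t - r p) + plAbv p (r p) := by
          have := (plAbv p).add_le (t - r p) (r p)
          rwa [sub_add_cancel] at this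
        have := hr1 p
        linarith
    refine ⟨t, ?_, fun v hv hns => ?_, fun φ => ?_, fun v hv hns => ?_⟩
    · rcases hex with ⟨v, hv, hns⟩ | ⟨φ, -⟩
      · exact (key _ (h1 v ((Set.Finite.mem_toFinset _).mpr hv) hns)).1
      · exact (key _ (h2 φ)).1
    · exact (key _ (h1 v ((Set.Finite.mem_toFinset _).mpr hv) hns)).2
    · exact (key _ (h2 φ)).2
    · exact h3 v (fun h => hv ((Set.Finite.mem_toFinset _).mp h)) hns
  · rw [not_or] at hex
    refine ⟨1, one_ne_zero, fun v hv hns => absurd ⟨v, hv, hns⟩ hex.1,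
      fun φ => absurd ⟨φ, trivial⟩ hex.2, fun v hv hns => by rw [map_one]⟩

theorem tr_smul (c : k) (x : D) : tr K (c • x) = algebraMap k K c * tr K x := by
  rw [← smul_eq_mul, ← map_smul, algebraMap_smul]

/-- The choice of the first stereographic coordinate. -/
theorem exists_b (hS : Setting k K D d s) (B : Module.Basis (Fin N) k D)
    {S : Set (HeightOneSpectrum (𝓞 k))} (hSf : S.Finite) (g ρ : D) (y : Pl k → D)
    (δ : Pl k → ℝ) (hδ : ∀ p, 0 < δ p) : ∃ b : D,
      (∀ v ∈ S, d ∉ LS (v.valuation k) → nm B (.inl v) (b - y (.inl v)) < δ (.inl v)) ∧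
      (∀ φ : k →+* ℝ, nm B (.inr φ) (b - y (.inr φ)) < δ (.inr φ)) ∧
      (∀ v ∉ S, d ∉ LS (v.valuation k) → Ing B v b) ∧
      tr K (1 + b * g * star b) ≠ 0 ∧ tr K (b * g * star b - 1) ≠ 0 ∧
      tr K (b * g * star b - 1 + (b * g * ρ + star (b * g * ρ))) ≠ 0 := by
  have _ : CharZero K := charZero_of_injective_algebraMap (algebraMap k K).injective
  have _ := hS.fin
  obtain ⟨b₀, h1, h2, h3⟩ := ssaD d B hSf y (fun p => δ p / 2) (fun p => half_pos (hδ p))
  obtain ⟨t, ht0, t1, t2, t3⟩ := small_scalar d hSf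
    (fun p => δ p / (14 * (nm B p b₀ + 1))) (fun p => by
      have := hδ p
      have := nm_nonneg B p b₀
      positivity)
  obtain ⟨n, hn⟩ : ∃ n : K, n = tr K (1 : D) := ⟨_, rfl⟩
  have hn0 : n ≠ 0 := by
    rw [hn, tr_one]
    exact Nat.cast_ne_zero.mpr (Module.finrank_pos (R := K) (M := D)).ne'
  obtain ⟨A, hA⟩ : ∃ A : K, A = tr K (b₀ * g * star b₀) := ⟨_, rfl⟩
  obtain ⟨C', hC'⟩ : ∃ C' : K, C' = tr K (b₀ * g * ρ + star (b₀ * g * ρ)) := ⟨_, rfl⟩
  obtain ⟨j, hj, hj1, hj2, hj3⟩ := exists_scale n A C' hn0 (algebraMap k K t)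
    ((_root_.map_ne_zero _).mpr ht0)
  obtain ⟨c, hc⟩ : ∃ c : k, c = 1 + j * t := ⟨_, rfl⟩
  have hcK : algebraMap k K c = 1 + j * algebraMap k K t := by
    rw [hc, map_add, map_one, map_mul, map_natCast]
  rw [← hcK] at hj1 hj2 hj3
  have hstar : ∀ x : D, star (c • x) = c • star x := fun x => (sig hS).map_smul c x
  have e1 : (c • b₀) * g * star (c • b₀) = c ^ 2 • (b₀ * g * star b₀) := by
    rw [hstar, smul_mul_assoc, smul_mul_assoc, mul_smul_comm, smul_smul, sq]
  have e2 : (c • b₀) * g * ρ = c • (b₀ * g * ρ) := by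
    rw [smul_mul_assoc, smul_mul_assoc]
  have hnear : ∀ p : Pl k, nm B p (b₀ - y p) < δ p / 2 →
      plAbv p t < δ p / (14 * (nm B p b₀ + 1)) → nm B p (c • b₀ - y p) < δ p := by
    intro p hp1 hp2
    have h4 : c • b₀ - y p = (b₀ - y p) + (j * t) • b₀ := by
      rw [hc, add_smul, one_smul]
      abel
    rw [h4]
    refine (nm_add_le B p _ _).trans_lt ?_
    rw [nm_smul, map_mul]
    have h5 := nm_nonneg B p b₀
    have h6 := plAbv_nat_le p j
    have h7 : (j : ℝ) ≤ 7 := by exact_mod_cast hj.le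
    have h8 := (plAbv p).nonneg t
    have h9 := (plAbv p).nonneg (j : k)
    have h10 : plAbv p t * (14 * (nm B p b₀ + 1)) < δ p := (lt_div_iff₀ (by positivity)).mp hp2
    have h11 : plAbv p (j : k) * plAbv p t * nm B p b₀ ≤ 7 * plAbv p t * nm B p b₀ := by
      refine mul_le_mul_of_nonneg_right ?_ h5
      exact mul_le_mul_of_nonneg_right (h6.trans h7) h8
    nlinarith
  refine ⟨c • b₀, fun v hv hns => hnear _ (h1 v hv hns) (t1 v hv hns),
    fun φ => hnear _ (h2 φ) (t2 φ), fun v hv hns => ?_, ?_, ?_, ?_⟩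
  · refine (h3 v hv hns).smul ?_
    rw [hc]
    refine (Valuation.map_add _ _ _).trans (max_le (by rw [map_one]) ?_)
    rw [map_mul]
    refine mul_le_one' ?_ (t3 v hv hns)
    have h8 := v.valuation_le_one (K := k) (j : 𝓞 k)
    have h9 : algebraMap (𝓞 k) k (j : 𝓞 k) = (j : k) := map_natCast _ j
    rw [← h9]
    exact h8
  · rw [e1, map_add, tr_smul, ← hn, ← hA, map_pow]
    exact hj1
  · rw [e1, map_sub, tr_smul, ← hn, ← hA, map_pow]
    exact hj2
  · rw [e1, e2, hstar, ← smul_add, map_add, map_sub, tr_smul, tr_smul, ← hn, ← hA, ← hC', map_pow]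
    exact hj3

end Vale.Agent.P011.Two
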