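import Vale.Agent.P011.Arith.Schilling

/-!
Generation of the unitary group of a division algebra by elements subject to finitely many
local conditions.
-/

open Module Filter Topology NumberField IsDedekindDomain

namespace Vale.Agent.P011.Two

open Vale.Agent.P011.Arith

section cay

variable {D : Type} [DivisionRing D] [StarRing D]

/-- The antisymmetric part. -/
def asym (β : D) : D := (2 : D)⁻¹ * (β - star β)

theorem star_asym (β : D) : star (asym β) = -asym β := by
  have h2 : star (2 : D) = 2 := by simp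
  have hc : (2 : D)⁻¹ * (β - star β) = (β - star β) * (2 : D)⁻¹ := by
    have h1 : Commute (2 : D) (β - star β) := by
      change 2 * (β - star β) = (β - star β) * 2
      rw [two_mul, mul_two]
    exact (h1.inv_left₀).eq
  rw [asym, star_mul, star_inv₀, h2, star_sub, star_star, hc, ← neg_mul, neg_sub]

theorem one_add_asym_ne (β : D) : 1 + asym β ≠ 0 := by
  intro h
  have h1 : asym β = -1 := (neg_eq_of_add_eq_zero_right h).symm
  have h2 := star_asym β
  rw [h1, star_neg, star_one, neg_neg] at h2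
  have h3 : (2 : D) = 0 := by
    rw [← one_add_one_eq_two]
    nth_rewrite 1 [← h2]
    exact neg_add_cancel 1
  have h4 : asym β = 0 := by rw [asym, h3, inv_zero, zero_mul]
  rw [h4] at h1
  have h5 : (1 : D) = 0 := by rw [← neg_neg (1 : D), ← h1, neg_zero]
  exact one_ne_zero h5

theorem one_sub_asym_ne (β : D) : 1 - asym β ≠ 0 := by
  intro h
  apply one_add_asym_ne β
  have h1 := congrArg star h
  rw [star_sub, star_one, star_asym, star_zero, sub_neg_eq_add] at h1
  exact h1

/-- The Cayley transform. -/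
def cay (β : D) : unitary D :=
  ⟨(1 - asym β) * (1 + asym β)⁻¹, by
    have hc : Commute (1 - asym β) (1 + asym β) := by
      change (1 - asym β) * (1 + asym β) = (1 + asym β) * (1 - asym β)
      noncomm_ring
    have hs : star ((1 - asym β) * (1 + asym β)⁻¹) = (1 - asym β)⁻¹ * (1 + asym β) := by
      rw [star_mul, star_inv₀, star_add, star_sub, star_one, star_asym, sub_neg_eq_add,
        ← sub_eq_add_neg]
    rw [Unitary.mem_iff, hs]
    constructor
    · calc (1 - asym β)⁻¹ * (1 + asym β) * ((1 - asym β) * (1 + asym β)⁻¹)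
          = (1 - asym β)⁻¹ * ((1 + asym β) * (1 - asym β)) * (1 + asym β)⁻¹ := by
            simp only [mul_assoc]
        _ = ((1 - asym β)⁻¹ * (1 - asym β)) * ((1 + asym β) * (1 + asym β)⁻¹) := by
            rw [← hc.eq]; simp only [mul_assoc]
        _ = 1 := by
            rw [inv_mul_cancel₀ (one_sub_asym_ne β), mul_inv_cancel₀ (one_add_asym_ne β),
              one_mul]
    · calc (1 - asym β) * (1 + asym β)⁻¹ * ((1 - asym β)⁻¹ * (1 + asym β))
          = (1 - asym β) * ((1 + asym β)⁻¹ * (1 - asym β)⁻¹) * (1 + asym β) := by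
            simp only [mul_assoc]
        _ = (1 - asym β) * ((1 - asym β)⁻¹ * (1 + asym β)⁻¹) * (1 + asym β) := by
            rw [← mul_inv_rev, hc.eq, mul_inv_rev]
        _ = ((1 - asym β) * (1 - asym β)⁻¹) * ((1 + asym β)⁻¹ * (1 + asym β)) := by
            simp only [mul_assoc]
        _ = 1 := by
            rw [mul_inv_cancel₀ (one_sub_asym_ne β), inv_mul_cancel₀ (one_add_asym_ne β),
              one_mul]⟩

theorem cay_val (β : D) : (cay β : D) = (1 - asym β) * (1 + asym β)⁻¹ := rfl

end cay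

variable {k D : Type} [Field k] [NumberField k] [DivisionRing D] [StarRing D] [Algebra k D]
  {N : ℕ}

/-- The data at a place: a topological group with open set of good elements. -/
structure LocData (B : Basis (Fin N) k D) (p : Pl k) (W : unitary D → Prop) where
  U : Type
  grp : Group U
  top : TopologicalSpace U
  tgrp : IsTopologicalGroup U
  g : unitary D →* U
  Ω : Set U
  opn : IsOpen Ω
  good : ∀ t, g t ∈ Ω → W t
  R : Set U
  sub : R ⊆ Ω
  ne : R.Nonempty
  gen : ∀ H : Subgroup U, (∀ a ∈ R, ∀ b ∈ R, a * b⁻¹ ∈ H) → H = ⊤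
  app : ∀ T ∈ R, ∀ O ∈ 𝓝 T, ∃ (x : Fin N → k) (δ : ℝ), 0 < δ ∧ ∀ β : D,
    (∀ j, plAbv p (B.repr β j - x j) < δ) → g (cay β) ∈ O

/-- Elements which satisfy local conditions generate. -/
theorem combine (B : Basis (Fin N) k D) {P : Set (Pl k)} (hP : P.Finite)
    {W : Pl k → unitary D → Prop} (L : ∀ p ∈ P, LocData B p (W p)) (H : Subgroup (unitary D))
    (hH : ∀ t, (∀ p ∈ P, W p t) → t ∈ H) (t : unitary D) : t ∈ H := by
  classical
  have _ : Finite P := hP
  let X : P → Type := fun p => (L p.1 p.2).U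
  let iG : ∀ p : P, Group (X p) := fun p => (L p.1 p.2).grp
  let iT : ∀ p : P, TopologicalSpace (X p) := fun p => (L p.1 p.2).top
  have iTG : ∀ p : P, IsTopologicalGroup (X p) := fun p => (L p.1 p.2).tgrp
  let g : ∀ p : P, unitary D →* X p := fun p => (L p.1 p.2).g
  let Ω : ∀ p : P, Set (X p) := fun p => (L p.1 p.2).Ω
  let R : ∀ p : P, Set (X p) := fun p => (L p.1 p.2).R
  have hopn : ∀ p : P, IsOpen (Ω p) := fun p => (L p.1 p.2).opn
  have hgood : ∀ (p : P) (t), g p t ∈ Ω p → W p.1 t := fun p => (L p.1 p.2).good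
  have hsub : ∀ p : P, R p ⊆ Ω p := fun p => (L p.1 p.2).sub
  have hgen : ∀ (p : P) (H : Subgroup (X p)), (∀ a ∈ R p, ∀ b ∈ R p, a * b⁻¹ ∈ H) → H = ⊤ :=
    fun p => (L p.1 p.2).gen
  have happ : ∀ (p : P), ∀ T ∈ R p, ∀ O ∈ 𝓝 T, ∃ (x : Fin N → k) (δ : ℝ), 0 < δ ∧ ∀ β : D,
    (∀ j, plAbv p.1 (B.repr β j - x j) < δ) → g p (cay β) ∈ O := fun p => (L p.1 p.2).app
  choose T₀ hT₀ using fun p : P => ((L p.1 p.2).ne : (R p).Nonempty)
  let diag : unitary D →* (∀ p, X p) := MonoidHom.pi g
  have hdiag : ∀ t p, diag t p = g p t := fun _ _ => rfl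
  have hmem : ∀ t, (∀ p, g p t ∈ Ω p) → t ∈ H := fun t ht =>
    hH t fun p hp => hgood ⟨p, hp⟩ t (ht ⟨p, hp⟩)
  let C : Subgroup (∀ p, X p) := (H.map diag).topologicalClosure
  -- tuples of elements of `R`
  have h1 : ∀ T : ∀ p, X p, (∀ p, T p ∈ R p) → T ∈ C := by
    intro T hT
    change T ∈ closure ((H.map diag : Subgroup (∀ p, X p)) : Set (∀ p, X p))
    rw [mem_closure_iff_nhds]
    intro O hO
    rw [nhds_pi, Filter.mem_pi'] at hO
    obtain ⟨I, O', hO', hOO⟩ := hO
    have hO'' : ∀ p, O' p ∩ Ω p ∈ 𝓝 (T p) := fun p =>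
      inter_mem (hO' p) ((hopn p).mem_nhds (hsub p (hT p)))
    choose x δ hδ hx using fun p => happ p (T p) (hT p) _ (hO'' p)
    have hj : ∀ j, ∃ f : k, ∀ p : P, plAbv p.1 (f - x p j) < δ p := by
      intro j
      obtain ⟨f, hf⟩ := approx P hP (fun p => if h : p ∈ P then x ⟨p, h⟩ j else 0)
        (fun p => if h : p ∈ P then δ ⟨p, h⟩ else 1) (by
          intro p
          split_ifs with h
          · exact hδ _
          · exact one_pos)
      refine ⟨f, fun p => ?_⟩
      have := hf p.1 p.2
      rwa [dif_pos p.2, dif_pos p.2] at this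
    choose f hf using hj
    have hrepr : ∀ j, B.repr (∑ j, f j • B j) j = f j := fun j => by rw [B.repr_sum_self]
    have hin : ∀ p, g p (cay (∑ j, f j • B j)) ∈ O' p ∩ Ω p := fun p => hx p _ fun j => by
      rw [hrepr]
      exact hf j p
    refine ⟨diag (cay (∑ j, f j • B j)), hOO fun p _ => (hin p).1, ?_⟩
    exact ⟨_, hmem _ fun p => (hin p).2, rfl⟩
  -- one place at a time
  have h2 : ∀ (p : P) (z : X p), Pi.mulSingle p z ∈ C := by
    intro p z
    have h3 : C.comap (MonoidHom.mulSingle X p) = ⊤ := by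
      apply hgen p
      intro a ha b hb
      change Pi.mulSingle p (a * b⁻¹) ∈ C
      have h4 : (Pi.mulSingle p (a * b⁻¹) : ∀ p, X p) =
          Function.update T₀ p a * (Function.update T₀ p b)⁻¹ := by
        funext q
        by_cases hq : q = p
        · subst hq
          rw [Pi.mulSingle_eq_same, Pi.mul_apply, Pi.inv_apply, Function.update_self,
            Function.update_self]
        · rw [Pi.mulSingle_eq_of_ne hq, Pi.mul_apply, Pi.inv_apply, Function.update_of_ne hq,
            Function.update_of_ne hq, mul_inv_cancel]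
      rw [h4]
      refine C.mul_mem (h1 _ fun q => ?_) (C.inv_mem (h1 _ fun q => ?_))
      · by_cases hq : q = p
        · subst hq
          rw [Function.update_self]
          exact ha
        · rw [Function.update_of_ne hq]
          exact hT₀ q
      · by_cases hq : q = p
        · subst hq
          rw [Function.update_self]
          exact hb
        · rw [Function.update_of_ne hq]
          exact hT₀ q
    have h5 : z ∈ C.comap (MonoidHom.mulSingle X p) := by rw [h3]; exact Subgroup.mem_top z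
    exact h5
  have h3 : ∀ y : ∀ p, X p, y ∈ C := fun y => Subgroup.pi_mem_of_mulSingle_mem y fun p => h2 p _
  -- the conclusion
  let y₀ : ∀ p, X p := fun p => g p t * (T₀ p)⁻¹
  let S : Set (∀ p, X p) := {y | ∀ p, (y p)⁻¹ * g p t ∈ Ω p}
  have hS : IsOpen S := by
    have h4 : S = ⋂ p, (fun y : ∀ p, X p => (y p)⁻¹ * g p t) ⁻¹' Ω p := by
      ext y
      simp [S]
    rw [h4]
    refine isOpen_iInter_of_finite fun p => (hopn p).preimage ?_
    exact ((continuous_apply p).inv).mul continuous_const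
  have hy₀ : y₀ ∈ S := by
    intro p
    change (g p t * (T₀ p)⁻¹)⁻¹ * g p t ∈ Ω p
    rw [mul_inv_rev, inv_inv, mul_assoc, inv_mul_cancel, mul_one]
    exact hsub p (hT₀ p)
  have h4 : y₀ ∈ closure ((H.map diag : Subgroup (∀ p, X p)) : Set (∀ p, X p)) := h3 y₀
  rw [mem_closure_iff] at h4
  obtain ⟨_, hyS, h, hhH, rfl⟩ := h4 S hS hy₀
  have h5 : h⁻¹ * t ∈ H := hmem _ fun p => by
    have := hyS p
    rwa [hdiag, ← map_inv, ← map_mul] at this
  have h6 := H.mul_mem hhH h5
  rwa [mul_inv_cancel_left] at h6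

end Vale.Agent.P011.Two
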