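import Vale.Agent.P011.Two.HQCore

/-!
# P011, rank two, block 2H: commutators
-/

open NumberField IsDedekindDomain Module

set_option linter.unusedSectionVars false

namespace Vale.Agent.P011.Two

open Vale.Agent.P011.Arith Vale.Agent.P011.Even Vale.Agent.P011.MPQ

section diag

variable {D : Type} [DivisionRing D] [StarRing D] {g : D}

/-- The diagonal automorphism. -/
def dgD (t t' : Dˣ) : (D × D) ≃ₗ[D] (D × D) where
  toFun := fun x => (x.1 * t, x.2 * t')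
  invFun := fun x => (x.1 * t⁻¹, x.2 * t'⁻¹)
  map_add' := by
    intro x y
    ext <;> simp only [Prod.fst_add, Prod.snd_add] <;> noncomm_ring
  map_smul' := by
    intro a x
    ext <;> simp only [Prod.smul_fst, Prod.smul_snd, smul_eq_mul, RingHom.id_apply] <;>
      noncomm_ring
  left_inv := by
    intro x
    ext <;> simp
  right_inv := by
    intro x
    ext <;> simp

theorem dgD_apply (t t' : Dˣ) (x : D × D) : dgD t t' x = (x.1 * t, x.2 * t') := rfl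

theorem dgD_mul (t t' r r' : Dˣ) : dgD t t' * dgD r r' = dgD (r * t) (r' * t') := by
  ext1 x
  change dgD t t' (dgD r r' x) = _
  simp [dgD_apply, mul_assoc]

theorem dgD_one : dgD (1 : Dˣ) 1 = 1 := by
  ext1 x
  change dgD 1 1 x = x
  simp [dgD_apply]

theorem isDiag_dgD (t t' : Dˣ) : IsDiag (t : D) (t' : D) (dgD t t') := by
  constructor <;> simp [dgD_apply]

theorem eq_dg_of_isDiag {t t' : Dˣ} {u : (D × D) ≃ₗ[D] (D × D)} (h : IsDiag (t : D) (t' : D) u) :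
    u = dgD t t' := by
  ext1 x
  have e : x = x.1 • (1, 0) + x.2 • ((0, 1) : D × D) := by ext <;> simp
  rw [e, map_add, map_smul, map_smul, h.1, h.2, map_add, map_smul, map_smul, (isDiag_dgD t t').1,
    (isDiag_dgD t t').2]

theorem dgD_mem {t t' : Dˣ} (ht : (t : D) * star (t : D) = 1)
    (ht' : (t' : D) * g * star (t' : D) = g) : dgD t t' ∈ Uh g := by
  intro x y
  simp only [hh, dgD_apply, star_mul]
  calc x.1 * t * (star (t : D) * star y.1) + x.2 * t' * g * (star (t' : D) * star y.2)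
      = x.1 * (t * star (t : D)) * star y.1 + x.2 * (t' * g * star (t' : D)) * star y.2 := by
        noncomm_ring
    _ = _ := by rw [ht, ht', mul_one]

theorem star_mul_self_of {t : D} (ht : t * star t = 1) : star t * t = 1 := by
  have h0 : t ≠ 0 := left_ne_zero_of_mul_eq_one ht
  have : star t = t⁻¹ := by
    rw [eq_comm]
    exact inv_eq_of_mul_eq_one_right ht
  rw [this, inv_mul_cancel₀ h0]

theorem inv_norm {t : Dˣ} (ht : (t : D) * star (t : D) = 1) :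
    ((t⁻¹ : Dˣ) : D) * star ((t⁻¹ : Dˣ) : D) = 1 := by
  have h : ((t⁻¹ : Dˣ) : D) = star (t : D) := by
    rw [Units.val_inv_eq_inv_val]
    exact inv_eq_of_mul_eq_one_right ht
  rw [h, star_star]
  exact star_mul_self_of ht

/-- The stabiliser of the line of the first basis vector consists of diagonal elements. -/
theorem isDiag_of_line {v : (D × D) ≃ₗ[D] (D × D)}
    (hv : v ∈ Uh g) {t : D} (h : v (1, 0) = (t, 0)) :
    t * star t = 1 ∧ ∃ t', t' * g * star t' = g ∧ IsDiag t t' v := by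
  have h1 := hv (1, 0) (1, 0)
  have h2 := hv (1, 0) (0, 1)
  have h3 := hv (0, 1) (0, 1)
  rw [h] at h1 h2
  simp only [hh, star_zero, star_one, mul_zero, zero_mul, add_zero, mul_one, one_mul,
    zero_add] at h1 h2 h3
  have ht0 : t ≠ 0 := left_ne_zero_of_mul_eq_one h1
  have h4 : (v (0, 1)).1 = 0 := by
    have := (mul_eq_zero.mp h2).resolve_left ht0
    exact star_eq_zero.mp this
  refine ⟨h1, (v (0, 1)).2, ?_, h, ?_⟩
  · rw [h4, star_zero, mul_zero, zero_add] at h3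
    exact h3
  · exact Prod.ext h4 rfl

/-- Group theoretic part of 2H. -/
theorem comm_of (hg0 : g ≠ 0) {N : Subgroup ((D × D) ≃ₗ[D] (D × D))}
    (hN' : N ≤ Uh g) (hN : ∀ v ∈ Uh g, ∀ x ∈ N, v * x * v⁻¹ ∈ N)
    (hT : ∀ y : D × D, hh g y y = 1 → ∃ u ∈ N, ∃ δ : D, δ ≠ 0 ∧ u e₁ = δ • y)
    (hA : ∀ t : D, t * star t = 1 → ∃ t' : D, ∃ u ∈ N, IsDiag t t' u)
    (hB : ∀ t' : D, t' * g * star t' = g → ∃ t : D, ∃ u ∈ N, IsDiag t t' u) :
    ∀ u ∈ Uh g, ∀ v ∈ Uh g, u * v * u⁻¹ * v⁻¹ ∈ N := by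
  -- the diagonal elements
  have nz : ∀ t : D, t * star t = 1 → t ≠ 0 := fun t ht => left_ne_zero_of_mul_eq_one ht
  have nz' : ∀ t' : D, t' * g * star t' = g → t' ≠ 0 := by
    rintro t' ht' rfl
    rw [zero_mul, zero_mul] at ht'
    exact hg0 ht'.symm
  have hline : ∀ w ∈ Uh g, ∃ n ∈ N, ∃ t t' : Dˣ, (t : D) * star (t : D) = 1 ∧
      (t' : D) * g * star (t' : D) = g ∧ w = n * dgD t t' := by
    intro w hw
    have hwi : w⁻¹ ∈ Uh g := (Uh g).inv_mem hw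
    have hy : hh g (w (1, 0)) (w (1, 0)) = 1 := by
      rw [hw]
      simp [hh]
    obtain ⟨u, hu, δ, hδ, hue⟩ := hT _ hy
    have hv : w⁻¹ * u ∈ Uh g := (Uh g).mul_mem hwi (hN' hu)
    have hve : (w⁻¹ * u) (1, 0) = (δ, 0) := by
      change w⁻¹ (u (1, 0)) = _
      have : u (1, 0) = δ • w (1, 0) := hue
      rw [this, map_smul]
      have h5 : w⁻¹ (w ((1, 0) : D × D)) = (1, 0) := w.symm_apply_apply _
      rw [h5]
      simp
    obtain ⟨h1, t', h2, h3⟩ := isDiag_of_line hv hve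
    have h4 : IsDiag ((Units.mk0 δ hδ : Dˣ) : D) ((Units.mk0 t' (nz' _ h2) : Dˣ) : D)
      (w⁻¹ * u) := h3
    have h5 := eq_dg_of_isDiag h4
    set a : Dˣ := Units.mk0 δ hδ
    set a' : Dˣ := Units.mk0 t' (nz' _ h2)
    have h6 : dgD a a' * dgD a⁻¹ a'⁻¹ = 1 := by
      rw [dgD_mul, inv_mul_cancel, inv_mul_cancel, dgD_one]
    refine ⟨u, hu, a⁻¹, a'⁻¹, inv_norm h1, ?_, ?_⟩
    · have h7 : (a' : D) * g * star (a' : D) = g := h2
      have h8 : star (a' : D) * star ((a'⁻¹ : Dˣ) : D) = 1 := by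
        rw [← star_mul, Units.inv_mul, star_one]
      calc ((a'⁻¹ : Dˣ) : D) * g * star ((a'⁻¹ : Dˣ) : D)
          = ((a'⁻¹ : Dˣ) : D) * ((a' : D) * g * star (a' : D)) * star ((a'⁻¹ : Dˣ) : D) := by
            rw [h7]
        _ = (((a'⁻¹ : Dˣ) : D) * (a' : D)) * g * (star (a' : D) * star ((a'⁻¹ : Dˣ) : D)) := by
            noncomm_ring
        _ = g := by rw [h8, Units.inv_mul, one_mul, mul_one]
    · have h7 : w * (w⁻¹ * u) = u := by group
      calc w = w * (dgD a a' * dgD a⁻¹ a'⁻¹) := by rw [h6, mul_one]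
        _ = u * dgD a⁻¹ a'⁻¹ := by rw [← mul_assoc, ← h5, h7]
  -- modulo `N`
  have hone : (1 : D) * star (1 : D) = 1 := by rw [star_one, mul_one]
  have hone' : (1 : D) * g * star (1 : D) = g := by rw [star_one, mul_one, one_mul]
  have hfirst : ∀ w ∈ Uh g, ∃ t : Dˣ, (t : D) * star (t : D) = 1 ∧ (dgD t 1)⁻¹ * w ∈ N := by
    intro w hw
    obtain ⟨n, hn, t, t', ht, ht', rfl⟩ := hline w hw
    obtain ⟨r, u, hu, hd⟩ := hB t' ht'
    have hr : r * star r = 1 := by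
      have h := isDiag_of_line (hN' hu) hd.1
      exact h.1
    have hd' : IsDiag ((Units.mk0 r (nz _ hr) : Dˣ) : D) (t' : D) u := hd
    have h5 := eq_dg_of_isDiag hd'
    set a : Dˣ := Units.mk0 r (nz _ hr)
    -- `dgD t t' = dgD (a⁻¹ t) 1 * dgD a t'`
    have ha : (a : D) * star (a : D) = 1 := hr
    have hta : ((a⁻¹ * t : Dˣ) : D) * star ((a⁻¹ * t : Dˣ) : D) = 1 := by
      rw [Units.val_mul, star_mul]
      calc ((a⁻¹ : Dˣ) : D) * t * (star (t : D) * star ((a⁻¹ : Dˣ) : D))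
          = ((a⁻¹ : Dˣ) : D) * (t * star (t : D)) * star ((a⁻¹ : Dˣ) : D) := by noncomm_ring
        _ = 1 := by rw [ht, mul_one]; exact inv_norm ha
    refine ⟨a⁻¹ * t, hta, ?_⟩
    have e1 : dgD t t' = dgD (a⁻¹ * t) 1 * u := by
      rw [h5, dgD_mul]
      congr 1
      · group
      · rw [mul_one]
    have hdm : dgD (a⁻¹ * t) 1 ∈ Uh g := dgD_mem hta (by
      change (1 : D) * g * star (1 : D) = g
      exact hone')
    rw [e1]
    have h6 := hN _ ((Uh g).inv_mem hdm) n hn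
    rw [inv_inv] at h6
    have h7 : (dgD (a⁻¹ * t) 1)⁻¹ * (n * (dgD (a⁻¹ * t) 1 * u)) =
        ((dgD (a⁻¹ * t) 1)⁻¹ * n * dgD (a⁻¹ * t) 1) * u := by group
    rw [h7]
    exact N.mul_mem h6 hu
  have hsecond : ∀ w ∈ Uh g, ∃ t' : Dˣ, (t' : D) * g * star (t' : D) = g ∧
      (dgD 1 t')⁻¹ * w ∈ N := by
    intro w hw
    obtain ⟨t, ht, hmem⟩ := hfirst w hw
    obtain ⟨r, u, hu, hd⟩ := hA t ht
    obtain ⟨_, r', hr', hd'⟩ := isDiag_of_line (hN' hu) hd.1
    have h5 := eq_dg_of_isDiag (t := t) (t' := Units.mk0 r' (nz' _ hr')) hd'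
    set b : Dˣ := Units.mk0 r' (nz' _ hr')
    have hb : (b : D) * g * star (b : D) = g := hr'
    -- `dgD t 1 = dgD 1 b⁻¹ * dgD t b`
    have hbi : ((b⁻¹ : Dˣ) : D) * g * star ((b⁻¹ : Dˣ) : D) = g := by
      have h8 : star (b : D) * star ((b⁻¹ : Dˣ) : D) = 1 := by
        rw [← star_mul, Units.inv_mul, star_one]
      calc ((b⁻¹ : Dˣ) : D) * g * star ((b⁻¹ : Dˣ) : D)
          = ((b⁻¹ : Dˣ) : D) * ((b : D) * g * star (b : D)) * star ((b⁻¹ : Dˣ) : D) := by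
            rw [hb]
        _ = (((b⁻¹ : Dˣ) : D) * (b : D)) * g * (star (b : D) * star ((b⁻¹ : Dˣ) : D)) := by
            noncomm_ring
        _ = g := by rw [h8, Units.inv_mul, one_mul, mul_one]
    refine ⟨b⁻¹, hbi, ?_⟩
    have e1 : dgD t 1 = dgD 1 b⁻¹ * u := by
      rw [h5, dgD_mul]
      congr 1
      · rw [mul_one]
      · group
    have e2 : (dgD 1 b⁻¹)⁻¹ * w = u * ((dgD t 1)⁻¹ * w) := by
      rw [e1]
      group
    rw [e2]
    exact N.mul_mem hu hmem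
  intro u hu v hv
  obtain ⟨t, ht, hu1⟩ := hfirst u hu
  obtain ⟨t', ht', hv1⟩ := hsecond v hv
  have hx : dgD t 1 ∈ Uh g := dgD_mem ht hone'
  have hy : dgD 1 t' ∈ Uh g := dgD_mem hone ht'
  set x := dgD t 1
  set y := dgD 1 t'
  have hxy : x * y = y * x := by
    rw [dgD_mul, dgD_mul, mul_one, one_mul, mul_one, one_mul]
  -- the quotient
  set M : Subgroup (Uh g) := N.subgroupOf (Uh g) with hM
  have hMn : M.Normal := by
    refine ⟨fun a ha b => ?_⟩
    rw [hM, Subgroup.mem_subgroupOf] at ha ⊢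
    exact hN b b.2 a ha
  have e1 : ((⟨u, hu⟩ : Uh g) : Uh g ⧸ M) = ((⟨x, hx⟩ : Uh g) : Uh g ⧸ M) := by
    rw [eq_comm, QuotientGroup.eq, hM, Subgroup.mem_subgroupOf]
    exact hu1
  have e2 : ((⟨v, hv⟩ : Uh g) : Uh g ⧸ M) = ((⟨y, hy⟩ : Uh g) : Uh g ⧸ M) := by
    rw [eq_comm, QuotientGroup.eq, hM, Subgroup.mem_subgroupOf]
    exact hv1
  have e3 : ((⟨u, hu⟩ * ⟨v, hv⟩ * ⟨u, hu⟩⁻¹ * ⟨v, hv⟩⁻¹ : Uh g) : Uh g ⧸ M) = 1 := by
    rw [QuotientGroup.mk_mul, QuotientGroup.mk_mul, QuotientGroup.mk_mul, QuotientGroup.mk_inv,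
      QuotientGroup.mk_inv, e1, e2, ← QuotientGroup.mk_mul]
    have : (⟨x, hx⟩ * ⟨y, hy⟩ : Uh g) = ⟨y, hy⟩ * ⟨x, hx⟩ := Subtype.ext hxy
    rw [this, QuotientGroup.mk_mul]
    group
  rw [QuotientGroup.eq_one_iff, hM, Subgroup.mem_subgroupOf] at e3
  exact e3

end diag

end Vale.Agent.P011.Two
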