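import Vale.Agent.P011.Two.Dense
import Vale.Agent.P011.Two.FrameDefs
import Vale.Agent.P011.Even.DiagPair

/-!
Unit vectors over the completed algebra and frames in a hermitian space.
-/

open NumberField IsDedekindDomain TensorProduct Filter Topology Matrix

set_option linter.unusedSectionVars false

namespace Vale.Agent.P011.Two

open Vale.Agent.P011.Arith Vale.Agent.P011.Even Vale.Agent.P011.T2

section space

variable {L : Type} [Field L] [StarRing L] {n : ℕ}

/-- The orthogonal sum of two hermitian forms given by matrices. -/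
def sumHF (H H' : Matrix (Fin n) (Fin n) L) (hH : Hᴴ = H) (hH' : H'ᴴ = H') :
    HF L ((Fin n → L) × (Fin n → L)) where
  h x y := (rowHF H hH).h x.1 y.1 + (rowHF H' hH').h x.2 y.2
  add_left x y z := by
    rw [Prod.fst_add, Prod.snd_add, (rowHF H hH).add_left, (rowHF H' hH').add_left]
    abel
  smul_left c x y := by
    rw [Prod.smul_fst, Prod.smul_snd, (rowHF H hH).smul_left, (rowHF H' hH').smul_left, mul_add]
  star_h x y := by
    rw [star_add, (rowHF H hH).star_h, (rowHF H' hH').star_h]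

theorem sumHF_nondeg {H H' : Matrix (Fin n) (Fin n) L} (hH : Hᴴ = H) (hH' : H'ᴴ = H')
    (hd : H.det ≠ 0) (hd' : H'.det ≠ 0) : (sumHF H H' hH hH').Nondeg := by
  intro x hx
  apply Prod.ext
  · apply rowHF_nondeg H hH hd
    intro y
    have h1 := hx (y, 0)
    change (rowHF H hH).h x.1 y + (rowHF H' hH').h x.2 0 = 0 at h1
    rwa [HF.zero_right, add_zero] at h1
  · apply rowHF_nondeg H' hH' hd'
    intro y
    have h1 := hx (0, y)
    change (rowHF H hH).h x.1 0 + (rowHF H' hH').h x.2 y = 0 at h1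
    rwa [HF.zero_right, zero_add] at h1

theorem rowHF_rows {H : Matrix (Fin n) (Fin n) L} (hH : Hᴴ = H) (M M' : Matrix (Fin n) (Fin n) L)
    (a c : Fin n) : (rowHF H hH).h (M a) (M' c) = (M * H * M'ᴴ) a c := by
  rw [Matrix.mul_apply]
  simp only [Matrix.mul_apply, Finset.sum_mul, Matrix.conjTranspose_apply]
  rw [Finset.sum_comm]
  rfl

/-- The vectors formed by the rows of two matrices. -/
def rows (M M' : Matrix (Fin n) (Fin n) L) : Fin n → (Fin n → L) × (Fin n → L) :=
  fun a => (M a, M' a)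

theorem sumHF_rows {H H' : Matrix (Fin n) (Fin n) L} (hH : Hᴴ = H) (hH' : H'ᴴ = H')
    (M M' R R' : Matrix (Fin n) (Fin n) L) (a c : Fin n) :
    (sumHF H H' hH hH').h (rows M M' a) (rows R R' c) =
      (M * H * Rᴴ + M' * H' * R'ᴴ) a c := by
  change (rowHF H hH).h (M a) (R c) + (rowHF H' hH').h (M' a) (R' c) = _
  rw [rowHF_rows, rowHF_rows]
  rfl

end space

section model

variable {k K D : Type} [Field k] [NumberField k] [Field K] [StarRing K]
  [DivisionRing D] [StarRing D] [Algebra k K] [Algebra k D] [Algebra K D] [IsScalarTower k K D]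
  {d : kˣ} {s : K} {hS : Setting k K D d s} {v : HeightOneSpectrum (𝓞 k)}
  {n : ℕ} {L : Type} [Field L] [Algebra (v.adicCompletion k) L] [StarRing L]
  {ρ : v.adicCompletion k ⊗[k] D ≃ₐ[v.adicCompletion k] Matrix (Fin n) (Fin n) L}
  {G : Matrix (Fin n) (Fin n) L}

theorem model_inv (hGu : IsUnit G) : G * G⁻¹ = 1 ∧ G⁻¹ * G = 1 := by
  have hGd : IsUnit G.det := (Matrix.isUnit_iff_isUnit_det G).mp hGu
  exact ⟨Matrix.mul_nonsing_inv _ hGd, Matrix.nonsing_inv_mul _ hGd⟩

theorem model_sg (hGu : IsUnit G) (hG : ∀ T, G * ρ (sg hS v T) = (ρ T)ᴴ * G)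
    (T : v.adicCompletion k ⊗[k] D) : ρ (sg hS v T) * G⁻¹ = G⁻¹ * (ρ T)ᴴ := by
  obtain ⟨h1, h2⟩ := model_inv hGu
  calc ρ (sg hS v T) * G⁻¹ = G⁻¹ * (G * ρ (sg hS v T)) * G⁻¹ := by
        rw [← Matrix.mul_assoc G⁻¹, h2, Matrix.one_mul]
    _ = G⁻¹ * (ρ T)ᴴ * (G * G⁻¹) := by rw [hG]; simp only [Matrix.mul_assoc]
    _ = _ := by rw [h1, Matrix.mul_one]

theorem model_herm (hGu : IsUnit G) (hGs : Gᴴ = G)
    (hG : ∀ T, G * ρ (sg hS v T) = (ρ T)ᴴ * G) {g : D} (hg : star g = g) :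
    (ρ (1 ⊗ₜ g) * G⁻¹)ᴴ = ρ (1 ⊗ₜ g) * G⁻¹ := by
  have h1 := model_sg hGu hG (1 ⊗ₜ g)
  rw [sg_tmul, hg] at h1
  rw [Matrix.conjTranspose_mul, Matrix.conjTranspose_nonsing_inv, hGs, h1]

theorem gram_eq (hGu : IsUnit G)
    (hG : ∀ T, G * ρ (sg hS v T) = (ρ T)ᴴ * G) {g : D} (hH : (G⁻¹)ᴴ = G⁻¹)
    (hH' : (ρ (1 ⊗ₜ g) * G⁻¹)ᴴ = ρ (1 ⊗ₜ g) * G⁻¹) (P : Matrix (Fin n) (Fin n) L)
    (X Y : (v.adicCompletion k ⊗[k] D) × (v.adicCompletion k ⊗[k] D)) (a c : Fin n) :
    (sumHF G⁻¹ (ρ (1 ⊗ₜ g) * G⁻¹) hH hH').h (rows (P * ρ X.1) (P * ρ X.2) a)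
      (rows (P * ρ Y.1) (P * ρ Y.2) c) = (P * ρ (hF hS v g X Y) * G⁻¹ * Pᴴ) a c := by
  have h1 : ρ (hF hS v g X Y) * G⁻¹ = ρ X.1 * (G⁻¹ * (ρ Y.1)ᴴ) +
      ρ X.2 * ρ (1 ⊗ₜ g) * (G⁻¹ * (ρ Y.2)ᴴ) := by
    unfold hF
    rw [map_add, map_mul, map_mul, map_mul, Matrix.add_mul, Matrix.mul_assoc, Matrix.mul_assoc,
      model_sg hGu hG, model_sg hGu hG]
  have h2 : P * ρ X.1 * G⁻¹ * (P * ρ Y.1)ᴴ + P * ρ X.2 * (ρ (1 ⊗ₜ g) * G⁻¹) * (P * ρ Y.2)ᴴ =
      P * ρ (hF hS v g X Y) * G⁻¹ * Pᴴ := by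
    rw [Matrix.conjTranspose_mul, Matrix.conjTranspose_mul, Matrix.mul_assoc P (ρ (hF hS v g X Y)),
      h1]
    simp only [Matrix.mul_add, Matrix.add_mul, Matrix.mul_assoc]
  rw [sumHF_rows, h2]

theorem move_eq (hGu : IsUnit G)
    (hG : ∀ T, G * ρ (sg hS v T) = (ρ T)ᴴ * G) {g : D} (hH : (G⁻¹)ᴴ = G⁻¹)
    (hH' : (ρ (1 ⊗ₜ g) * G⁻¹)ᴴ = ρ (1 ⊗ₜ g) * G⁻¹) {P : Matrix (Fin n) (Fin n) L}
    (hPu : IsUnit P) {α : Fin n → (v.adicCompletion k)ˣ}
    (hP : P * G⁻¹ * Pᴴ = Matrix.diagonal (fun i => algebraMap (v.adicCompletion k) L (α i)))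
    (X Y : (v.adicCompletion k ⊗[k] D) × (v.adicCompletion k ⊗[k] D)) (z : Fin n → L)
    (h : ∀ a c, (sumHF G⁻¹ (ρ (1 ⊗ₜ g) * G⁻¹) hH hH').h (rows (P * ρ X.1) (P * ρ X.2) a)
      (rows (P * ρ Y.1) (P * ρ Y.2) c) =
        if a = c then z a * algebraMap (v.adicCompletion k) L (α a) else 0) :
    P * ρ (hF hS v g X Y) = Matrix.diagonal z * P := by
  have h1 : P * ρ (hF hS v g X Y) * G⁻¹ * Pᴴ = Matrix.diagonal z * P * G⁻¹ * Pᴴ := by
    have h2 : Matrix.diagonal z * P * G⁻¹ * Pᴴ = Matrix.diagonal z * (P * G⁻¹ * Pᴴ) := by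
      simp only [Matrix.mul_assoc]
    rw [h2, hP, Matrix.diagonal_mul_diagonal]
    ext a c
    rw [← gram_eq hGu hG hH hH' P X Y a c, h, Matrix.diagonal_apply]
  have h3 : IsUnit Pᴴ := by
    rw [Matrix.isUnit_iff_isUnit_det] at hPu ⊢
    rw [Matrix.det_conjTranspose]
    exact hPu.star
  have h4 : IsUnit G⁻¹ := Matrix.isUnit_nonsing_inv_iff.mpr hGu
  exact h4.mul_right_cancel (h3.mul_right_cancel h1)

/-- Local steps of a chain. -/
def LStep (hS : Setting k K D d s) (v : HeightOneSpectrum (𝓞 k)) (g : D)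
    (X Y : (v.adicCompletion k ⊗[k] D) × (v.adicCompletion k ⊗[k] D)) : Prop :=
  hF hS v g X X = 1 ∧ hF hS v g Y Y = 1 ∧ hF hS v g X Y ≠ -1 ∧
    ∃ a a₁ : (v.adicCompletion k)ˣ, a ∈ LN (iu v d) ∧ (a₁ : v.adicCompletion k) = 1 - a ∧
      -a₁ ∈ LN (iu v d) ∧
      (hF hS v g X Y * sg hS v (hF hS v g X Y) - 1) *
        (hF hS v g X Y * sg hS v (hF hS v g X Y) -
          algebraMap (v.adicCompletion k) _ (a : v.adicCompletion k)) = 0

theorem sg_hF {g : D} (hg : star g = g)
    (X Y : (v.adicCompletion k ⊗[k] D) × (v.adicCompletion k ⊗[k] D)) :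
    sg hS v (hF hS v g X Y) = hF hS v g Y X := by
  unfold hF
  rw [map_add, sg_mul, sg_mul, sg_mul, sg_sg, sg_sg, sg_tmul, hg, mul_assoc]

theorem norm_mem_LN {θ : L} (hθ0 : θ ≠ 0) (hθs : star θ = -θ)
    (hfix : ∀ x : L, star x = x ↔ x ∈ Set.range (algebraMap (v.adicCompletion k) L))
    (hθ : θ ^ 2 = algebraMap (v.adicCompletion k) L (algebraMap k _ (d : k))) {x : L}
    (hx : x ≠ 0) : ∃ u ∈ LN (iu v d), x * star x = algebraMap (v.adicCompletion k) L u := by
  have : CharZero L := charZero_of_injective_algebraMap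
    (algebraMap (v.adicCompletion k) L).injective
  obtain ⟨p, hp⟩ := (hfix ((x + star x) / 2)).mp (by
    rw [star_div₀, star_add, star_star, star_ofNat, add_comm])
  obtain ⟨r, hr⟩ := (hfix ((x - star x) / (2 * θ))).mp (by
    rw [star_div₀, star_sub, star_star, star_mul', star_ofNat, hθs, mul_neg, div_neg,
      ← neg_div, neg_sub])
  have hx1 : x = algebraMap _ L p + algebraMap _ L r * θ := by
    rw [hp, hr]; field_simp; ring
  have hx2 : star x = algebraMap _ L p - algebraMap _ L r * θ := by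
    rw [hp, hr]; field_simp; ring
  have h1 : x * star x = algebraMap _ L (p ^ 2 - algebraMap k _ (d : k) * r ^ 2) := by
    rw [hx2]
    conv_lhs => rw [hx1]
    rw [map_sub, map_mul, map_pow, map_pow, ← hθ]
    ring
  have h2 : p ^ 2 - algebraMap k (v.adicCompletion k) (d : k) * r ^ 2 ≠ 0 := by
    intro h3
    rw [h3, map_zero] at h1
    exact mul_ne_zero hx (star_ne_zero.mpr hx) h1
  exact ⟨Units.mk0 _ h2, ⟨p, r, rfl⟩, h1⟩

/-- The vector over the completed algebra belonging to a family of vectors. -/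
noncomputable def unrows (ρ : v.adicCompletion k ⊗[k] D ≃ₐ[v.adicCompletion k]
      Matrix (Fin n) (Fin n) L) (P : Matrix (Fin n) (Fin n) L)
    (f : Fin n → (Fin n → L) × (Fin n → L)) :
    (v.adicCompletion k ⊗[k] D) × (v.adicCompletion k ⊗[k] D) :=
  (ρ.symm (P⁻¹ * Matrix.of fun a => (f a).1), ρ.symm (P⁻¹ * Matrix.of fun a => (f a).2))

theorem rows_unrows {P : Matrix (Fin n) (Fin n) L} (hPu : IsUnit P)
    (f : Fin n → (Fin n → L) × (Fin n → L)) :
    rows (P * ρ (unrows ρ P f).1) (P * ρ (unrows ρ P f).2) = f := by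
  obtain ⟨h1, -⟩ := model_inv hPu
  unfold unrows
  rw [AlgEquiv.apply_symm_apply, AlgEquiv.apply_symm_apply, ← Matrix.mul_assoc, ← Matrix.mul_assoc,
    h1, Matrix.one_mul, Matrix.one_mul]
  rfl

theorem unrows_rows {P : Matrix (Fin n) (Fin n) L} (hPu : IsUnit P)
    (X : (v.adicCompletion k ⊗[k] D) × (v.adicCompletion k ⊗[k] D)) :
    unrows ρ P (rows (P * ρ X.1) (P * ρ X.2)) = X := by
  obtain ⟨-, h1⟩ := model_inv hPu
  unfold unrows
  have h2 : (Matrix.of fun a => (rows (P * ρ X.1) (P * ρ X.2) a).1) = P * ρ X.1 := rfl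
  have h3 : (Matrix.of fun a => (rows (P * ρ X.1) (P * ρ X.2) a).2) = P * ρ X.2 := rfl
  rw [h2, h3, ← Matrix.mul_assoc, ← Matrix.mul_assoc, h1, Matrix.one_mul, Matrix.one_mul,
    AlgEquiv.symm_apply_apply, AlgEquiv.symm_apply_apply]

theorem mv_step (hn : 2 ≤ n) (hGu : IsUnit G)
    (hG : ∀ T, G * ρ (sg hS v T) = (ρ T)ᴴ * G)
    (hfix : ∀ x : L, star x = x ↔ x ∈ Set.range (algebraMap (v.adicCompletion k) L))
    {g : D} (hg : star g = g) (hH : (G⁻¹)ᴴ = G⁻¹)
    (hH' : (ρ (1 ⊗ₜ g) * G⁻¹)ᴴ = ρ (1 ⊗ₜ g) * G⁻¹) {P : Matrix (Fin n) (Fin n) L}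
    (hPu : IsUnit P) {α : Fin n → (v.adicCompletion k)ˣ}
    (hP : P * G⁻¹ * Pᴴ = Matrix.diagonal (fun i => algebraMap (v.adicCompletion k) L (α i)))
    (f f' : Fin n → (Fin n → L) × (Fin n → L))
    (h : Mv (sumHF G⁻¹ (ρ (1 ⊗ₜ g) * G⁻¹) hH hH') α f f') :
    LStep hS v g (unrows ρ P f) (unrows ρ P f') := by
  classical
  have : CharZero L := charZero_of_injective_algebraMap
    (algebraMap (v.adicCompletion k) L).injective
  obtain ⟨⟨hf1, hf2⟩, ⟨hf1', hf2'⟩, j, θ, p, hj, hθ, hθ0, hp0, hθp⟩ := h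
  obtain ⟨t, -, ht0, hts, htd⟩ := model_theta (hS := hS) (by omega) hGu hG
  set b := sumHF G⁻¹ (ρ (1 ⊗ₜ g) * G⁻¹) hH hH' with hb
  set X := unrows ρ P f with hX
  set Y := unrows ρ P f' with hY
  have hXf : rows (P * ρ X.1) (P * ρ X.2) = f := rows_unrows hPu f
  have hYf : rows (P * ρ Y.1) (P * ρ Y.2) = f' := rows_unrows hPu f'
  have hstarF : ∀ c : v.adicCompletion k, star (algebraMap _ L c) = algebraMap _ L c := fun c =>
    (hfix _).mpr ⟨c, rfl⟩
  have hdiag1 : Matrix.diagonal (fun _ : Fin n => (1 : L)) = 1 := Matrix.diagonal_one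
  have hXX : hF hS v g X X = 1 := by
    have h1 := move_eq hGu hG hH hH' hPu hP X X (fun _ => 1) (by
      intro a c
      rw [hXf]
      split_ifs with hac
      · subst hac
        rw [one_mul]
        exact hf1 a
      · exact hf2 a c hac)
    apply ρ.injective
    rw [hdiag1, Matrix.one_mul] at h1
    rw [map_one]
    exact hPu.mul_left_cancel (by rw [h1, Matrix.mul_one])
  have hYY : hF hS v g Y Y = 1 := by
    have h1 := move_eq hGu hG hH hH' hPu hP Y Y (fun _ => 1) (by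
      intro a c
      rw [hYf]
      split_ifs with hac
      · subst hac
        rw [one_mul]
        exact hf1' a
      · exact hf2' a c hac)
    apply ρ.injective
    rw [hdiag1, Matrix.one_mul] at h1
    rw [map_one]
    exact hPu.mul_left_cancel (by rw [h1, Matrix.mul_one])
  have hXY : P * ρ (hF hS v g X Y) = Matrix.diagonal (Function.update 1 j θ) * P := by
    apply move_eq hGu hG hH hH' hPu hP X Y
    intro a c
    rw [hXf, hYf]
    rcases eq_or_ne c j with hc | hc
    · subst hc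
      split_ifs with hac
      · subst hac
        rw [Function.update_self, hθ, mul_comm]
      · rw [← hj a hac]
        exact hf2' a c hac
    · rw [hj c hc]
      split_ifs with hac
      · subst hac
        rw [Function.update_of_ne hc, Pi.one_apply, one_mul]
        exact hf1 a
      · exact hf2 a c hac
  have hYX : P * ρ (sg hS v (hF hS v g X Y)) =
      Matrix.diagonal (Function.update 1 j (star θ)) * P := by
    rw [sg_hF hg]
    apply move_eq hGu hG hH hH' hPu hP Y X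
    intro a c
    rw [hXf, hYf, ← hb, ← b.star_h]
    rcases eq_or_ne a j with ha | ha
    · subst ha
      split_ifs with hac
      · subst hac
        rw [Function.update_self, hθ, star_mul', hstarF, mul_comm]
      · rw [← hj c (Ne.symm hac), hf2' c a (Ne.symm hac), star_zero]
    · rw [hj a ha]
      split_ifs with hac
      · subst hac
        rw [Function.update_of_ne ha, Pi.one_apply, one_mul, hf1, hstarF]
      · rw [hf2 c a (Ne.symm hac), star_zero]
  obtain ⟨a, haLN, ha⟩ := norm_mem_LN ht0 hts hfix htd hθ0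
  obtain ⟨a₂, ha₂LN, ha₂⟩ := norm_mem_LN ht0 hts hfix htd hp0
  have hrel : (a : v.adicCompletion k) = 1 + a₂ := by
    apply (algebraMap (v.adicCompletion k) L).injective
    rw [← ha, hθp, ha₂, map_add, map_one]
  refine ⟨hXX, hYY, ?_, a, -a₂, haLN, ?_, ?_, ?_⟩
  · intro h1
    rw [h1, map_neg, map_one, Matrix.mul_neg, Matrix.mul_one] at hXY
    have h2 : (-1 : Matrix (Fin n) (Fin n) L) * P = Matrix.diagonal (Function.update 1 j θ) * P := by
      rw [Matrix.neg_mul, Matrix.one_mul, hXY]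
    have h3 := hPu.mul_right_cancel h2
    obtain ⟨i, hi⟩ : ∃ i : Fin n, i ≠ j := by
      have : Nontrivial (Fin n) := Fin.nontrivial_iff_two_le.mpr hn
      exact exists_ne j
    have h4 := congrFun (congrFun h3 i) i
    rw [Matrix.neg_apply, Matrix.one_apply_eq, Matrix.diagonal_apply_eq,
      Function.update_of_ne hi, Pi.one_apply] at h4
    have h5 : (2 : L) = 0 := by linear_combination -h4
    exact two_ne_zero h5
  · rw [hrel, Units.val_neg]
    ring
  · rwa [neg_neg]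
  · apply ρ.injective
    rw [map_zero]
    have h1 : P * ρ (hF hS v g X Y * sg hS v (hF hS v g X Y)) =
        Matrix.diagonal (Function.update 1 j (algebraMap (v.adicCompletion k) L a)) * P := by
      rw [map_mul, ← Matrix.mul_assoc, hXY, Matrix.mul_assoc, hYX, ← Matrix.mul_assoc,
        Matrix.diagonal_mul_diagonal]
      congr 2
      funext i
      rcases eq_or_ne i j with hi | hi
      · subst hi
        rw [Function.update_self, Function.update_self, Function.update_self, ha]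
      · rw [Function.update_of_ne hi, Function.update_of_ne hi, Function.update_of_ne hi,
          Pi.one_apply, mul_one]
    have h2 : ∀ c : v.adicCompletion k, P * ρ (algebraMap (v.adicCompletion k) _ c) =
        Matrix.diagonal (fun _ => algebraMap (v.adicCompletion k) L c) * P := by
      intro c
      rw [AlgEquiv.commutes, ← Algebra.commutes]
      rfl
    have h3 : P * ρ (hF hS v g X Y * sg hS v (hF hS v g X Y) - 1) =
        Matrix.diagonal (Function.update (1 : Fin n → L) j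
          (algebraMap (v.adicCompletion k) L a) - 1) * P := by
      have h6 : ∀ x : Fin n → L, Matrix.diagonal (x - 1) = Matrix.diagonal x - 1 := by
        intro x
        rw [← Matrix.diagonal_one, Matrix.diagonal_sub]
        rfl
      rw [map_sub, Matrix.mul_sub, h1, map_one, Matrix.mul_one, h6, Matrix.sub_mul,
        Matrix.one_mul]
    apply hPu.mul_left_cancel
    rw [Matrix.mul_zero, map_mul, ← Matrix.mul_assoc, h3, Matrix.mul_assoc, map_sub,
      Matrix.mul_sub, h1, h2, ← Matrix.sub_mul, Matrix.diagonal_sub, ← Matrix.mul_assoc,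
      Matrix.diagonal_mul_diagonal]
    have h4 : (fun i => (Function.update (1 : Fin n → L) j
        (algebraMap (v.adicCompletion k) L a) - 1) i *
        (Function.update (1 : Fin n → L) j (algebraMap (v.adicCompletion k) L a) i -
          algebraMap (v.adicCompletion k) L a)) = 0 := by
      funext i
      rw [Pi.sub_apply, Pi.one_apply, Pi.zero_apply]
      rcases eq_or_ne i j with hi | hi
      · subst hi
        rw [Function.update_self, sub_self, mul_zero]
      · rw [Function.update_of_ne hi, Pi.one_apply, sub_self, zero_mul]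
    rw [h4]
    have : Matrix.diagonal (0 : Fin n → L) = 0 := Matrix.diagonal_zero
    rw [this, Matrix.zero_mul]

end model

end Vale.Agent.P011.Two
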