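import Vale.Agent.P011.Two.HigherB

/-!
Normal subgroups of finite index of the special unitary group of an anisotropic hermitian form
of rank at least two: from planes to forms of arbitrary rank.
-/

open Module Matrix
open scoped commutatorElement

set_option linter.unusedSectionVars false

namespace Vale.Agent.P011.Two.Hi

open Vale.Agent.P011S Vale.Agent.P011.Arith Vale.Agent.P011.Even
open Vale.Agent.P011.RP (rowH rowF)

section perp

variable {D V : Type} [DivisionRing D] [StarRing D] [AddCommGroup V] [Module D V]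
  {H : AForm D V}

/-- The form as a hermitian form in the sense of the other files. -/
def toHF (H : AForm D V) : T2.HF D V where
  h := H.h
  add_left := H.add_left
  smul_left := H.smul_left
  star_h := H.star_h

/-- Two nonzero vectors are contained in a plane with an orthogonal basis. -/
theorem exists_plane [FiniteDimensional D V] (hV : 2 ≤ finrank D V) {y z : V} (hy : y ≠ 0) :
    ∃ X Y : V, Pl H X Y ∧ ∀ v, H.h v X = 0 → H.h v Y = 0 → H.h v y = 0 ∧ H.h v z = 0 := by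
  obtain ⟨w, hw⟩ : ∃ w, w = z - (H.h z y * (H.h y y)⁻¹) • y := ⟨_, rfl⟩
  by_cases hw0 : w = 0
  · obtain ⟨Y, hY0, hY⟩ := exists_perp (toHF H) hV y
    refine ⟨y, Y, ⟨hy, hY0, H.orth_symm hY⟩, fun v h1 _ => ⟨h1, ?_⟩⟩
    have hz : z = (H.h z y * (H.h y y)⁻¹) • y := by
      rw [hw, sub_eq_zero] at hw0
      exact hw0
    rw [hz, H.smul_right, h1, zero_mul]
  · have hwy : H.h w y = 0 := by
      rw [hw, H.sub_left, H.smul_left, mul_assoc, inv_mul_cancel₀ (H.self_ne_zero hy), mul_one,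
        sub_self]
    refine ⟨y, w, ⟨hy, hw0, H.orth_symm hwy⟩, fun v h1 h2 => ⟨h1, ?_⟩⟩
    have hz : z = w + (H.h z y * (H.h y y)⁻¹) • y := by
      rw [hw, sub_add_cancel]
    rw [hz, H.add_right, H.smul_right, h1, h2, zero_mul, add_zero]

theorem qr_fix {y : V} {s : D} {hs : s + star s = H.h y y} {v : V} (hv : H.h v y = 0) :
    H.qr y s hs v = v := by
  rw [H.qr_apply, hv, zero_mul, zero_smul, sub_zero]

theorem qr_zero {s : D} {hs : s + star s = H.h (0 : V) 0} : H.qr 0 s hs = 1 := by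
  ext v
  rw [qr_fix (H.zero_right v)]
  rfl

end perp

section main

variable {k K D Ω : Type} [Field k] [NumberField k] [Field K] [StarRing K]
  [DivisionRing D] [StarRing D] [Algebra k K] [Algebra k D] [Algebra K D] [IsScalarTower k K D]
  [Field Ω] [Algebra K Ω] {d : kˣ} {s : K} {n : ℕ} (f : D →ₐ[K] Matrix (Fin n) (Fin n) Ω)
  {m : ℕ} {H : Matrix (Fin m) (Fin m) D} {hH : IsAnisotropicForm H}

/-- The image of the special unitary group. -/
noncomputable def GG (H : Matrix (Fin m) (Fin m) D) : Subgroup ((Fin m → D) ≃ₗ[D] (Fin m → D)) :=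
  (SU f H).map rp

/-- The image of a subgroup of the special unitary group. -/
noncomputable def NN (N : Subgroup (SU f H)) : Subgroup ((Fin m → D) ≃ₗ[D] (Fin m → D)) :=
  (N.map (SU f H).subtype).map rp

theorem NN_le (N : Subgroup (SU f H)) : NN f N ≤ GG f H := by
  rintro _ ⟨_, ⟨n, -, rfl⟩, rfl⟩
  exact ⟨n, n.2, rfl⟩

theorem NN_conj (N : Subgroup (SU f H)) [hN : N.Normal] {v x : (Fin m → D) ≃ₗ[D] (Fin m → D)}
    (hv : v ∈ GG f H) (hx : x ∈ NN f N) : v * x * v⁻¹ ∈ NN f N := by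
  obtain ⟨g, hg, rfl⟩ := hv
  obtain ⟨_, ⟨n, hn, rfl⟩, rfl⟩ := hx
  refine ⟨_, ⟨_, hN.conj_mem n hn ⟨g, hg⟩, rfl⟩, ?_⟩
  simp only [map_mul, map_inv, Subgroup.subtype_apply]

theorem NN_relIndex (N : Subgroup (SU f H)) (hN : N.index ≠ 0) :
    (NN f N).relIndex (GG f H) ≠ 0 := by
  rw [NN, GG, Subgroup.relIndex_map_map_of_injective _ _ rp_injective]
  have h2 : (N.map (SU f H).subtype).relIndex ((⊤ : Subgroup (SU f H)).map (SU f H).subtype) =
      N.relIndex ⊤ := Subgroup.relIndex_map_map_of_injective _ _ (SU f H).subtype_injective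
  rw [← MonoidHom.range_eq_map, Subgroup.range_subtype, Subgroup.relIndex_top_right] at h2
  rw [h2]
  exact hN

theorem mem_GG {T : (Fin m → D) ≃ₗ[D] (Fin m → D)} (hT : T ∈ (rowA H hH).isom)
    (h : redNorm f (Fin m) (rm (T : (Fin m → D) →ₗ[D] (Fin m → D))) = 1) : T ∈ GG f H := by
  obtain ⟨g, rfl⟩ := rp_surj T
  have hg : g ∈ UH H := (rp_mem hH).mp hT
  rw [rm_rp, redNorm_conj f hH hg] at h
  exact ⟨g, ⟨hg, h⟩, rfl⟩

/-- The commutators of quasi-reflections. -/
theorem comm_qrs (hM : MPQStatement) (hT : TransStmt) (hG2 : MatchedStmt)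
    (hS : Setting k K D d s) (hn : 2 ≤ n) (hdeg : finrank K D = n ^ 2) (hm : 2 ≤ m)
    (N : Subgroup (SU f H)) [N.Normal] (hN : N.index ≠ 0) :
    ∀ a ∈ qrs (rowA H hH), ∀ b ∈ qrs (rowA H hH), a * b * a⁻¹ * b⁻¹ ∈ NN f N := by
  rintro a ⟨y, t, ht, rfl⟩ b ⟨z, r, hr, rfl⟩
  by_cases hy : y = 0
  · subst hy
    rw [qr_zero, one_mul, inv_one, mul_one, mul_inv_cancel]
    exact one_mem _
  obtain ⟨X, Y, hP, hXY⟩ := exists_plane (H := rowA H hH) (z := z)
    (by rw [Module.finrank_fin_fun]; exact hm) hy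
  obtain ⟨u, hu, hua⟩ := ex_surj hP ((rowA H hH).qr_mem y t ht) fun v h1 h2 =>
    qr_fix (hXY v h1 h2).1
  obtain ⟨w, hw, hwb⟩ := ex_surj hP ((rowA H hH).qr_mem z r hr) fun v h1 h2 =>
    qr_fix (hXY v h1 h2).2
  rw [← mem_Uh_plane hP] at hu hw
  obtain ⟨U, hU⟩ : ∃ U, U = @Uh D _ (twistStar ((rowA H hH).star_h X X) hP.a0)
    ((rowA H hH).h Y Y * ((rowA H hH).h X X)⁻¹) := ⟨_, rfl⟩
  have hUi : ∀ v ∈ U, ex hP v ∈ (rowA H hH).isom := by
    intro v hv
    rw [hU, mem_Uh_plane hP] at hv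
    exact ex_mem hP hv
  obtain ⟨G₀, hG₀⟩ : ∃ G₀, G₀ = U ⊓ (GG f H).comap (ex hP) := ⟨_, rfl⟩
  obtain ⟨N₀, hN₀⟩ : ∃ N₀, N₀ = (NN f N).comap (ex hP) ⊓ G₀ := ⟨_, rfl⟩
  have hS' := setting_twist hS ((rowA H hH).star_h X X) hP.a0
  have hmain := @main_two k K D _ _ _ _ _ (twistStar ((rowA H hH).star_h X X) hP.a0) _ _ _ _ d s
    hM hT hG2 hS' n hn hdeg _ (star_plane hP) (an_plane hP) G₀ N₀ ?_ ?_ ?_ ?_ ?_ u hu w hw
  · rw [hN₀] at hmain
    have h1 : ex hP (u * w * u⁻¹ * w⁻¹) ∈ NN f N := hmain.1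
    rw [map_mul, map_mul, map_mul, map_inv, map_inv, hua, hwb] at h1
    exact h1
  · intro F _ _ _ ι b p₀ p₁ q₀ q₁ y w u hspan hnrm huy huw huU
    rw [← hU] at huU
    rw [hG₀]
    refine ⟨huU, ?_⟩
    apply mem_GG f (hUi u huU)
    rw [redNorm_ex]
    obtain ⟨a1, c1, h1⟩ := hspan (1, 0)
    obtain ⟨a2, c2, h2⟩ := hspan (0, 1)
    obtain ⟨T, hTd⟩ : ∃ T : Matrix (Fin 2) (Fin 2) D, T = !![y.1, y.2; w.1, w.2] := ⟨_, rfl⟩
    have hT1 : !![a1, c1; a2, c2] * T = 1 := by
      rw [hTd]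
      have e1 := congrArg Prod.fst h1
      have e2 := congrArg Prod.snd h1
      have e3 := congrArg Prod.fst h2
      have e4 := congrArg Prod.snd h2
      simp only [Prod.fst_add, Prod.snd_add, Prod.smul_fst, Prod.smul_snd, smul_eq_mul] at e1 e2 e3 e4
      ext i j
      fin_cases i <;> fin_cases j <;>
        simp [Matrix.mul_apply, Fin.sum_univ_two, ← e1, ← e2, ← e3, ← e4]
    have hT0 : redNorm f (Fin 2) T ≠ 0 := by
      intro h0
      have h3 := congrArg (redNorm f (Fin 2)) hT1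
      rw [map_mul, h0, mul_zero, map_one] at h3
      exact zero_ne_one h3
    have hTM : T * m2 u = !![ι p₀ + ι p₁ * algebraMap K D s, ι q₀ + ι q₁ * algebraMap K D s;
        -(ι b * (ι q₀ - ι q₁ * algebraMap K D s)), ι p₀ - ι p₁ * algebraMap K D s] * T := by
      rw [u_apply u y] at huy
      rw [u_apply u w] at huw
      have e1 := congrArg Prod.fst huy
      have e2 := congrArg Prod.snd huy
      have e3 := congrArg Prod.fst huw
      have e4 := congrArg Prod.snd huw
      simp only [Prod.fst_add, Prod.snd_add, Prod.smul_fst, Prod.smul_snd, smul_eq_mul] at e1 e2 e3 e4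
      rw [hTd, m2]
      ext i j
      fin_cases i <;> fin_cases j
      · simpa [Matrix.mul_apply, Fin.sum_univ_two] using e1
      · simpa [Matrix.mul_apply, Fin.sum_univ_two] using e2
      · simpa [Matrix.mul_apply, Fin.sum_univ_two] using e3
      · simpa [Matrix.mul_apply, Fin.sum_univ_two] using e4
    have h4 := congrArg (redNorm f (Fin 2)) hTM
    rw [map_mul, map_mul, redNorm_plane f hS.sq ι b p₀ p₁ q₀ q₁ hnrm, one_mul] at h4
    exact mul_left_cancel₀ hT0 (by rw [h4, mul_one])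
  · rw [hG₀, hU]
    exact inf_le_left
  · rw [hN₀]
    exact inf_le_right
  · intro v hv x hx
    rw [hN₀] at hx ⊢
    have hv2 := hv
    rw [hG₀] at hv2
    refine ⟨?_, G₀.mul_mem (G₀.mul_mem hv hx.2) (G₀.inv_mem hv)⟩
    change ex hP (v * x * v⁻¹) ∈ NN f N
    rw [map_mul, map_mul, map_inv]
    exact NN_conj f N hv2.2 hx.1
  · rw [hN₀, Subgroup.inf_relIndex_right, Subgroup.relIndex_comap]
    intro h0
    refine NN_relIndex f N hN (Subgroup.relIndex_eq_zero_of_le_right ?_ h0)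
    rw [hG₀]
    rintro _ ⟨v, hv, rfl⟩
    exact hv.2

/-- A normal subgroup of finite index contains all commutators. -/
theorem contains_commutators (hM : MPQStatement) (hT : TransStmt) (hG2 : MatchedStmt)
    (hS : Setting k K D d s) (hn : 2 ≤ n) (hdeg : finrank K D = n ^ 2) (hm : 2 ≤ m)
    (hH : IsAnisotropicForm H) (N : Subgroup (SU f H)) [N.Normal] (hN : N.index ≠ 0) :
    ContainsCommutators f H N := by
  have hcomm := comm_le_of_gen (qrs (rowA H hH)) (fun g hg a ha => by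
      rw [← isom_eq_closure] at hg
      exact qrs_conj hg ha) (NN f N)
    (comm_qrs f (hH := hH) hM hT hG2 hS hn hdeg hm N hN)
  intro a ha b hb
  rw [← isom_eq_closure] at hcomm
  obtain ⟨_, ⟨n, hn, rfl⟩, h⟩ := hcomm (rp a) ((rp_mem hH).mpr ha) (rp b) ((rp_mem hH).mpr hb)
  refine ⟨n, hn, rp_injective ?_⟩
  rw [map_mul, map_mul, map_mul, map_inv, map_inv]
  exact h

end main

section final

variable {K D : Type} [Field K] [NumberField K] [StarRing K] [DivisionRing D] [StarRing D]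
  [Algebra K D] [StarModule K D] [FiniteDimensional K D] [Algebra.IsCentral K D]

/-- A normal subgroup of finite index contains all commutators. -/
theorem index_of_blocks (hM : MPQStatement) (hT : TransStmt) (hG2 : MatchedStmt)
    (hK : ∃ k : K, star k ≠ k) {n : ℕ} (hn : 2 ≤ n) (hdeg : finrank K D = n ^ 2)
    {Ω : Type} [Field Ω] [Algebra K Ω] (f : D →ₐ[K] Matrix (Fin n) (Fin n) Ω)
    {m : ℕ} (hm : 2 ≤ m) (H : Matrix (Fin m) (Fin m) D) (hH : IsAnisotropicForm H)
    (N : Subgroup (SU f H)) [N.Normal] (hN : N.index ≠ 0) : ContainsCommutators f H N := by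
  obtain ⟨k0, hk0⟩ := hK
  have hθ0 : k0 - star k0 ≠ 0 := sub_ne_zero.mpr (Ne.symm hk0)
  have hθ : star (k0 - star k0) = -(k0 - star k0) := by rw [star_sub, star_star, neg_sub]
  let _ := algFK (K := K) (D := D)
  have _ : IsScalarTower (FK K) K D := IsScalarTower.of_algebraMap_eq fun _ => rfl
  have hS : Setting (FK K) K D (sqU hθ0 hθ) (k0 - star k0) := setting hθ0 hθ
  exact contains_commutators f hM hT hG2 hS hn hdeg hm hH N hN

end final

end Vale.Agent.P011.Two.Hi
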