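import Vale.Agent.P011.Two.MainTwo
import Vale.Agent.P011.Even.R2
import Mathlib.RingTheory.Norm.Transitivity

/-!
Planes in anisotropic hermitian spaces of arbitrary rank: isometries of a plane are extended by
the identity on the orthogonal complement, and the isometry group is generated by
quasi-reflections.
-/

open Module Matrix
open scoped commutatorElement

set_option linter.unusedSectionVars false

namespace Vale.Agent.P011.Two.Hi

open Vale.Agent.P011S

section plane

variable {D V : Type} [DivisionRing D] [StarRing D] [AddCommGroup V] [Module D V]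
  (H : AForm D V) (X Y : V)

/-- Coordinates of the orthogonal projection to the plane spanned by `X` and `Y`. -/
def crd : V →ₗ[D] D × D where
  toFun v := (H.h v X * (H.h X X)⁻¹, H.h v Y * (H.h Y Y)⁻¹)
  map_add' v w := by
    ext
    · simp only [H.add_left, add_mul, Prod.mk_add_mk]
    · simp only [H.add_left, add_mul, Prod.mk_add_mk]
  map_smul' c v := by
    ext
    · simp only [H.smul_left, mul_assoc, Prod.smul_mk, smul_eq_mul, RingHom.id_apply]
    · simp only [H.smul_left, mul_assoc, Prod.smul_mk, smul_eq_mul, RingHom.id_apply]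

/-- The vector with given coordinates. -/
def vec : D × D →ₗ[D] V where
  toFun c := c.1 • X + c.2 • Y
  map_add' c c' := by
    simp only [Prod.fst_add, Prod.snd_add, add_smul]; abel
  map_smul' c v := by
    simp only [Prod.smul_fst, Prod.smul_snd, smul_eq_mul, mul_smul, smul_add, RingHom.id_apply]

theorem crd_apply (v : V) :
    crd H X Y v = (H.h v X * (H.h X X)⁻¹, H.h v Y * (H.h Y Y)⁻¹) := rfl

theorem vec_apply (c : D × D) : vec X Y c = c.1 • X + c.2 • Y := rfl

/-- Two nonzero orthogonal vectors. -/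
structure Pl : Prop where
  x0 : X ≠ 0
  y0 : Y ≠ 0
  xy : H.h X Y = 0

variable {H X Y}

theorem Pl.a0 (h : Pl H X Y) : H.h X X ≠ 0 := H.self_ne_zero h.x0

theorem Pl.b0 (h : Pl H X Y) : H.h Y Y ≠ 0 := H.self_ne_zero h.y0

theorem Pl.yx (h : Pl H X Y) : H.h Y X = 0 := H.orth_symm h.xy

theorem h_vec (h : Pl H X Y) (c c' : D × D) : H.h (vec X Y c) (vec X Y c') =
    c.1 * H.h X X * star c'.1 + c.2 * H.h Y Y * star c'.2 := by
  simp only [vec_apply, H.add_left, H.add_right, H.smul_left, H.smul_right, h.xy, h.yx, mul_zero,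
    zero_mul, add_zero, zero_add, mul_assoc]

theorem crd_vec (h : Pl H X Y) (c : D × D) : crd H X Y (vec X Y c) = c := by
  ext
  · simp only [crd_apply, vec_apply, H.add_left, H.smul_left, h.yx, mul_zero, add_zero]
    rw [mul_assoc, mul_inv_cancel₀ h.a0, mul_one]
  · simp only [crd_apply, vec_apply, H.add_left, H.smul_left, h.xy, mul_zero, zero_add]
    rw [mul_assoc, mul_inv_cancel₀ h.b0, mul_one]

theorem sub_orth (h : Pl H X Y) (v : V) (c : D × D) :
    H.h (v - vec X Y (crd H X Y v)) (vec X Y c) = 0 := by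
  have h1 : H.h (vec X Y (crd H X Y v)) X = H.h v X := by
    simp only [crd_apply, vec_apply, H.add_left, H.smul_left, h.yx, mul_zero, add_zero]
    rw [mul_assoc, inv_mul_cancel₀ h.a0, mul_one]
  have h2 : H.h (vec X Y (crd H X Y v)) Y = H.h v Y := by
    simp only [crd_apply, vec_apply, H.add_left, H.smul_left, h.xy, mul_zero, zero_add]
    rw [mul_assoc, inv_mul_cancel₀ h.b0, mul_one]
  rw [vec_apply X Y c, H.add_right, H.smul_right, H.smul_right, H.sub_left, H.sub_left, h1, h2,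
    sub_self, sub_self, zero_mul, zero_mul, add_zero]

theorem sub_orth' (h : Pl H X Y) (v : V) (c : D × D) :
    H.h (vec X Y c) (v - vec X Y (crd H X Y v)) = 0 := H.orth_symm (sub_orth h v c)

theorem sub_x (h : Pl H X Y) (v : V) : H.h (v - vec X Y (crd H X Y v)) X = 0 := by
  have h1 : vec X Y ((1 : D), (0 : D)) = X := by
    rw [vec_apply, one_smul, zero_smul, add_zero]
  have := sub_orth h v (1, 0)
  rwa [h1] at this

theorem sub_y (h : Pl H X Y) (v : V) : H.h (v - vec X Y (crd H X Y v)) Y = 0 := by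
  have h1 : vec X Y ((0 : D), (1 : D)) = Y := by
    rw [vec_apply, one_smul, zero_smul, zero_add]
  have := sub_orth h v (0, 1)
  rwa [h1] at this

theorem crd_sub (h : Pl H X Y) (v : V) : crd H X Y (v - vec X Y (crd H X Y v)) = 0 := by
  rw [map_sub, crd_vec h, sub_self]

/-- The extension by the identity. -/
def ex₀ (u : D × D →ₗ[D] D × D) : V →ₗ[D] V :=
  LinearMap.id - (vec X Y).comp (crd H X Y) + (vec X Y).comp (u.comp (crd H X Y))

theorem ex₀_apply (u : D × D →ₗ[D] D × D) (v : V) : ex₀ (H := H) (X := X) (Y := Y) u v =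
    v - vec X Y (crd H X Y v) + vec X Y (u (crd H X Y v)) := rfl

theorem ex₀_ex₀ (h : Pl H X Y) (u w : D × D →ₗ[D] D × D) (v : V) :
    ex₀ (H := H) (X := X) (Y := Y) u (ex₀ (H := H) (X := X) (Y := Y) w v) =
      ex₀ (H := H) (X := X) (Y := Y) (u.comp w) v := by
  rw [ex₀_apply u, ex₀_apply w, ex₀_apply]
  have h1 : crd H X Y (v - vec X Y (crd H X Y v) + vec X Y (w (crd H X Y v))) =
      w (crd H X Y v) := by
    rw [map_add, crd_sub h, crd_vec h, zero_add]
  rw [h1, LinearMap.comp_apply]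
  abel

theorem ex₀_id (v : V) : ex₀ (H := H) (X := X) (Y := Y) LinearMap.id v = v := by
  rw [ex₀_apply]
  simp

/-- The extension by the identity, as a homomorphism of groups. -/
def ex (h : Pl H X Y) : ((D × D) ≃ₗ[D] (D × D)) →* (V ≃ₗ[D] V) where
  toFun u := LinearEquiv.ofLinearMap (ex₀ (H := H) (X := X) (Y := Y) (u : D × D →ₗ[D] D × D))
    (ex₀ (H := H) (X := X) (Y := Y) (u.symm : D × D →ₗ[D] D × D))
    (by
      ext v
      rw [LinearMap.comp_apply, ex₀_ex₀ h]
      have : (u : D × D →ₗ[D] D × D).comp (u.symm : D × D →ₗ[D] D × D) = LinearMap.id := by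
        ext <;> simp
      rw [this, ex₀_id]
      rfl)
    (by
      ext v
      rw [LinearMap.comp_apply, ex₀_ex₀ h]
      have : (u.symm : D × D →ₗ[D] D × D).comp (u : D × D →ₗ[D] D × D) = LinearMap.id := by
        ext <;> simp
      rw [this, ex₀_id]
      rfl)
  map_one' := by
    ext v
    exact ex₀_id v
  map_mul' u w := by
    ext v
    exact (ex₀_ex₀ h (u : D × D →ₗ[D] D × D) (w : D × D →ₗ[D] D × D) v).symm

theorem ex_apply (h : Pl H X Y) (u : (D × D) ≃ₗ[D] (D × D)) (v : V) : ex h u v =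
    v - vec X Y (crd H X Y v) + vec X Y (u (crd H X Y v)) := rfl

/-- The isometries of the plane, without normalization. -/
def IsoP (_ : Pl H X Y) (u : (D × D) ≃ₗ[D] (D × D)) : Prop :=
  ∀ x y, H.h (vec X Y (u x)) (vec X Y (u y)) = H.h (vec X Y x) (vec X Y y)

theorem ex_mem (h : Pl H X Y) {u : (D × D) ≃ₗ[D] (D × D)} (hu : IsoP h u) :
    ex h u ∈ H.isom := by
  intro v w
  rw [ex_apply, ex_apply, H.add_left, H.add_right, H.add_right, sub_orth h, sub_orth' h, hu,
    add_zero, zero_add]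
  have e : H.h v w = H.h ((v - vec X Y (crd H X Y v)) + vec X Y (crd H X Y v))
      ((w - vec X Y (crd H X Y w)) + vec X Y (crd H X Y w)) := by
    rw [sub_add_cancel, sub_add_cancel]
  rw [e, H.add_left, H.add_right (v - vec X Y (crd H X Y v)), H.add_right, sub_orth h,
    sub_orth' h, add_zero, zero_add]

/-- An isometry which is the identity on the orthogonal complement of the plane comes from an
isometry of the plane. -/
theorem ex_surj (h : Pl H X Y) {g : V ≃ₗ[D] V} (hg : g ∈ H.isom)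
    (hfix : ∀ v, H.h v X = 0 → H.h v Y = 0 → g v = v) : ∃ u, IsoP h u ∧ ex h u = g := by
  have hfix' : ∀ v, H.h v X = 0 → H.h v Y = 0 → g⁻¹ v = v := by
    intro v h1 h2
    have h3 := hfix v h1 h2
    calc g⁻¹ v = g⁻¹ (g v) := by rw [h3]
      _ = v := g.symm_apply_apply v
  -- isometries of this kind preserve the plane
  have key : ∀ g : V ≃ₗ[D] V, g ∈ H.isom → (∀ v, H.h v X = 0 → H.h v Y = 0 → g v = v) →
      ∀ c : D × D, g (vec X Y c) = vec X Y (crd H X Y (g (vec X Y c))) := by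
    intro g hg hfix c
    obtain ⟨w, hw⟩ : ∃ w, w = g (vec X Y c) - vec X Y (crd H X Y (g (vec X Y c))) := ⟨_, rfl⟩
    have h1 : H.h w X = 0 := by rw [hw]; exact sub_x h _
    have h2 : H.h w Y = 0 := by rw [hw]; exact sub_y h _
    have h3 : ∀ c : D × D, H.h w (vec X Y c) = 0 := by
      intro c
      rw [hw]
      exact sub_orth h _ _
    have h4 : H.h w (g (vec X Y c)) = 0 := by
      have h5 := H.isom_apply hg w (vec X Y c)
      rw [hfix w h1 h2] at h5
      rw [h5, h3]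
    have h5 : H.h w w = 0 := by
      nth_rewrite 2 [hw]
      rw [H.sub_right, h4, h3, sub_zero]
    have h6 := H.anis h5
    rw [hw, sub_eq_zero] at h6
    exact h6
  have hgi := inv_mem hg
  have e1 : ∀ c : D × D, crd H X Y (g (vec X Y (crd H X Y (g⁻¹ (vec X Y c))))) = c := by
    intro c
    rw [← key g⁻¹ hgi hfix' c]
    have : g (g⁻¹ (vec X Y c)) = vec X Y c := g.apply_symm_apply _
    rw [this, crd_vec h]
  have e2 : ∀ c : D × D, crd H X Y (g⁻¹ (vec X Y (crd H X Y (g (vec X Y c))))) = c := by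
    intro c
    rw [← key g hg hfix c]
    have : g⁻¹ (g (vec X Y c)) = vec X Y c := g.symm_apply_apply _
    rw [this, crd_vec h]
  let u : (D × D) ≃ₗ[D] (D × D) := LinearEquiv.ofLinearMap
    ((crd H X Y).comp ((g : V →ₗ[D] V).comp (vec X Y)))
    ((crd H X Y).comp (((g⁻¹ : V ≃ₗ[D] V) : V →ₗ[D] V).comp (vec X Y)))
    (LinearMap.ext e1) (LinearMap.ext e2)
  have hu : ∀ c : D × D, vec X Y (u c) = g (vec X Y c) := fun c => (key g hg hfix c).symm
  refine ⟨u, fun x y => ?_, ?_⟩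
  · rw [hu, hu, H.isom_apply hg]
  · ext v
    rw [ex_apply, hu]
    have h1 := hfix _ (sub_x h v) (sub_y h v)
    rw [map_sub] at h1
    rw [← h1]
    abel

/-- The form of the plane, with respect to the twisted involution. -/
theorem hh_plane (h : Pl H X Y) (x y : D × D) :
    @hh D _ (twistStar (H.star_h X X) h.a0) (H.h Y Y * (H.h X X)⁻¹) x y =
      H.h (vec X Y x) (vec X Y y) * (H.h X X)⁻¹ := by
  rw [h_vec h]
  change x.1 * (H.h X X * star y.1 * (H.h X X)⁻¹) +
    x.2 * (H.h Y Y * (H.h X X)⁻¹) * (H.h X X * star y.2 * (H.h X X)⁻¹) = _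
  have e : x.2 * (H.h Y Y * (H.h X X)⁻¹) * (H.h X X * star y.2 * (H.h X X)⁻¹) =
      x.2 * H.h Y Y * star y.2 * (H.h X X)⁻¹ := by
    calc x.2 * (H.h Y Y * (H.h X X)⁻¹) * (H.h X X * star y.2 * (H.h X X)⁻¹)
        = x.2 * H.h Y Y * ((H.h X X)⁻¹ * H.h X X) * star y.2 * (H.h X X)⁻¹ := by
          simp only [mul_assoc]
      _ = _ := by rw [inv_mul_cancel₀ h.a0, mul_one]
  rw [e, add_mul]
  simp only [mul_assoc]

theorem mem_Uh_plane (h : Pl H X Y) (u : (D × D) ≃ₗ[D] (D × D)) :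
    u ∈ @Uh D _ (twistStar (H.star_h X X) h.a0) (H.h Y Y * (H.h X X)⁻¹) ↔ IsoP h u := by
  constructor
  · intro hu x y
    have h1 := hu x y
    rw [hh_plane h, hh_plane h] at h1
    exact mul_right_cancel₀ (inv_ne_zero h.a0) h1
  · intro hu x y
    rw [hh_plane h, hh_plane h, hu]

theorem an_plane (h : Pl H X Y) :
    @An D _ (twistStar (H.star_h X X) h.a0) (H.h Y Y * (H.h X X)⁻¹) := by
  intro x hx
  rw [hh_plane h] at hx
  have h1 := H.anis ((mul_eq_zero.mp hx).resolve_right (inv_ne_zero h.a0))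
  have h2 := crd_vec h x
  rw [h1, map_zero] at h2
  exact h2.symm

theorem star_plane (h : Pl H X Y) :
    @star D (twistStar (H.star_h X X) h.a0).toStar (H.h Y Y * (H.h X X)⁻¹) =
      H.h Y Y * (H.h X X)⁻¹ := by
  change H.h X X * star (H.h Y Y * (H.h X X)⁻¹) * (H.h X X)⁻¹ = _
  rw [star_mul, star_inv₀, H.star_h, H.star_h, ← mul_assoc, mul_inv_cancel₀ h.a0, one_mul]

end plane

section gen

variable {D V : Type} [DivisionRing D] [StarRing D] [AddCommGroup V] [Module D V]
  (H : AForm D V)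

/-- The quasi-reflections. -/
def qrs : Set (V ≃ₗ[D] V) :=
  {g | ∃ (y : V) (s : D) (hs : s + star s = H.h y y), g = H.qr y s hs}

variable {H}

theorem qrs_mem {g : V ≃ₗ[D] V} (hg : g ∈ qrs H) : g ∈ H.isom := by
  obtain ⟨y, s, hs, rfl⟩ := hg
  exact H.qr_mem y s hs

theorem qrs_conj {g a : V ≃ₗ[D] V} (hg : g ∈ H.isom) (ha : a ∈ qrs H) : g * a * g⁻¹ ∈ qrs H := by
  obtain ⟨y, s, hs, rfl⟩ := ha
  exact ⟨g y, s, by rw [H.isom_apply hg, hs], H.qr_conj hg y s hs _⟩

theorem exists_qrs (k : ℕ) (e : Fin k → V) {g : V ≃ₗ[D] V} (hg : g ∈ H.isom) :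
    ∃ q ∈ Subgroup.closure (qrs H), q ∈ H.isom ∧ ∀ i, q (e i) = g (e i) := by
  induction k with
  | zero => exact ⟨1, one_mem _, one_mem _, fun i => i.elim0⟩
  | succ k ih =>
    obtain ⟨q, hq, hqi, hqe⟩ := ih (fun i => e i.castSucc)
    obtain ⟨x, hx⟩ : ∃ x, x = q (e (Fin.last k)) := ⟨_, rfl⟩
    obtain ⟨x', hx'⟩ : ∃ x', x' = g (e (Fin.last k)) := ⟨_, rfl⟩
    have h1 : H.h x x = H.h x' x' := by
      rw [hx, hx', H.isom_apply hqi, H.isom_apply hg]
    refine ⟨H.qr (x - x') (H.h x (x - x')) (H.qr_map_cond h1) * q,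
      mul_mem (Subgroup.subset_closure ⟨_, _, _, rfl⟩) hq, mul_mem (H.qr_mem _ _ _) hqi, ?_⟩
    intro i
    refine Fin.lastCases ?_ (fun j => ?_) i
    · rw [LinearEquiv.mul_apply, ← hx, H.qr_map h1, hx']
    · rw [LinearEquiv.mul_apply, H.qr_apply]
      have h2 : H.h (q (e j.castSucc)) (x - x') = 0 := by
        rw [H.sub_right, sub_eq_zero, hx, H.isom_apply hqi, hqe, hx', H.isom_apply hg]
      rw [h2, zero_mul, zero_smul, sub_zero, hqe]

theorem isom_eq_closure [FiniteDimensional D V] : H.isom = Subgroup.closure (qrs H) := by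
  apply le_antisymm
  · intro g hg
    obtain ⟨q, hq, -, hqe⟩ := exists_qrs _ (Module.finBasis D V) hg
    have : q = g := (Module.finBasis D V).ext' hqe
    rwa [← this]
  · rw [Subgroup.closure_le]
    exact fun g hg => qrs_mem hg

end gen

/-- A subgroup containing the commutators of the elements of a generating set which is invariant
under conjugation contains all commutators. -/
theorem comm_le_of_gen {W : Type*} [Group W] (S : Set W)
    (hS : ∀ g ∈ Subgroup.closure S, ∀ a ∈ S, g * a * g⁻¹ ∈ S) (N : Subgroup W)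
    (hN : ∀ a ∈ S, ∀ b ∈ S, a * b * a⁻¹ * b⁻¹ ∈ N) :
    ∀ x ∈ Subgroup.closure S, ∀ y ∈ Subgroup.closure S, x * y * x⁻¹ * y⁻¹ ∈ N := by
  obtain ⟨C, hC⟩ : ∃ C, C = Subgroup.closure {c : W | ∃ a ∈ S, ∃ b ∈ S, c = a * b * a⁻¹ * b⁻¹} :=
    ⟨_, rfl⟩
  have hCN : C ≤ N := by
    rw [hC, Subgroup.closure_le]
    rintro _ ⟨a, ha, b, hb, rfl⟩
    exact hN a ha b hb
  have hconj : ∀ g ∈ Subgroup.closure S, ∀ c ∈ C, g * c * g⁻¹ ∈ C := by
    intro g hg
    have h1 : C.map (MulAut.conj g).toMonoidHom ≤ C := by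
      nth_rewrite 1 [hC]
      rw [MonoidHom.map_closure, Subgroup.closure_le]
      rintro _ ⟨_, ⟨a, ha, b, hb, rfl⟩, rfl⟩
      rw [hC]
      refine Subgroup.subset_closure ⟨g * a * g⁻¹, hS g hg a ha, g * b * g⁻¹, hS g hg b hb, ?_⟩
      simp only [MulEquiv.toMonoidHom_eq_coe, MonoidHom.coe_coe, MulAut.conj_apply]
      group
    exact fun c hc => h1 ⟨c, hc, rfl⟩
  have hmem : ∀ a ∈ S, ∀ b ∈ S, a * b * a⁻¹ * b⁻¹ ∈ C := by
    intro a ha b hb
    rw [hC]
    exact Subgroup.subset_closure ⟨a, ha, b, hb, rfl⟩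
  have step1 : ∀ x ∈ Subgroup.closure S, ∀ b ∈ S, x * b * x⁻¹ * b⁻¹ ∈ C := by
    intro x hx b hb
    induction hx using Subgroup.closure_induction with
    | mem x hx => exact hmem x hx b hb
    | one => simp [one_mem]
    | mul x y hx hy ihx ihy =>
      have e : x * y * b * (x * y)⁻¹ * b⁻¹ = (x * (y * b * y⁻¹ * b⁻¹) * x⁻¹) *
          (x * b * x⁻¹ * b⁻¹) := by group
      rw [e]
      exact mul_mem (hconj x hx _ ihy) ihx
    | inv x hx ih =>
      have e : x⁻¹ * b * x⁻¹⁻¹ * b⁻¹ = x⁻¹ * (x * b * x⁻¹ * b⁻¹)⁻¹ * x⁻¹⁻¹ := by group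
      rw [e]
      exact hconj _ (inv_mem hx) _ (inv_mem ih)
  intro x hx y hy
  apply hCN
  induction hy using Subgroup.closure_induction with
  | mem y hy => exact step1 x hx y hy
  | one => simp [one_mem]
  | mul y z hy hz ihy ihz =>
    have e : x * (y * z) * x⁻¹ * (y * z)⁻¹ = (x * y * x⁻¹ * y⁻¹) *
        (y * (x * z * x⁻¹ * z⁻¹) * y⁻¹) := by group
    rw [e]
    exact mul_mem ihy (hconj y hy _ ihz)
  | inv y hy ih =>
    have e : x * y⁻¹ * x⁻¹ * y⁻¹⁻¹ = y⁻¹ * (x * y * x⁻¹ * y⁻¹)⁻¹ * y⁻¹⁻¹ := by group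
    rw [e]
    exact hconj _ (inv_mem hy) _ (inv_mem ih)

end Vale.Agent.P011.Two.Hi
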