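import Vale.Agent.P011.Two.LocGrp
import Vale.Agent.P011.Two.Comb

/-!
The map from the unitary group of a division algebra to a local unitary group, and the
Cayley transform.
-/

open Module Filter Topology Polynomial
open Vale.Agent.P011.Even (CtsAt near_minpoly)

namespace Vale.Agent.P011.Two

section

variable {k D F A : Type} [Field k] [DivisionRing D] [StarRing D] [Algebra k D] [NormedField F]
  [Algebra k F] [Ring A] [Algebra F A] {ι : Type} [Fintype ι]
  (BA : Basis ι F A) (g : D →+* A) (I : Inv F A) (hI : ∀ x, I.τ (g x) = g (star x))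

/-- The homomorphism of unitary groups. -/
noncomputable def gU : unitary D →* UT BA I :=
  MonoidHom.codRestrict ((Units.map (g : D →* A)).comp Unitary.toUnits) I.grp (by
    intro t
    change g (t : D) * I.τ (g (t : D)) = 1
    rw [hI, ← map_mul, (Unitary.mem_iff.mp t.2).2, map_one])

omit [Fintype ι] in
theorem gU_val (t : unitary D) : (gU BA g I hI t).val = g t := rfl

section cayley

variable {N : ℕ} (B : Basis (Fin N) k D)
  (hg : ∀ (a : k) x, g (a • x) = algebraMap k F a • g x)

/-- The antisymmetric part. -/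
noncomputable def asymA (X : A) : A := (2 : F)⁻¹ • (X - I.τ X)

include hI in
omit [Fintype ι] in
theorem g_asym [CharZero F] [CharZero D] (β : D) : g (asym β) = asymA I (g β) := by
  have h2 : (2 : D) ≠ 0 := two_ne_zero
  have h2' : (2 : F) ≠ 0 := two_ne_zero
  rw [asymA, hI, ← map_sub]
  have h1 : (2 : F) • g (asym β) = g (β - star β) := by
    rw [two_smul, ← map_add, ← two_mul, asym, mul_inv_cancel_left₀ h2]
  rw [← h1, smul_smul, inv_mul_cancel₀ h2', one_smul]

/-- The Cayley transform. -/
noncomputable def cayA (X : A) : A := (1 - asymA I X) * Ring.inverse (1 + asymA I X)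

include hI in
omit [Fintype ι] in
theorem g_cay [CharZero F] [CharZero D] (β : D) : g (cay β) = cayA I (g β) := by
  have h1 : (1 + asymA I (g β)) = g (1 + asym β) := by rw [map_add, map_one, g_asym g I hI]
  have h2 : Ring.inverse (1 + asymA I (g β)) = g (1 + asym β)⁻¹ := by
    have h3 := one_add_asym_ne β
    let U : Aˣ := ⟨g (1 + asym β), g (1 + asym β)⁻¹,
      by rw [← map_mul, mul_inv_cancel₀ h3, map_one],
      by rw [← map_mul, inv_mul_cancel₀ h3, map_one]⟩
    rw [h1]
    exact Ring.inverse_unit U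
  rw [cayA, h2, cay_val, map_mul, map_sub, map_one, g_asym g I hI]

include hg hI in
/-- Approximation by Cayley transforms. -/
theorem app_nhds [CharZero F] [CharZero D] (hspan : ∀ Y : A, ∃ b : Fin N → F, ∑ j, b j • g (B j) = Y)
    (T : UT BA I) (hT : IsUnit (1 + T.val)) {O : Set (UT BA I)} (hO : O ∈ 𝓝 T) :
    ∃ (b : Fin N → F) (δ : ℝ), 0 < δ ∧ ∀ β : D,
      (∀ j, ‖algebraMap k F (B.repr β j) - b j‖ < δ) → gU BA g I hI (cay β) ∈ O := by
  have h2 : (2 : F) ≠ 0 := two_ne_zero
  obtain ⟨V, hV⟩ := hT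
  set v : A := ((V⁻¹ : Aˣ) : A) with hv
  have hVv : (1 + T.val) * v = 1 := by rw [← hV]; exact V.mul_inv
  have hvV : v * (1 + T.val) = 1 := by rw [← hV]; exact V.inv_mul
  have hTs := T.mul_star
  have hsT : I.τ T.val * T.val = 1 := by
    have h3 := (T⁻¹).mul_star
    rwa [UT.val_inv, I.inv] at h3
  -- the coordinate
  set X₀ : A := (1 - T.val) * v with hX₀
  have hcomm : T.val * v = v * T.val := by
    calc T.val * v = (v * (1 + T.val)) * (T.val * v) := by rw [hvV, one_mul]
      _ = v * T.val * ((1 + T.val) * v) := by noncomm_ring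
      _ = _ := by rw [hVv, mul_one]
  have hτv : I.τ v = v * T.val := by
    -- `τ(1+T) = T⁻¹ (1 + T)`
    have h3 : I.τ (1 + T.val) * I.τ v = 1 := by
      rw [← I.mul, hvV, I.one]
    have h4 : I.τ (1 + T.val) = I.τ T.val * (1 + T.val) := by
      rw [map_add, I.one, mul_add, mul_one, hsT, add_comm]
    rw [h4] at h3
    calc I.τ v = (v * (T.val * I.τ T.val) * (1 + T.val)) * I.τ v := by
          rw [hTs, mul_one, hvV, one_mul]
      _ = v * T.val * (I.τ T.val * (1 + T.val) * I.τ v) := by simp only [mul_assoc]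
      _ = _ := by rw [h3, mul_one]
  have hτX : I.τ X₀ = -X₀ := by
    rw [hX₀, I.mul, hτv, map_sub, I.one, mul_assoc, mul_sub, mul_one, hTs, sub_mul, one_mul,
      ← hcomm.symm]
    rw [mul_sub, mul_one, neg_sub]
  have hasym : asymA I X₀ = X₀ := by
    rw [asymA, hτX, sub_neg_eq_add, ← two_smul F X₀, smul_smul, inv_mul_cancel₀ h2, one_smul]
  have h1X : 1 + X₀ = (2 : F) • v := by
    have : 1 + X₀ = (1 + T.val) * v + (1 - T.val) * v := by rw [hVv]
    rw [this, ← add_mul, two_smul]
    noncomm_ring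
  have h1X' : 1 - X₀ = (2 : F) • (T.val * v) := by
    have : 1 - X₀ = (1 + T.val) * v - (1 - T.val) * v := by rw [hVv]
    rw [this, ← sub_mul, two_smul]
    noncomm_ring
  have hinv1 : (1 + X₀) * ((2 : F)⁻¹ • (1 + T.val)) = 1 := by
    rw [h1X, smul_mul_smul_comm, mul_inv_cancel₀ h2, hvV, one_smul]
  have hinv2 : ((2 : F)⁻¹ • (1 + T.val)) * (1 + X₀) = 1 := by
    rw [h1X, smul_mul_smul_comm, inv_mul_cancel₀ h2, hVv, one_smul]
  have hring : Ring.inverse (1 + X₀) = (2 : F)⁻¹ • (1 + T.val) := by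
    let U : Aˣ := ⟨1 + X₀, (2 : F)⁻¹ • (1 + T.val), hinv1, hinv2⟩
    exact Ring.inverse_unit U
  have hcayX : cayA I X₀ = T.val := by
    rw [cayA, hasym, hring, h1X', smul_mul_smul_comm, mul_inv_cancel₀ h2, one_smul, mul_assoc,
      hvV, mul_one]
  -- continuity
  obtain ⟨b, hb⟩ := hspan X₀
  let u : (Fin N → F) → A := fun y => ∑ j, y j • g (B j)
  have hub : u b = X₀ := hb
  have hu : CtsAt BA u b := by
    intro l
    have h1 : (fun y => BA.repr (u y) l) = fun y : Fin N → F =>
        ∑ j, y j * BA.repr (g (B j)) l := by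
      funext y
      rw [map_sum, Finsupp.finsetSum_apply]
      exact Finset.sum_congr rfl fun j _ => by rw [map_smul, Finsupp.smul_apply, smul_eq_mul]
    rw [h1]
    exact tendsto_finsetSum _ fun j _ => (continuousAt_apply j b).mul continuousAt_const
  let lm : A →ₗ[F] A := (2 : F)⁻¹ • (LinearMap.id - I.τ)
  have hlm : ∀ X, lm X = asymA I X := fun X => rfl
  have hadd : ∀ {w w' : (Fin N → F) → A}, CtsAt BA w b → CtsAt BA w' b →
      CtsAt BA (fun y => w y + w' y) b := by
    intro w w' hw hw' j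
    have h1 : (fun y => BA.repr (w y + w' y) j) = fun y => BA.repr (w y) j + BA.repr (w' y) j := by
      funext y
      rw [map_add, Finsupp.add_apply]
    rw [h1]
    exact (hw j).add (hw' j)
  have ha : CtsAt BA (fun y => asymA I (u y)) b := hu.linear lm
  have ha' : CtsAt BA (fun y => 1 + asymA I (u y)) b := hadd (CtsAt.const 1) ha
  have ha'' : CtsAt BA (fun y => 1 - asymA I (u y)) b := by
    have h1 : (fun y => 1 - asymA I (u y)) = fun y => 1 + (-lm) (u y) := by
      funext y
      rw [LinearMap.neg_apply, hlm, sub_eq_add_neg]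
    rw [h1]
    exact hadd (CtsAt.const 1) (hu.linear (-lm))
  have hun : IsUnit (1 + asymA I (u b)) := by
    rw [hub, hasym]
    exact ⟨⟨1 + X₀, (2 : F)⁻¹ • (1 + T.val), hinv1, hinv2⟩, rfl⟩
  have hc : CtsAt BA (fun y => cayA I (u y)) b := ha''.mul (cts_inverse ha' hun).2
  obtain ⟨O', hO', hOO⟩ := UT.exists_nhds BA I hO
  have hc' : ContinuousAt (fun y => fun j => BA.repr (cayA I (u y)) j) b :=
    continuousAt_pi.mpr hc
  have hev : ∀ᶠ y in 𝓝 b, (fun j => BA.repr (cayA I (u y)) j) ∈ O' := by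
    apply hc'
    change O' ∈ 𝓝 (fun j => BA.repr (cayA I (u b)) j)
    rw [hub, hcayX]
    exact hO'
  obtain ⟨δ, hδ, hball⟩ := Metric.eventually_nhds_iff.mp hev
  refine ⟨b, δ, hδ, fun β hβ => hOO _ ?_⟩
  have huβ : u (fun j => algebraMap k F (B.repr β j)) = g β := by
    conv_rhs => rw [← B.sum_repr β]
    rw [map_sum]
    exact Finset.sum_congr rfl fun j _ => (hg _ _).symm
  have h3 := hball (y := fun j => algebraMap k F (B.repr β j)) (by
    rw [dist_pi_lt_iff hδ]
    intro j
    rw [dist_eq_norm]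
    exact hβ j)
  rw [huβ, ← g_cay g I hI] at h3
  exact h3

end cayley

include hI in
/-- The minimal polynomial of `t + star t` for `t` near a local unitary element. -/
theorem near_U (hg : ∀ (a : k) x, g (a • x) = algebraMap k F a • g x) (T : UT BA I) {n : ℕ}
    (hli : LinearIndependent F (fun i : Fin n => (T.val + I.τ T.val) ^ (i : ℕ)))
    {q : F[X]} (hq : q.Monic) (hqn : q.natDegree = n) (hq0 : aeval (T.val + I.τ T.val) q = 0)
    {ε : ℝ} (hε : 0 < ε) :
    ∀ᶠ T' in 𝓝 T, ∀ t : unitary D, gU BA g I hI t = T' →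
      LinearIndependent k (fun i : Fin n => ((t : D) + star (t : D)) ^ (i : ℕ)) ∧
      ∀ m : k[X], m.Monic → m.natDegree = n → aeval ((t : D) + star (t : D)) m = 0 →
        ∀ i, ‖algebraMap k F (m.coeff i) - q.coeff i‖ < ε := by
  have hZ : CtsAt BA (fun T : UT BA I => T.val + I.τ T.val) T :=
    (UT.cts BA I T).linear (LinearMap.id + I.τ)
  filter_upwards [near_minpoly hZ hli hq hqn hq0 hε] with T' hT' t ht
  obtain ⟨h1, h2⟩ := hT'
  set η : D := (t : D) + star (t : D) with hη
  have hZt : T'.val + I.τ T'.val = g η := by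
    rw [← ht, gU_val BA g I hI, hI, ← map_add]
  rw [hZt] at h1 h2
  refine ⟨?_, fun m hm hmn hm0 i => ?_⟩
  · rw [Fintype.linearIndependent_iff] at h1 ⊢
    intro a ha i
    have h3 := h1 (fun i => algebraMap k F (a i)) (by
      have h4 := congrArg g ha
      rw [map_sum, map_zero] at h4
      rw [← h4]
      exact Finset.sum_congr rfl fun i _ => by rw [hg, map_pow]) i
    exact (map_eq_zero (algebraMap k F)).mp h3
  · have h3 := h2 (m.map (algebraMap k F)) (hm.map _) (by rw [natDegree_map, hmn]) (by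
      rw [aeval_eq_sum_range, natDegree_map]
      rw [aeval_eq_sum_range] at hm0
      have h4 := congrArg g hm0
      rw [map_sum, map_zero] at h4
      rw [← h4]
      exact Finset.sum_congr rfl fun i _ => by rw [hg, map_pow, coeff_map]) i
    rwa [coeff_map] at h3

end

end Vale.Agent.P011.Two
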