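import Vale.Agent.P011.Even.DiagPair
import Vale.Agent.P011.Even.LocModel

/-!
Elements of norm one in a quadratic extension of a normed field.
-/

open Module Filter Topology
open Vale.Agent.P011.T2 (QuadL)

namespace Vale.Agent.P011.Two

section

variable {F L : Type} [NontriviallyNormedField F] [CharZero F] [Field L] [CharZero L] [StarRing L]
  [Algebra F L] {d : F}

theorem exists_norm_one (hQ : QuadL F L d) (x : F) :
    1 - x ^ 2 * d ≠ 0 ∧ ∃ η : L, η * star η = 1 ∧
      η + star η = algebraMap F L (2 * (1 + x ^ 2 * d) / (1 - x ^ 2 * d)) := by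
  obtain ⟨θ, hθ0, hθ, hθd⟩ := hQ.gen
  have hfx : star (algebraMap F L x) = algebraMap F L x := hQ.fix' x
  set y : L := algebraMap F L x * θ with hy
  have hys : star y = -y := by rw [hy, star_mul', hfx, hθ, mul_neg]
  have h1 : 1 - y ≠ 0 := by
    intro h
    have h2 := congrArg star h
    rw [star_sub, star_one, hys, sub_neg_eq_add, star_zero] at h2
    have h3 : (2 : L) = 0 := by linear_combination h + h2
    exact two_ne_zero h3
  have h2 : 1 + y ≠ 0 := by
    intro h
    have h2 := congrArg star h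
    rw [star_add, star_one, hys, star_zero] at h2
    exact h1 (by rw [sub_eq_add_neg]; exact h2)
  have hyy : y ^ 2 = algebraMap F L (x ^ 2 * d) := by
    rw [hy, mul_pow, hθd, map_mul, map_pow]
  have h3 : algebraMap F L (1 - x ^ 2 * d) = (1 - y) * (1 + y) := by
    rw [map_sub, map_one, ← hyy]; ring
  have h4 : algebraMap F L (1 - x ^ 2 * d) ≠ 0 := by rw [h3]; exact mul_ne_zero h1 h2
  refine ⟨fun h => h4 (by rw [h, map_zero]), (1 + y) / (1 - y), ?_, ?_⟩
  · rw [star_div₀, star_add, star_sub, star_one, hys, sub_neg_eq_add, ← sub_eq_add_neg]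
    field_simp
  · rw [star_div₀, star_add, star_sub, star_one, hys, sub_neg_eq_add, ← sub_eq_add_neg, map_div₀,
      h3, map_mul, map_add, map_one, ← hyy, map_ofNat]
    field_simp
    ring

theorem infinite_norm_one (hQ : QuadL F L d) {ε : ℝ} (hε : 0 < ε) :
    {r : F | (∃ η : L, η * star η = 1 ∧ η + star η = algebraMap F L r) ∧ ‖2 - r‖ < ε}.Infinite := by
  obtain ⟨θ, hθ0, hθ, hθd⟩ := hQ.gen
  have hd0 : d ≠ 0 := by
    rintro rfl
    rw [map_zero] at hθd
    exact hθ0 (pow_eq_zero_iff two_ne_zero |>.mp hθd)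
  let f : F → F := fun x => 2 * (1 + x ^ 2 * d) / (1 - x ^ 2 * d)
  have hf0 : f 0 = 2 := by simp [f]
  have hfc : ContinuousAt f 0 := by
    refine ContinuousAt.div ?_ ?_ ?_
    · fun_prop
    · fun_prop
    · simp
  have hev : ∀ᶠ x in 𝓝 (0 : F), ‖2 - f x‖ < ε := by
    have h1 := hfc.eventually (Metric.ball_mem_nhds (f 0) hε)
    filter_upwards [h1] with x hx
    change dist (f x) (f 0) < ε at hx
    rw [dist_eq_norm, hf0] at hx
    rwa [← norm_neg, neg_sub]
  have hinf : {x : F | ‖2 - f x‖ < ε}.Infinite := infinite_of_mem_nhds 0 hev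
  intro hfin
  apply hinf
  refine Set.Finite.of_finite_fibers f (hfin.subset ?_) ?_
  · rintro _ ⟨x, hx, rfl⟩
    obtain ⟨_, η, h1, h2⟩ := exists_norm_one (L := L) hQ x
    exact ⟨⟨η, h1, h2⟩, hx⟩
  · rintro _ ⟨x, hx, rfl⟩
    refine Set.Finite.subset (Set.toFinite ({x, -x} : Set F)) ?_
    rintro y ⟨-, hy⟩
    have hy' : f y = f x := hy
    have h1 := (exists_norm_one (L := L) hQ x).1
    have h2 := (exists_norm_one (L := L) hQ y).1
    change 2 * (1 + y ^ 2 * d) / (1 - y ^ 2 * d) = 2 * (1 + x ^ 2 * d) / (1 - x ^ 2 * d) at hy'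
    rw [div_eq_div_iff h2 h1] at hy'
    have h3 : 4 * d * (y ^ 2 - x ^ 2) = 0 := by linear_combination hy'
    have h4 : y ^ 2 = x ^ 2 := by
      rcases mul_eq_zero.mp h3 with h | h
      · exact absurd h (mul_ne_zero (by norm_num : (4 : F) ≠ 0) hd0)
      · exact sub_eq_zero.mp h
    rcases sq_eq_sq_iff_eq_or_eq_neg.mp h4 with h | h
    · exact Or.inl h
    · exact Or.inr h

/-- Elements of norm one with different traces close to two. -/
theorem exists_eta (hQ : QuadL F L d) {ε : ℝ} (hε : 0 < ε) {bad : Set F} (hbad : bad.Finite)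
    (n : ℕ) : ∃ (η : Fin n → L) (r : Fin n → F), Function.Injective r ∧
      (∀ i, η i * star (η i) = 1) ∧ (∀ i, η i + star (η i) = algebraMap F L (r i)) ∧
      (∀ i, ‖2 - r i‖ < ε) ∧ ∀ i, r i ∉ bad := by
  obtain ⟨r, hr, hrS⟩ := Even.exists_injective_choice n (fun _ =>
    {r : F | (∃ η : L, η * star η = 1 ∧ η + star η = algebraMap F L r) ∧ ‖2 - r‖ < ε} \ bad)
    fun _ => (infinite_norm_one hQ hε).sdiff hbad
  choose η hη using fun i => (hrS i).1.1
  exact ⟨η, r, hr, fun i => (hη i).1, fun i => (hη i).2, fun i => (hrS i).1.2,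
    fun i => (hrS i).2⟩

end

end Vale.Agent.P011.Two
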