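import Vale.Agent.P011.Two.Refl
import Vale.Agent.P011.Two.NormOne
import Vale.Agent.P011.Two.LocCay

/-!
The local data of a division algebra at a nonsplit place.
-/

open Module Filter Topology Polynomial Matrix
open Vale.Agent.P011.T2 (QuadL)
open Vale.Agent.P011.Even (CtsAt exists_diag of_conj_diagonal)
open Vale.Agent.P011.Arith

namespace Vale.Agent.P011.Two

section inv

variable {F L : Type} [NormedField F] [Field L] [CharZero L] [StarRing L]
  [Algebra F L] {d : F} {n : ℕ}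

/-- The involution attached to a hermitian matrix. -/
def invM (hQ : QuadL F L d) (A V : Matrix (Fin n) (Fin n) L) (hA : Aᴴ = A) (hVA : V * A = 1)
    (hAV : A * V = 1) : Inv F (Matrix (Fin n) (Fin n) L) where
  τ := { toFun := fun Y => A * Yᴴ * V
         map_add' := fun Y Z => by rw [Matrix.conjTranspose_add, mul_add, add_mul]
         map_smul' := fun c Y => by
          have h1 : (c • Y)ᴴ = c • Yᴴ := by
            ext a b
            rw [Matrix.conjTranspose_apply, Matrix.smul_apply, Matrix.smul_apply,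
              Matrix.conjTranspose_apply, Algebra.smul_def, Algebra.smul_def, star_mul',
              hQ.fix']
          rw [h1, RingHom.id_apply, mul_smul_comm, smul_mul_assoc] }
  mul := fun X Y => by
    change A * (X * Y)ᴴ * V = A * Yᴴ * V * (A * Xᴴ * V)
    rw [Matrix.conjTranspose_mul]
    calc A * (Yᴴ * Xᴴ) * V = A * Yᴴ * (1 : Matrix (Fin n) (Fin n) L) * Xᴴ * V := by
          rw [mul_one]; simp only [mul_assoc]
      _ = _ := by rw [← hVA]; simp only [mul_assoc]
  inv := fun X => by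
    change A * (A * Xᴴ * V)ᴴ * V = X
    have hV : Vᴴ = V := by
      have h1 : Vᴴ * A = 1 := by
        have := congrArg Matrix.conjTranspose hAV
        rw [Matrix.conjTranspose_mul, hA, Matrix.conjTranspose_one] at this
        exact this
      calc Vᴴ = Vᴴ * (A * V) := by rw [hAV, mul_one]
        _ = V := by rw [← mul_assoc, h1, one_mul]
    rw [Matrix.conjTranspose_mul, Matrix.conjTranspose_mul, Matrix.conjTranspose_conjTranspose,
      hV, hA]
    calc A * (V * (X * A)) * V = (A * V) * X * (A * V) := by simp only [mul_assoc]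
      _ = X := by rw [hAV, one_mul, mul_one]

variable (hQ : QuadL F L d) {A V : Matrix (Fin n) (Fin n) L} (hA : Aᴴ = A) (hVA : V * A = 1)
    (hAV : A * V = 1)

theorem invM_apply (Y : Matrix (Fin n) (Fin n) L) :
    (invM hQ A V hA hVA hAV).τ Y = A * Yᴴ * V := rfl

theorem mem_invM {T : (Matrix (Fin n) (Fin n) L)ˣ} :
    T ∈ (invM hQ A V hA hVA hAV).grp ↔
      (T : Matrix (Fin n) (Fin n) L) * A * (T : Matrix (Fin n) (Fin n) L)ᴴ = A := by
  rw [Inv.mem_grp, invM_apply]
  constructor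
  · intro h
    calc (T : Matrix (Fin n) (Fin n) L) * A * (T : Matrix (Fin n) (Fin n) L)ᴴ
        = ((T : Matrix (Fin n) (Fin n) L) * (A * (T : Matrix (Fin n) (Fin n) L)ᴴ * V)) * A := by
          simp only [mul_assoc]
          rw [hVA, mul_one]
      _ = A := by rw [h, one_mul]
  · intro h
    calc (T : Matrix (Fin n) (Fin n) L) * (A * (T : Matrix (Fin n) (Fin n) L)ᴴ * V)
        = ((T : Matrix (Fin n) (Fin n) L) * A * (T : Matrix (Fin n) (Fin n) L)ᴴ) * V := by
          simp only [mul_assoc]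
      _ = 1 := by rw [h, hAV]

variable {P : (Matrix (Fin n) (Fin n) L)ˣ} {α : Fin n → Fˣ}
  (hP : (P : Matrix (Fin n) (Fin n) L) * A * (P : Matrix (Fin n) (Fin n) L)ᴴ =
    diagonal fun i => algebraMap F L (α i))

/-- The diagonal unitary element. -/
def dg (θ : Fin n → L) (hθ : ∀ i, θ i * star (θ i) = 1) : (Matrix (Fin n) (Fin n) L)ˣ :=
  ⟨diagonal θ, diagonal (fun i => star (θ i)), by
    rw [diagonal_mul_diagonal, ← diagonal_one]
    congr 1
    funext i
    exact hθ i, by
    rw [diagonal_mul_diagonal, ← diagonal_one]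
    congr 1
    funext i
    rw [mul_comm]
    exact hθ i⟩

include hP in
theorem diag_mem (θ : Fin n → L) (hθ : ∀ i, θ i * star (θ i) = 1) :
    P⁻¹ * dg θ hθ * P ∈ (invM hQ A V hA hVA hAV).grp := by
  rw [mem_invM]
  set D : Matrix (Fin n) (Fin n) L := diagonal θ with hD
  set Pm : Matrix (Fin n) (Fin n) L := (P : Matrix (Fin n) (Fin n) L) with hPm
  set Pi : Matrix (Fin n) (Fin n) L :=
    ((P⁻¹ : (Matrix (Fin n) (Fin n) L)ˣ) : Matrix (Fin n) (Fin n) L) with hPi
  have h1 : Pi * Pm = 1 := P.inv_mul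
  have h2 : Pm * Pi = 1 := P.mul_inv
  have h3 : Pmᴴ * Piᴴ = 1 := by rw [← Matrix.conjTranspose_mul, h1, Matrix.conjTranspose_one]
  have hDD : D * diagonal (fun i => algebraMap F L (α i)) * Dᴴ =
      diagonal fun i => algebraMap F L (α i) := by
    rw [hD, Matrix.diagonal_conjTranspose, diagonal_mul_diagonal, diagonal_mul_diagonal]
    congr 1
    funext i
    change θ i * algebraMap F L (α i) * star (θ i) = _
    rw [mul_right_comm, hθ, one_mul]
  have h4 : ((P⁻¹ * dg θ hθ * P : (Matrix (Fin n) (Fin n) L)ˣ) : Matrix (Fin n) (Fin n) L) =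
      Pi * D * Pm := rfl
  rw [h4, Matrix.conjTranspose_mul, Matrix.conjTranspose_mul]
  calc Pi * D * Pm * A * (Pmᴴ * (Dᴴ * Piᴴ)) = Pi * (D * (Pm * A * Pmᴴ) * Dᴴ) * Piᴴ := by
        simp only [mul_assoc]
    _ = Pi * (Pm * A * Pmᴴ) * Piᴴ := by rw [hP, hDD]
    _ = (Pi * Pm) * A * (Pmᴴ * Piᴴ) := by simp only [mul_assoc]
    _ = A := by rw [h1, h3, one_mul, mul_one]

end inv

section good

variable {F L : Type} [NormedField F] [Field L] [CharZero L] [StarRing L]
  [Algebra F L] {d : F} {n : ℕ} (hQ : QuadL F L d) {A V : Matrix (Fin n) (Fin n) L}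
  (hA : Aᴴ = A) (hVA : V * A = 1) (hAV : A * V = 1)
  {P : (Matrix (Fin n) (Fin n) L)ˣ} {α : Fin n → Fˣ}
  (hP : (P : Matrix (Fin n) (Fin n) L) * A * (P : Matrix (Fin n) (Fin n) L)ᴴ =
    diagonal fun i => algebraMap F L (α i))
  {ι : Type} [Fintype ι] (BA : Basis ι F (Matrix (Fin n) (Fin n) L))

/-- The diagonal element of the unitary group. -/
def dU (θ : Fin n → L) (hθ : ∀ i, θ i * star (θ i) = 1) : UT BA (invM hQ A V hA hVA hAV) :=
  ⟨P⁻¹ * dg θ hθ * P, diag_mem hQ hA hVA hAV hP θ hθ⟩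

theorem dU_val (θ : Fin n → L) (hθ : ∀ i, θ i * star (θ i) = 1) :
    (dU hQ hA hVA hAV hP BA θ hθ).val =
      ((P⁻¹ : (Matrix (Fin n) (Fin n) L)ˣ) : Matrix (Fin n) (Fin n) L) * diagonal θ * P := rfl

theorem dU_star (θ : Fin n → L) (hθ : ∀ i, θ i * star (θ i) = 1) :
    (invM hQ A V hA hVA hAV).τ (dU hQ hA hVA hAV hP BA θ hθ).val =
      ((P⁻¹ : (Matrix (Fin n) (Fin n) L)ˣ) : Matrix (Fin n) (Fin n) L) *
        diagonal (fun i => star (θ i)) * P := by
  rw [← UT.val_inv]
  change ((((P⁻¹ * dg θ hθ * P)⁻¹ : (Matrix (Fin n) (Fin n) L)ˣ)) :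
    Matrix (Fin n) (Fin n) L) = _
  rw [_root_.mul_inv_rev, _root_.mul_inv_rev, inv_inv, ← mul_assoc]
  rfl

/-- The trace of the diagonal element. -/
theorem dU_trace (θ : Fin n → L) (hθ : ∀ i, θ i * star (θ i) = 1) {r : Fin n → F}
    (hr : ∀ i, θ i + star (θ i) = algebraMap F L (r i)) (hri : Function.Injective r) :
    LinearIndependent F (fun i : Fin n => ((dU hQ hA hVA hAV hP BA θ hθ).val +
      (invM hQ A V hA hVA hAV).τ (dU hQ hA hVA hAV hP BA θ hθ).val) ^ (i : ℕ)) ∧
    aeval ((dU hQ hA hVA hAV hP BA θ hθ).val +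
      (invM hQ A V hA hVA hAV).τ (dU hQ hA hVA hAV hP BA θ hθ).val) (∏ i, (X - C (r i))) = 0 := by
  have h1 : ((dU hQ hA hVA hAV hP BA θ hθ).val +
      (invM hQ A V hA hVA hAV).τ (dU hQ hA hVA hAV hP BA θ hθ).val) *
      ((P⁻¹ : (Matrix (Fin n) (Fin n) L)ˣ) : Matrix (Fin n) (Fin n) L) =
      ((P⁻¹ : (Matrix (Fin n) (Fin n) L)ˣ) : Matrix (Fin n) (Fin n) L) *
        diagonal fun i => algebraMap F L (r i) := by
    rw [dU_star, dU_val, ← add_mul, ← mul_add, diagonal_add, mul_assoc, P.mul_inv, mul_one]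
    congr 2
    funext i
    exact hr i
  obtain ⟨h2, h3⟩ := of_conj_diagonal (e := fun i => algebraMap F L (r i))
    (fun i j hij => hri ((algebraMap F L).injective hij)) ⟨P⁻¹, rfl⟩ h1
  constructor
  · refine h2.restrict_scalars ?_
    intro x y hxy
    have h4 : algebraMap F L x = algebraMap F L y := by
      rw [Algebra.algebraMap_eq_smul_one, Algebra.algebraMap_eq_smul_one]
      exact hxy
    exact (algebraMap F L).injective h4
  · have h4 : (∏ i, (X - C (algebraMap F L (r i)))) =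
        (∏ i, (X - C (r i))).map (algebraMap F L) := by
      rw [Polynomial.map_prod]
      refine Finset.prod_congr rfl fun i _ => ?_
      rw [Polynomial.map_sub, Polynomial.map_X, Polynomial.map_C]
    rw [h4, aeval_map_algebraMap] at h3
    exact h3

theorem dU_unit (θ : Fin n → L) (hθ : ∀ i, θ i * star (θ i) = 1) (h1 : ∀ i, θ i ≠ -1) :
    IsUnit (1 + (dU hQ hA hVA hAV hP BA θ hθ).val) := by
  have h2 : 1 + (dU hQ hA hVA hAV hP BA θ hθ).val =
      ((P⁻¹ : (Matrix (Fin n) (Fin n) L)ˣ) : Matrix (Fin n) (Fin n) L) *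
        diagonal (fun i => 1 + θ i) * P := by
    have h3 : diagonal (fun i => 1 + θ i) = (1 : Matrix (Fin n) (Fin n) L) + diagonal θ := by
      rw [← diagonal_one, diagonal_add]
    rw [dU_val, h3, mul_add, add_mul, mul_one, P.inv_mul]
  rw [h2]
  refine ((P⁻¹).isUnit.mul ?_).mul P.isUnit
  rw [Matrix.isUnit_iff_isUnit_det, det_diagonal, isUnit_iff_ne_zero, Finset.prod_ne_zero_iff]
  intro i _ h3
  exact h1 i (eq_neg_of_add_eq_zero_right h3)

end good

end Vale.Agent.P011.Two
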