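import Vale.Agent.P011.Even.MinCont

/-!
The unitary group of an algebra with involution over a normed field, as a topological group.
-/

open Module Filter Topology
open Vale.Agent.P011.Even (CtsAt)

namespace Vale.Agent.P011.Two

section

variable {F A : Type} [NormedField F] [Ring A] [Algebra F A] {ι : Type} [Fintype ι]

/-- A linear involution. -/
structure Inv (F A : Type) [NormedField F] [Ring A] [Algebra F A] where
  τ : A →ₗ[F] A
  mul : ∀ x y, τ (x * y) = τ y * τ x
  inv : ∀ x, τ (τ x) = x

namespace Inv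

variable (I : Inv F A)

theorem one : I.τ 1 = 1 := by
  have h1 := I.mul (I.τ 1) 1
  rw [mul_one, I.inv, mul_one] at h1
  exact h1.symm

/-- The unitary group. -/
def grp : Subgroup Aˣ where
  carrier := {T | (T : A) * I.τ T = 1}
  mul_mem' := by
    intro S T hS hT
    change (S : A) * T * I.τ ((S : A) * T) = 1
    have hS' : (S : A) * I.τ S = 1 := hS
    have hT' : (T : A) * I.τ T = 1 := hT
    rw [I.mul]
    calc (S : A) * T * (I.τ T * I.τ S) = S * (T * I.τ T) * I.τ S := by simp only [mul_assoc]
      _ = 1 := by rw [hT', mul_one, hS']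
  one_mem' := by
    change ((1 : Aˣ) : A) * I.τ ((1 : Aˣ) : A) = 1
    rw [Units.val_one, I.one, mul_one]
  inv_mem' := by
    intro T hT
    have hT' : (T : A) * I.τ T = 1 := hT
    have h1 : ((T⁻¹ : Aˣ) : A) = I.τ T := by
      calc ((T⁻¹ : Aˣ) : A) = (T⁻¹ : Aˣ) * ((T : A) * I.τ T) := by rw [hT', mul_one]
        _ = _ := by rw [← mul_assoc, Units.inv_mul, one_mul]
    change ((T⁻¹ : Aˣ) : A) * I.τ ((T⁻¹ : Aˣ) : A) = 1
    rw [h1, I.inv, ← h1, Units.inv_mul]

theorem mem_grp {T : Aˣ} : T ∈ I.grp ↔ (T : A) * I.τ T = 1 := Iff.rfl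

theorem coe_inv {T : Aˣ} (hT : T ∈ I.grp) : ((T⁻¹ : Aˣ) : A) = I.τ T := by
  have hT' : (T : A) * I.τ T = 1 := hT
  calc ((T⁻¹ : Aˣ) : A) = (T⁻¹ : Aˣ) * ((T : A) * I.τ T) := by rw [hT', mul_one]
    _ = _ := by rw [← mul_assoc, Units.inv_mul, one_mul]

end Inv

/-- The unitary group with the topology of the coordinates. -/
def UT (_B : Basis ι F A) (I : Inv F A) : Type := I.grp

variable (B : Basis ι F A) (I : Inv F A)

noncomputable instance : Group (UT B I) := inferInstanceAs (Group I.grp)

/-- The underlying element. -/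
def UT.val (T : UT B I) : A := ((T.1 : Aˣ) : A)

@[simp] theorem UT.val_mul (S T : UT B I) : (S * T).val = S.val * T.val := rfl

@[simp] theorem UT.val_one : (1 : UT B I).val = 1 := rfl

theorem UT.val_inv (T : UT B I) : (T⁻¹).val = I.τ T.val := I.coe_inv T.2

theorem UT.mul_star (T : UT B I) : T.val * I.τ T.val = 1 := T.2

theorem UT.ext {S T : UT B I} (h : S.val = T.val) : S = T := Subtype.ext (Units.ext h)

noncomputable instance : TopologicalSpace (UT B I) :=
  TopologicalSpace.induced (fun (T : UT B I) (j : ι) => B.repr T.val j) inferInstance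

theorem UT.cts (T : UT B I) : CtsAt B (fun T : UT B I => T.val) T := by
  intro j
  have h1 : Continuous (fun (T : UT B I) (j : ι) => B.repr T.val j) := continuous_induced_dom
  exact (continuous_apply j).continuousAt.comp h1.continuousAt

theorem UT.continuousAt {Y : Type} [TopologicalSpace Y] {u : Y → UT B I} {y : Y}
    (h : CtsAt B (fun y => (u y).val) y) : ContinuousAt u y := by
  have h1 : Topology.IsInducing (fun (T : UT B I) (j : ι) => B.repr T.val j) := ⟨rfl⟩
  rw [h1.continuousAt_iff]
  exact continuousAt_pi.mpr h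

theorem cts_comp {X Y : Type} [TopologicalSpace X] [TopologicalSpace Y] {u : Y → A} {f : X → Y}
    {x : X} (hu : CtsAt B u (f x)) (hf : ContinuousAt f x) : CtsAt B (fun x => u (f x)) x :=
  fun j => (hu j).comp hf

instance : IsTopologicalGroup (UT B I) where
  continuous_mul := by
    rw [continuous_iff_continuousAt]
    rintro ⟨S, T⟩
    apply UT.continuousAt
    exact (cts_comp B (f := Prod.fst) (x := (S, T)) (UT.cts B I S) continuousAt_fst).mul
      (cts_comp B (f := Prod.snd) (x := (S, T)) (UT.cts B I T) continuousAt_snd)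
  continuous_inv := by
    rw [continuous_iff_continuousAt]
    intro T
    apply UT.continuousAt
    have h1 : (fun T : UT B I => (T⁻¹).val) = fun T => I.τ T.val := funext fun T => T.val_inv
    rw [h1]
    exact (UT.cts B I T).linear I.τ

/-- A neighbourhood of an element of the unitary group in terms of coordinates. -/
theorem UT.exists_nhds {T : UT B I} {O : Set (UT B I)} (hO : O ∈ 𝓝 T) :
    ∃ O' ∈ 𝓝 (fun j => B.repr T.val j), ∀ S : UT B I, (fun j => B.repr S.val j) ∈ O' → S ∈ O := by
  rw [nhds_induced, mem_comap] at hO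
  obtain ⟨O', hO', h⟩ := hO
  exact ⟨O', hO', fun S hS => h hS⟩

end

section inverse

variable {F A Y : Type} [NormedField F] [Ring A] [Algebra F A] [TopologicalSpace Y]
  {ι : Type} [Fintype ι] {B : Basis ι F A} {y0 : Y}

/-- Continuity of the inverse. -/
theorem cts_inverse {u : Y → A} (hu : CtsAt B u y0) (h0 : IsUnit (u y0)) :
    (∀ᶠ y in 𝓝 y0, IsUnit (u y)) ∧ CtsAt B (fun y => Ring.inverse (u y)) y0 := by
  classical
  let M : Y → Matrix ι ι F := fun y => Algebra.leftMulMatrix B (u y)
  have hMc : ContinuousAt M y0 := continuousAt_pi.mpr fun i => continuousAt_pi.mpr fun j => by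
    have h1 : (fun y => M y i j) = fun y => B.repr (u y * B j) i := by
      funext y
      exact Algebra.leftMulMatrix_eq_repr_mul B (u y) i j
    rw [h1]
    exact (hu.mul (CtsAt.const (B j))) i
  have hdet : ContinuousAt (fun y => (M y).det) y0 :=
    ((continuous_id.matrix_det).continuousAt (x := M y0)).comp hMc
  have hadj : ContinuousAt (fun y => (M y).adjugate) y0 :=
    ((continuous_id.matrix_adjugate).continuousAt (x := M y0)).comp hMc
  have hd0 : (M y0).det ≠ 0 := by
    have h1 : IsUnit (M y0) := h0.map (Algebra.leftMulMatrix B)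
    exact ((Matrix.isUnit_iff_isUnit_det _).mp h1).ne_zero
  have hev : ∀ᶠ y in 𝓝 y0, (M y).det ≠ 0 := hdet.eventually_ne hd0
  have hunit : ∀ y, (M y).det ≠ 0 → IsUnit (u y) := by
    intro y hy
    -- left multiplication is bijective
    have hfin : FiniteDimensional F A := Module.Finite.of_basis B
    have h2 : LinearMap.det (LinearMap.mulLeft F (u y)) = (M y).det := by
      rw [← LinearMap.det_toMatrix B]
      rfl
    have hbij : Function.Bijective (LinearMap.mulLeft F (u y)) := by
      rw [← Module.End.isUnit_iff, LinearMap.isUnit_iff_isUnit_det, h2]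
      exact isUnit_iff_ne_zero.mpr hy
    have h1 : Function.Injective (LinearMap.mulLeft F (u y)) := hbij.1
    have h3 : Function.Surjective (LinearMap.mulLeft F (u y)) := hbij.2
    obtain ⟨w, hw⟩ := h3 1
    have hw' : u y * w = 1 := hw
    have hw2 : w * u y = 1 := by
      apply h1
      change u y * (w * u y) = u y * 1
      rw [← mul_assoc, hw', one_mul, mul_one]
    exact ⟨⟨u y, w, hw', hw2⟩, rfl⟩
  refine ⟨hev.mono fun y hy => hunit y hy, fun j => ?_⟩
  have key : ∀ y, (M y).det ≠ 0 → B.repr (Ring.inverse (u y)) j =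
      ((M y).det)⁻¹ * ((M y).adjugate.mulVec fun i => B.repr 1 i) j := by
    intro y hy
    have h1 : (M y).mulVec (fun i => B.repr (Ring.inverse (u y)) i) = fun i => B.repr 1 i := by
      have h2 := LinearMap.toMatrix_mulVec_repr B B (LinearMap.mulLeft F (u y))
        (Ring.inverse (u y))
      have h3 : (M y) = LinearMap.toMatrix B B (LinearMap.mulLeft F (u y)) := rfl
      rw [h3, h2, LinearMap.mulLeft_apply, Ring.mul_inverse_cancel _ (hunit y hy)]
    have h4 := congrArg (fun w => ((M y).adjugate).mulVec w) h1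
    simp only [Matrix.mulVec_mulVec, Matrix.adjugate_mul, Matrix.smul_mulVec,
      Matrix.one_mulVec] at h4
    have h5 := congrFun h4 j
    rw [Pi.smul_apply, smul_eq_mul] at h5
    rw [← h5, inv_mul_cancel_left₀ hy]
  have h6 : ContinuousAt (fun y => ((M y).det)⁻¹ *
      ((M y).adjugate.mulVec fun i => B.repr 1 i) j) y0 := by
    refine (hdet.inv₀ hd0).mul ?_
    have h1 : (fun y => ((M y).adjugate.mulVec fun i => B.repr 1 i) j) =
        fun y => ∑ i, (M y).adjugate j i * B.repr 1 i := rfl
    rw [h1]
    exact tendsto_finsetSum _ fun i _ =>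
      ((continuousAt_pi.mp (continuousAt_pi.mp hadj j)) i).mul continuousAt_const
  refine h6.congr ?_
  filter_upwards [hev] with y hy
  exact (key y hy).symm

end inverse

end Vale.Agent.P011.Two
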