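import Vale.Agent.P011.Even.PncSign

/-!
Elements with prescribed norm classes, signs and bad places.
-/

open NumberField IsDedekindDomain Module

namespace Vale.Agent.P011.Two

open Vale.Agent.P011.Arith Vale.Agent.P011.Even

variable {F : Type} [Field F] [NumberField F] {E : Type} [Field E] [NumberField E] [Algebra F E]

/-- PNC: let `d` be a nonsquare in `E` and `a` an element of `F` with a controlling set of
primes which are totally split in `E`. Then there are `μ` in `E` such that `N(μ) a` is a norm from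
`F(√d)`, and the signs of `μ` at the real places of `E` where `d` is negative can be prescribed
up to the obvious condition. -/
theorem pnc_ab {d a : Fˣ} (hd : ¬ IsSquare (algebraMap F E (d : F)))
    {V : Set (HeightOneSpectrum (𝓞 F))} (hV : Ctrl d a V) (hsplit : ∀ v ∈ V, TotSplit E v)
    (hreal : ∀ φ : F →+* ℝ, φ d < 0 → ∃ ψ : E →+* ℝ, ψ.comp (algebraMap F E) = φ)
    (ab : HeightOneSpectrum (𝓞 F) → HeightOneSpectrum (𝓞 E)) (hab : ∀ v, Ab (ab v) v)
    (s : Eˣ) (hs : ∀ φ : F →+* ℝ, φ d < 0 → 0 < φ (Algebra.norm F (s : E)) * φ a) :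
    ∃ μ : Eˣ, nrm F E μ * a ∈ NF d ∧
      (∀ w : HeightOneSpectrum (𝓞 E), μ ∉ NF (inc F E d) ⊔ LS (w.valuation E) →
        ∃ v ∈ V, w = ab v) ∧
      ∀ ψ : E →+* ℝ, ψ (algebraMap F E d) < 0 → 0 < ψ (μ : E) * ψ (s : E) := by
  classical
  let T : Set (Pl F) := Sum.inl '' V ∪ Sum.inr '' {φ | φ d < 0}
  have hTf : T.Finite := (hV.fin.image _).union (Set.toFinite _ |>.image _)
  have hTns : ∀ p ∈ T, d ∉ LSp p := by
    rintro p (⟨v, hv, rfl⟩ | ⟨φ, hφ, rfl⟩)
    · exact hV.nonsplit v hv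
    · exact notMem_LSR.mpr hφ
  have hT : ∀ p ∈ T, Par E d p := by
    rintro p (⟨v, hv, rfl⟩ | ⟨φ, hφ, rfl⟩)
    · exact par_inl (hsplit v hv) d
    · exact par_inr φ d
  have hT' : ∀ p ∈ T, ∀ q : Pl E, Above q p → inc F E d ∉ LSp q := by
    rintro p (⟨v, hv, rfl⟩ | ⟨φ, hφ, rfl⟩) (w | ψ) hq
    · exact notMem_LS_above (hsplit v hv) (hV.nonsplit v hv) hq
    · exact absurd hq (by simp [Above])
    · exact absurd hq (by simp [Above])
    · have hq' : ψ.comp (algebraMap F E) = φ := hq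
      refine notMem_LSR.mpr ?_
      change ψ (algebraMap F E (d : F)) < 0
      have : ψ (algebraMap F E (d : F)) = φ d := by rw [← hq']; rfl
      rw [this]
      exact hφ
  have hJ : ∃ p₀ ∈ T, ¬ Isol d p₀ ∧ ∃ q₀ : Pl E, Above q₀ p₀ := by
    obtain ⟨p, hp, hJ, hpV⟩ := hV.jet
    rcases p with v | φ
    · obtain ⟨w, hw⟩ := exists_above (E := E) v
      exact ⟨Sum.inl v, Or.inl ⟨v, hpV v rfl, rfl⟩, hJ, Sum.inl w, hw⟩
    · have hφ : φ d < 0 := notMem_LSR.mp hp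
      obtain ⟨ψ, hψ⟩ := hreal φ hφ
      exact ⟨Sum.inr φ, Or.inr ⟨φ, hφ, rfl⟩, hJ, Sum.inr ψ, hψ⟩
  have ha : bad d a ⊆ T := by
    rintro (v | φ) hp
    · exact Or.inl ⟨v, hV.bad v (fun h => hp (by
        have := notMem_bad_inl.mpr h
        exact not_not.mp this)), rfl⟩
    · exact Or.inr ⟨φ, notMem_LSR.mp (notMem_LSp_of_bad hp), rfl⟩
  let B : Set (Pl E) := Sum.inl '' (ab '' {v | (Sum.inl v : Pl F) ∈ bad d a}) ∪
    Sum.inr '' {ψ | ψ (algebraMap F E d) < 0 ∧ ψ (s : E) < 0}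
  have hB : ∀ q ∈ B, ∃ p ∈ T, Above q p := by
    rintro q (⟨w, ⟨v, hv, rfl⟩, rfl⟩ | ⟨ψ, hψ, rfl⟩)
    · exact ⟨Sum.inl v, ha hv, hab v⟩
    · exact ⟨Sum.inr (ψ.comp (algebraMap F E)), Or.inr ⟨_, hψ.1, rfl⟩, rfl⟩
  have hBT : ∀ p ∈ T, (p ∈ bad d a ↔ Odd {q : Pl E | Above q p ∧ q ∈ B}.ncard) := by
    rintro p (⟨v, hv, rfl⟩ | ⟨φ, hφ, rfl⟩)
    · have h1 : {q : Pl E | Above q (Sum.inl v) ∧ q ∈ B} =
          if (Sum.inl v : Pl F) ∈ bad d a then {Sum.inl (ab v)} else ∅ := by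
        split_ifs with hb
        · ext q
          simp only [Set.mem_ofPred_eq, Set.mem_singleton_iff]
          constructor
          · rintro ⟨h1, ⟨w, ⟨v', hv', rfl⟩, rfl⟩ | ⟨ψ, hψ, rfl⟩⟩
            · have h2 : v' = v := below_unique (hab v') h1
              rw [h2]
            · exact absurd h1 (by simp [Above])
          · rintro rfl
            exact ⟨hab v, Or.inl ⟨_, ⟨v, hb, rfl⟩, rfl⟩⟩
        · ext q
          simp only [Set.mem_ofPred_eq, Set.mem_empty_iff_false, iff_false, not_and]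
          rintro h1 (⟨w, ⟨v', hv', rfl⟩, rfl⟩ | ⟨ψ, hψ, rfl⟩)
          · have h2 : v' = v := below_unique (hab v') h1
            exact hb (h2 ▸ hv')
          · exact absurd h1 (by simp [Above])
      rw [h1]
      split_ifs with hb
      · simp [hb]
      · simp [hb]
    · have h1 : {q : Pl E | Above q (Sum.inr φ) ∧ q ∈ B} =
          Sum.inr '' {ψ : E →+* ℝ | ψ.comp (algebraMap F E) = φ ∧ ψ (s : E) < 0} := by
        ext q
        constructor
        · rintro ⟨h1, ⟨w, ⟨v', hv', rfl⟩, rfl⟩ | ⟨ψ, hψ, rfl⟩⟩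
          · exact absurd h1 (by simp [Above])
          · exact ⟨ψ, ⟨h1, hψ.2⟩, rfl⟩
        · rintro ⟨ψ, ⟨h1, h2⟩, rfl⟩
          refine ⟨h1, Or.inr ⟨ψ, ⟨?_, h2⟩, rfl⟩⟩
          have : ψ (algebraMap F E (d : F)) = φ d := by rw [← h1]; rfl
          rw [this]
          exact hφ
      have h2 := sign_norm (E := E) φ s
      rw [h1, Set.ncard_image_of_injective _ Sum.inr_injective, ← Nat.not_even_iff_odd, ← h2,
        not_lt]
      have h3 := hs φ hφ
      have h4 : (Sum.inr φ : Pl F) ∈ bad d a ↔ φ a < 0 := by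
        have h5 : NF d ⊔ LSR φ = LSR φ := sup_eq_right.mpr (NF_le_LSR hφ)
        rw [← not_iff_not, notMem_bad_inr, h5, mem_LSR, not_lt]
        exact ⟨le_of_lt, fun h => lt_of_le_of_ne h ((map_ne_zero φ).mpr a.ne_zero).symm⟩
      rw [h4]
      constructor
      · intro h5
        nlinarith
      · intro h5
        by_contra h6
        rw [not_lt] at h6
        have := mul_nonpos_of_nonpos_of_nonneg h5 h6
        linarith
  obtain ⟨c, hc, hca⟩ := exists_bad_above hd hTf hT hT' hJ a ha hB hBT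
  refine ⟨c, hca, fun w hw => ?_, fun ψ hψ => ?_⟩
  · have h1 : (Sum.inl w : Pl E) ∈ bad (inc F E d) c := by
      by_contra h
      exact hw (notMem_bad_inl.mp h)
    rw [hc] at h1
    rcases h1 with ⟨w', ⟨v, hv, rfl⟩, h⟩ | ⟨ψ, _, h⟩
    · refine ⟨v, ?_, (Sum.inl_injective h).symm⟩
      rcases ha hv with ⟨v', hv', h2⟩ | ⟨φ, _, h2⟩
      · rw [← Sum.inl_injective h2]
        exact hv'
      · exact absurd h2 (by simp)
    · exact absurd h (by simp)
  have h1 : (Sum.inr ψ : Pl E) ∈ bad (inc F E d) c ↔ ψ (s : E) < 0 := by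
    rw [hc]
    constructor
    · rintro (⟨w, _, h⟩ | ⟨ψ', hψ', h⟩)
      · exact absurd h (by simp)
      · have : ψ' = ψ := Sum.inr_injective h
        rw [← this]
        exact hψ'.2
    · exact fun h => Or.inr ⟨ψ, ⟨hψ, h⟩, rfl⟩
  have h2 : (Sum.inr ψ : Pl E) ∈ bad (inc F E d) c ↔ ψ (c : E) < 0 := by
    have h5 : NF (inc F E d) ⊔ LSR ψ = LSR ψ := sup_eq_right.mpr (NF_le_LSR hψ)
    rw [← not_iff_not, notMem_bad_inr, h5, mem_LSR, not_lt]
    exact ⟨le_of_lt, fun h => lt_of_le_of_ne h ((map_ne_zero ψ).mpr c.ne_zero).symm⟩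
  have h3 : ψ (c : E) ≠ 0 := (map_ne_zero ψ).mpr c.ne_zero
  have h4 : ψ (s : E) ≠ 0 := (map_ne_zero ψ).mpr s.ne_zero
  rcases lt_or_gt_of_ne h4 with h5 | h5
  · have h6 : ψ (c : E) < 0 := h2.mp (h1.mpr h5)
    exact mul_pos_of_neg_of_neg h6 h5
  · have h6 : 0 < ψ (c : E) := by
      rcases lt_or_gt_of_ne h3 with h7 | h7
      · exact absurd (h1.mp (h2.mpr h7)) (not_lt.mpr h5.le)
      · exact h7
    exact mul_pos h6 h5

end Vale.Agent.P011.Two
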