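import Vale.Agent.P011.Even.PlaneAlg
import Vale.Agent.P011.RP.Universal

/-!
The signatures of the values of polynomials in a symmetric element with real conjugates.
-/

open Module Matrix Polynomial NumberField
open Vale.Agent.P011.T2 (QuadL)
open Vale.Agent.P011.RP (RData)
open Vale.Agent.P011.Even

namespace Vale.Agent.P011.Two

/-- a matrix with linearly independent powers killed by a product of different linear factors is
diagonalisable -/
theorem diag_of_li {n : ℕ} {L : Type} [Field L] {Z : Matrix (Fin n) (Fin n) L}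
    (hli : LinearIndependent L (fun i : Fin n => Z ^ (i : ℕ))) {r : Fin n → L}
    (hr : Function.Injective r) (hz : aeval Z (∏ i, (X - C (r i))) = 0) :
    ∃ P : Matrix (Fin n) (Fin n) L, IsUnit P ∧ P * Z = diagonal r * P := by
  classical
  let q : Fin n → L[X] := fun i => ∏ j ∈ Finset.univ.erase i, (X - C (r j))
  have hq : ∀ i, q i * (X - C (r i)) = ∏ i, (X - C (r i)) := fun i =>
    Finset.prod_erase_mul _ _ (Finset.mem_univ i)
  have hqm : ∀ i, (q i).Monic := fun i => monic_prod_of_monic _ _ fun j _ => monic_X_sub_C _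
  have hqd : ∀ i, (q i).natDegree < n := by
    intro i
    have h1 : (q i).natDegree = (Finset.univ.erase i).card := by
      change (∏ j ∈ Finset.univ.erase i, (X - C (r j))).natDegree = _
      rw [natDegree_prod_of_monic _ _ fun j _ => monic_X_sub_C _]
      simp
    rw [h1, Finset.card_erase_of_mem (Finset.mem_univ i), Finset.card_univ, Fintype.card_fin]
    have := i.2
    omega
  have hq0 : ∀ i, aeval Z (q i) ≠ 0 := by
    intro i h
    rw [aeval_eq_sum_range' (hqd i), Finset.sum_range] at h
    have h1 := Fintype.linearIndependent_iff.mp hli _ h ⟨_, hqd i⟩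
    have h2 : (q i).coeff (q i).natDegree = 1 := hqm i
    rw [h2] at h1
    exact one_ne_zero h1
  have hrow : ∀ i, ∃ a, (aeval Z (q i)) a ≠ 0 := by
    intro i
    by_contra! h
    apply hq0 i
    ext a b
    exact congrFun (h a) b
  choose a ha using hrow
  let u : Fin n → Fin n → L := fun i => (aeval Z (q i)) (a i)
  have hu : ∀ i, u i ᵥ* Z = r i • u i := by
    intro i
    have h1 : aeval Z (q i) * Z = r i • aeval Z (q i) := by
      have h2 := congrArg (aeval Z) (hq i)
      rw [hz, map_mul, map_sub, aeval_X, aeval_C, mul_sub, sub_eq_zero,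
        ← Algebra.commutes, ← Algebra.smul_def] at h2
      exact h2
    have h3 := congrFun h1 (a i)
    exact h3
  have hul : LinearIndependent L u := by
    refine Module.End.eigenvectors_linearIndependent' (Matrix.vecMulLinear Z) r hr u fun i => ?_
    refine Module.End.hasEigenvector_iff.mpr ⟨?_, ha i⟩
    rw [Module.End.mem_eigenspace_iff]
    exact hu i
  refine ⟨Matrix.of u, ?_, ?_⟩
  · exact Matrix.linearIndependent_rows_iff_isUnit.mp hul
  · ext i j
    rw [diagonal_mul]
    exact congrFun (hu i) j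

section

variable {k K D : Type} [Field k] [NumberField k] [Field K] [StarRing K]
    [DivisionRing D] [StarRing D] [Algebra k K] [Algebra k D] [Algebra K D] [IsScalarTower k K D]
    {d : kˣ} {s : K} {n : ℕ}

/-- The powers of the image of a symmetric element of maximal degree are independent. -/
theorem li_pow (hS : Setting k K D d s) (hn : 0 < n) (hdeg : finrank K D = n ^ 2) (R : RData K D n)
    {η : D} (hη : star η = η) (hd : (minpoly k η).natDegree = n) :
    LinearIndependent ℂ (fun i : Fin n => (R.f η) ^ (i : ℕ)) := by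
  have := hS.fin
  have := hS.cen
  let _ : Algebra K ℂ := R.s.toAlgebra
  let f : D →ₐ[K] Matrix (Fin n) (Fin n) ℂ :=
    { R.f with
      commutes' := fun a => by
        change R.f (algebraMap K D a) = _
        rw [R.hf, Matrix.algebraMap_eq_diagonal]
        rfl }
  have hli : LinearIndependent k (fun i : Fin n => η ^ (i : ℕ)) := by
    have h1 := linearIndependent_pow (K := k) η
    have h2 := h1.comp (Fin.cast hd.symm) (Fin.cast_injective _)
    exact h2
  obtain ⟨h1, h2⟩ := minpoly_map hS hn hdeg f (c0 := 1) (z := η) one_ne_zero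
    (by rw [hη, one_mul, inv_one, mul_one]) hli
  have hliK : LinearIndependent K (fun i : Fin n => η ^ (i : ℕ)) := by
    have h3 := linearIndependent_pow (K := K) η
    have h4 : (minpoly K η).natDegree = n := by rw [h2, natDegree_map, h1]
    exact h3.comp (Fin.cast h4.symm) (Fin.cast_injective _)
  have h5 := Vale.Agent.P011S.SF.split_indep hn f _ hliK
  have h6 : (fun i : Fin n => f (η ^ (i : ℕ))) = fun i : Fin n => (R.f η) ^ (i : ℕ) := by
    funext i
    exact map_pow R.f η _
  rw [h6] at h5
  exact h5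

/-- G7. -/
theorem real_pattern [NumberField K] (hS : Setting k K D d s) (hn : 0 < n)
    (hdeg : finrank K D = n ^ 2) {g : D} (hg : star g = g) (hg0 : g ≠ 0) {η : D}
    (hη : star η = η) {φ : k →+* ℝ} (hφ : φ d < 0) {ρ : Fin n → ℝ} (hρ : Function.Injective ρ)
    (hm : (minpoly k η).map φ = ∏ i, (X - C (ρ i))) :
    ∃ ε : Fin n → ℝ, (∀ i, ε i ≠ 0) ∧ ∀ p : k[X], (∀ i, 0 < ε i * (p.map φ).eval (ρ i)) →
      ∀ R : RData K D n, (∀ a, R.s (algebraMap k K a) = ((φ a : ℝ) : ℂ)) →
      R.CongAt g (aeval η p) := by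
  have := hS.fin
  have := hS.cen
  have : StarModule K D := ⟨hS.star_smul⟩
  obtain ⟨R, hR⟩ := exists_rdata_of (D := D) hS hn hdeg hφ
  have hd : (minpoly k η).natDegree = n := by
    have h1 := congrArg natDegree hm
    rw [natDegree_map, natDegree_prod_of_monic _ _ fun j _ => monic_X_sub_C _] at h1
    simpa using h1
  have hli := li_pow hS hn hdeg R hη hd
  set Z := R.f η with hZ
  -- `Z` is killed by the product
  have hr : Function.Injective fun i => ((ρ i : ℝ) : ℂ) := fun i j h =>
    hρ (Complex.ofReal_injective h)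
  have hprod : (∏ i, (X - C (ρ i)) : ℝ[X]).map (algebraMap ℝ ℂ) =
      ∏ i, (X - C ((ρ i : ℝ) : ℂ)) := by
    rw [Polynomial.map_prod]
    refine Finset.prod_congr rfl fun i _ => ?_
    rw [Polynomial.map_sub, Polynomial.map_X, Polynomial.map_C]
    rfl
  have hz : aeval Z (∏ i, (X - C ((ρ i : ℝ) : ℂ))) = 0 := by
    rw [← hprod, aeval_map_algebraMap, ← hm, ← f_aeval R hR, minpoly.aeval, map_zero]
  obtain ⟨P, hP, hPZ⟩ := diag_of_li hli hr hz
  obtain ⟨P', σ, hP', hσ⟩ := exists_diag quadC (R.f g * R.A) (f_herm R hg)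
    ((Matrix.isUnit_iff_isUnit_det _).mp ((Even.f_unit R hg0).mul R.unit)).ne_zero
  -- the diagonal form of `A`
  set N := P * R.A * Pᴴ with hN
  have hNh : Nᴴ = N := by
    rw [hN, conjTranspose_mul, conjTranspose_mul, conjTranspose_conjTranspose, R.hA, mul_assoc]
  have hZA : Z * R.A = R.A * Zᴴ := by rw [hZ, ← R.star_f, hη]
  have hcomm : diagonal (fun i => ((ρ i : ℝ) : ℂ)) * N =
      N * diagonal (fun i => ((ρ i : ℝ) : ℂ)) := by
    have h1 : (diagonal (fun i => ((ρ i : ℝ) : ℂ)))ᴴ = diagonal (fun i => ((ρ i : ℝ) : ℂ)) := by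
      rw [diagonal_conjTranspose]
      congr 1
      funext i
      exact Complex.conj_ofReal _
    have h2 : Zᴴ * Pᴴ = Pᴴ * diagonal (fun i => ((ρ i : ℝ) : ℂ)) := by
      have h3 := congrArg conjTranspose hPZ
      rw [conjTranspose_mul, conjTranspose_mul, h1] at h3
      exact h3
    calc diagonal (fun i => ((ρ i : ℝ) : ℂ)) * N
        = (diagonal (fun i => ((ρ i : ℝ) : ℂ)) * P) * R.A * Pᴴ := by
          rw [hN]; simp only [mul_assoc]
      _ = P * (Z * R.A) * Pᴴ := by rw [← hPZ]; simp only [mul_assoc]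
      _ = P * R.A * (Zᴴ * Pᴴ) := by rw [hZA]; simp only [mul_assoc]
      _ = _ := by rw [h2, hN]; simp only [mul_assoc]
  have hNoff : ∀ i j, i ≠ j → N i j = 0 := by
    intro i j hij
    have h1 := congrFun (congrFun hcomm i) j
    rw [diagonal_mul, mul_diagonal] at h1
    have h2 : (((ρ i : ℝ) : ℂ) - ((ρ j : ℝ) : ℂ)) * N i j = 0 := by linear_combination h1
    exact (mul_eq_zero.mp h2).resolve_left (sub_ne_zero.mpr fun h => hij (hr h))
  have hNre : ∀ i, (((N i i).re : ℝ) : ℂ) = N i i := by
    intro i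
    have h1 := congrFun (congrFun hNh i) i
    exact Complex.conj_eq_iff_re.mp h1
  have hNd : N = diagonal fun i => (((N i i).re : ℝ) : ℂ) := by
    ext i j
    rw [diagonal_apply]
    split_ifs with h
    · subst h
      exact (hNre i).symm
    · exact hNoff i j h
  have hNu : IsUnit N := by
    have h1 : IsUnit Pᴴ := by
      rw [← star_eq_conjTranspose]
      exact hP.star
    exact (hP.mul R.unit).mul h1
  have hN0 : ∀ i, (N i i).re ≠ 0 := by
    intro i h0
    have h1 := ((Matrix.isUnit_iff_isUnit_det _).mp hNu).ne_zero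
    rw [hNd, det_diagonal, Finset.prod_ne_zero_iff] at h1
    have h2 : (((N i i).re : ℝ) : ℂ) = 0 := by rw [h0]; exact Complex.ofReal_zero
    exact h1 i (Finset.mem_univ i) h2
  refine ⟨fun i => (N i i).re * σ i, fun i => mul_ne_zero (hN0 i) (σ i).ne_zero, fun p hp => ?_⟩
  -- the congruence for `R`
  have key : R.CongAt g (aeval η p) := by
    obtain ⟨U, rfl⟩ := hP
    let V : Matrix (Fin n) (Fin n) ℂ := ((U⁻¹ : (Matrix (Fin n) (Fin n) ℂ)ˣ) : _)
    have hVU : V * U = 1 := U.inv_mul
    have hUV : (U : Matrix (Fin n) (Fin n) ℂ) * V = 1 := U.mul_inv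
    have hUVh : (U : Matrix (Fin n) (Fin n) ℂ)ᴴ * Vᴴ = 1 := by
      rw [← conjTranspose_mul, hVU, conjTranspose_one]
    have h1 : (U : Matrix (Fin n) (Fin n) ℂ) * R.f (aeval η p) =
        diagonal (fun i => (((p.map φ).eval (ρ i) : ℝ) : ℂ)) * U := by
      rw [f_aeval R hR, ← aeval_map_algebraMap ℂ]
      have h2 := aeval_conj hPZ.symm ((p.map φ).map (algebraMap ℝ ℂ))
      rw [← h2, aeval_diagonal]
      congr 2
      funext i
      have h3 := eval_map_algebraMap (B := ℂ) (p.map φ) ((ρ i : ℝ) : ℂ)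
      rw [h3]
      exact aeval_algebraMap_apply ℂ (ρ i) (p.map φ)
    have h2 : (U : Matrix (Fin n) (Fin n) ℂ) * (R.f (aeval η p) * R.A) *
        (U : Matrix (Fin n) (Fin n) ℂ)ᴴ =
        diagonal fun i => (((p.map φ).eval (ρ i) * (N i i).re : ℝ) : ℂ) := by
      calc (U : Matrix (Fin n) (Fin n) ℂ) * (R.f (aeval η p) * R.A) *
            (U : Matrix (Fin n) (Fin n) ℂ)ᴴ
          = ((U : Matrix (Fin n) (Fin n) ℂ) * R.f (aeval η p)) * R.A *
            (U : Matrix (Fin n) (Fin n) ℂ)ᴴ := by simp only [mul_assoc]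
        _ = diagonal (fun i => (((p.map φ).eval (ρ i) : ℝ) : ℂ)) * N := by
          rw [h1, hN]; simp only [mul_assoc]
        _ = _ := by
          conv_lhs => rw [hNd]
          rw [diagonal_mul_diagonal]
          congr 1
          funext i
          push_cast
          rfl
    -- positive square roots
    let lam : Fin n → ℝ := fun i => Real.sqrt ((p.map φ).eval (ρ i) * (N i i).re / σ i)
    have hpos : ∀ i, 0 < (p.map φ).eval (ρ i) * (N i i).re / (σ i : ℝ) := by
      intro i
      have h3 := hp i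
      have h4 : (σ i : ℝ) ≠ 0 := (σ i).ne_zero
      have h5 : (p.map φ).eval (ρ i) * (N i i).re / (σ i : ℝ) =
          ((N i i).re * σ i * (p.map φ).eval (ρ i)) / (σ i : ℝ) ^ 2 := by
        field_simp
      rw [h5]
      exact div_pos h3 (by positivity)
    have hlam : ∀ i, lam i * lam i * (σ i : ℝ) = (p.map φ).eval (ρ i) * (N i i).re := by
      intro i
      have h4 : (σ i : ℝ) ≠ 0 := (σ i).ne_zero
      change Real.sqrt _ * Real.sqrt _ * _ = _
      rw [Real.mul_self_sqrt (hpos i).le, div_mul_cancel₀ _ h4]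
    let Λ : Matrix (Fin n) (Fin n) ℂ := diagonal fun i => ((lam i : ℝ) : ℂ)
    have hΛh : Λᴴ = Λ := by
      rw [diagonal_conjTranspose]
      congr 1
      funext i
      exact Complex.conj_ofReal _
    have hΛu : IsUnit Λ := by
      rw [Matrix.isUnit_iff_isUnit_det, det_diagonal]
      refine IsUnit.mk0 _ (Finset.prod_ne_zero_iff.mpr fun i _ => ?_)
      have h3 : 0 < lam i := Real.sqrt_pos.mpr (hpos i)
      exact_mod_cast h3.ne'
    refine ⟨V * Λ * P', ((U⁻¹).isUnit.mul hΛu).mul hP', ?_⟩
    have h3 : R.f (aeval η p) * R.A = V * ((U : Matrix (Fin n) (Fin n) ℂ) *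
        (R.f (aeval η p) * R.A) * (U : Matrix (Fin n) (Fin n) ℂ)ᴴ) * Vᴴ := by
      calc R.f (aeval η p) * R.A = (V * U) * (R.f (aeval η p) * R.A) *
            ((U : Matrix (Fin n) (Fin n) ℂ)ᴴ * Vᴴ) := by rw [hVU, hUVh, one_mul, mul_one]
        _ = _ := by simp only [mul_assoc]
    rw [h3, h2, conjTranspose_mul, conjTranspose_mul, hΛh]
    calc V * Λ * P' * (R.f g * R.A) * (P'ᴴ * (Λ * Vᴴ))
        = V * (Λ * (P' * (R.f g * R.A) * P'ᴴ) * Λ) * Vᴴ := by simp only [mul_assoc]
      _ = _ := by
        rw [hσ, diagonal_mul_diagonal, diagonal_mul_diagonal]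
        congr 3
        funext i
        rw [← hlam i]
        push_cast
        change ((lam i : ℝ) : ℂ) * ((σ i : ℝ) : ℂ) * ((lam i : ℝ) : ℂ) = _
        ring
  intro R' hR'
  -- comparison of the embeddings
  have hgen : ∀ x : K, ∃ a b : k, x = algebraMap k K a + algebraMap k K b * s := by
    intro x
    have hs0 : s ≠ 0 := by
      rintro rfl
      have := hS.sq
      rw [zero_pow two_ne_zero] at this
      exact (_root_.map_ne_zero (algebraMap k K)).mpr d.ne_zero this.symm
    obtain ⟨a, ha⟩ := (hS.fix ((x + star x) / 2)).mp (by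
      rw [star_div₀, star_add, star_star, star_ofNat, add_comm])
    obtain ⟨b, hb⟩ := (hS.fix ((x - star x) / (2 * s))).mp (by
      rw [star_div₀, star_sub, star_star, star_mul', star_ofNat, hS.star_s, mul_neg, div_neg,
        ← neg_div, neg_sub])
    refine ⟨a, b, ?_⟩
    rw [ha, hb]
    field_simp
    ring
  have hsq : (R'.s s - R.s s) * (R'.s s + R.s s) = 0 := by
    have h1 : R'.s s ^ 2 = R.s s ^ 2 := by
      rw [← map_pow, ← map_pow, hS.sq, hR, hR']
    linear_combination h1
  rcases mul_eq_zero.mp hsq with h | h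
  · refine RData.CongAt.of_eq hn hdeg (R := R) ?_ key
    ext x
    obtain ⟨a, b, rfl⟩ := hgen x
    rw [map_add, map_add, map_mul, map_mul, hR, hR, hR', hR', sub_eq_zero.mp h]
  · refine RData.CongAt.of_eq hn hdeg (R := R.conj) ?_ key.conj
    ext x
    obtain ⟨a, b, rfl⟩ := hgen x
    have h1 : star (R.s s) = -R.s s := by
      rw [← R.hs, hS.star_s, map_neg]
    have h2 : R'.s s = -R.s s := by linear_combination h
    rw [RData.conj_s, map_add, map_add, map_mul, map_mul, hR, hR, hR', hR', star_add, star_mul',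
      h1, h2]
    congr 1
    · exact Complex.conj_ofReal _
    · congr 1
      exact Complex.conj_ofReal _

end

end Vale.Agent.P011.Two
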