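import Vale.Agent.P011.Two.Defs
import Vale.Agent.P011.Two.Local
import Vale.Agent.P011.Two.PncAb
import Vale.Agent.P011.Two.Cent
import Vale.Agent.P011.Two.RealPat
import Vale.Agent.P011.Even.R2

/-!
Good unitary elements extend to isometries of the plane in the subgroup.
-/

open Module Polynomial NumberField IsDedekindDomain
open Vale.Agent.P011.RP (RData)

namespace Vale.Agent.P011.Two

open Vale.Agent.P011.Arith Vale.Agent.P011.Even

/-- The diagonal linear automorphism. -/
def dgL {D : Type} [DivisionRing D] (t t' : D) (ht : t ≠ 0) (ht' : t' ≠ 0) :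
    (D × D) ≃ₗ[D] (D × D) where
  toFun x := (x.1 * t, x.2 * t')
  map_add' x y := by
    simp only [Prod.fst_add, Prod.snd_add, add_mul, Prod.mk_add_mk]
  map_smul' a x := by
    simp only [Prod.smul_fst, Prod.smul_snd, smul_eq_mul, mul_assoc, Prod.smul_mk,
      RingHom.id_apply]
  invFun x := (x.1 * t⁻¹, x.2 * t'⁻¹)
  left_inv x := by
    simp only [mul_assoc, mul_inv_cancel₀ ht, mul_inv_cancel₀ ht', mul_one]
  right_inv x := by
    simp only [mul_assoc, inv_mul_cancel₀ ht, inv_mul_cancel₀ ht', mul_one]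

theorem dgL_apply {D : Type} [DivisionRing D] {t t' : D} (ht : t ≠ 0) (ht' : t' ≠ 0) (x : D × D) :
    dgL t t' ht ht' x = (x.1 * t, x.2 * t') := rfl

variable {k K D : Type} [Field k] [NumberField k] [Field K] [NumberField K] [StarRing K]
    [DivisionRing D] [StarRing D] [Algebra k K] [Algebra k D] [Algebra K D] [IsScalarTower k K D]
    {d : kˣ} {s : K} {n : ℕ}

/-- Elements of `E` with prescribed signs. -/
theorem exists_signs {E : Type} [Field E] [NumberField E] (r : (E →+* ℝ) → ℝ)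
    (hr : ∀ ψ, r ψ ≠ 0) : ∃ x : Eˣ, ∀ ψ : E →+* ℝ, 0 < r ψ * ψ (x : E) := by
  obtain ⟨x, hx⟩ := RP.real_dense (fun ψ : E →+* ℝ => r ψ / |r ψ|)
    (show (0 : ℝ) < 1 / 2 by norm_num)
  have h1 : ∀ ψ : E →+* ℝ, 0 < r ψ * ψ x := by
    intro ψ
    have h2 := hx ψ
    rw [abs_lt] at h2
    rcases lt_or_gt_of_ne (hr ψ) with h3 | h3
    · rw [abs_of_neg h3, div_neg, div_self h3.ne] at h2
      exact mul_pos_of_neg_of_neg h3 (by linarith)
    · rw [abs_of_pos h3, div_self h3.ne'] at h2
      exact mul_pos h3 (by linarith)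
  by_cases hx0 : x = 0
  · refine ⟨1, fun ψ => ?_⟩
    have := h1 ψ
    rw [hx0, map_zero, mul_zero] at this
    exact absurd this (lt_irrefl _)
  · exact ⟨Units.mk0 x hx0, h1⟩

/-- Good unitary elements extend. -/
theorem matched_good (hS : Setting k K D d s) (hn : 2 ≤ n) (hdeg : finrank K D = n ^ 2) {g : D}
    (hg : star g = g) (hg0 : g ≠ 0) {e : ℕ} (he : 0 < e)
    {N : Subgroup ((D × D) ≃ₗ[D] (D × D))} (hHQ : HQ d s g e N)
    (f : D →ₐ[K] Matrix (Fin n) (Fin n) (AlgebraicClosure K)) {ν : kˣ}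
    (hν : (f g).det = algebraMap K (AlgebraicClosure K) (algebraMap k K ν))
    {V : Set (HeightOneSpectrum (𝓞 k))} (hV : Ctrl d ((-1) ^ n * ν) V) {c : kˣ}
    (hc : (c : k) = 4 * (e : k) ^ 4) (t : unitary D) (hfin : ∀ v ∈ V, WF n c v t)
    (hreal : ∀ φ : k →+* ℝ, φ d < 0 → WR n φ t) : ∃ t' : D, ∃ u ∈ N, IsDiag (t : D) t' u := by
  classical
  have hn0 : 0 < n := by omega
  have := hS.fin
  have := hS.cen
  have hfk := hS.fin_k
  have hSM : StarModule K D := ⟨hS.star_smul⟩
  have hD2 : (2 : D) ≠ 0 := by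
    have : CharZero D := charZero_of_injective_algebraMap (algebraMap K D).injective
    exact two_ne_zero
  have htt : (t : D) * star (t : D) = 1 := (Unitary.mem_iff.mp t.2).2
  have htt' : star (t : D) * (t : D) = 1 := (Unitary.mem_iff.mp t.2).1
  have ht0 : (t : D) ≠ 0 := by
    intro h
    rw [h, zero_mul] at htt
    exact zero_ne_one htt
  set η : D := (t : D) + star (t : D) with hηdef
  have hη : star η = η := by rw [hηdef, star_add, star_star, add_comm]
  have hli : LinearIndependent k (fun i : Fin n => η ^ (i : ℕ)) := by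
    obtain ⟨p, hp, -, hpV⟩ := hV.jet
    rcases p with v | φ
    · exact (hfin v (hpV v rfl)).1
    · exact (hreal φ (notMem_LSR.mp hp)).1
  have hz : star η = 1 * η * 1⁻¹ := by rw [one_mul, inv_one, mul_one, hη]
  obtain ⟨E, _, _, _, j, γ, hjγ, hgen⟩ := Even.exists_gen (Module.finBasis k D) η
  obtain ⟨hmn, hmK⟩ := minpoly_map hS hn0 hdeg f (c0 := 1) one_ne_zero hz hli
  have hjinj : Function.Injective j := j.toRingHom.injective
  have hjp : ∀ p : k[X], j (aeval γ p) = aeval η p := by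
    intro p
    rw [← Polynomial.aeval_algHom_apply, hjγ]
  have hγmin : minpoly k γ = minpoly k η := by rw [← hjγ, minpoly.algHom_eq j hjinj γ]
  have hfinE : FiniteDimensional k E := Module.Finite.of_injective j.toLinearMap hjinj
  have hE : finrank k E = n := by
    have h1 : IntermediateField.adjoin k {γ} = ⊤ := by
      rw [eq_top_iff]
      intro l _
      obtain ⟨p, rfl⟩ := hgen l
      exact IntermediateField.algebra_adjoin_le_adjoin k {γ} (by
        rw [Algebra.adjoin_singleton_eq_range_aeval]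
        exact ⟨p, rfl⟩)
    have h2 : finrank k (IntermediateField.adjoin k {γ}) = (minpoly k γ).natDegree :=
      IntermediateField.adjoin.finrank (Algebra.IsIntegral.isIntegral γ)
    rw [h1, IntermediateField.finrank_top', hγmin, hmn] at h2
    exact h2
  have hstarj : ∀ x : E, star (j x) = j x := by
    intro x
    obtain ⟨p, rfl⟩ := hgen x
    rw [hjp, star_aeval' hS (c0 := 1) one_ne_zero hz p, one_mul, inv_one, mul_one]
  -- the central element
  set S := algebraMap K D s with hSdef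
  have hSc : ∀ x : D, S * x = x * S := fun x => Algebra.commutes s x
  have hSs : star S = -S := star_S hS
  have hSS : S * S = algebraMap k D d := by
    rw [hSdef, ← map_mul, ← pow_two, hS.sq, ← IsScalarTower.algebraMap_apply]
  have hS0 : S ≠ 0 := (_root_.map_ne_zero (algebraMap K D)).mpr hS.s_ne
  have hSne : S ≠ -S := by
    intro h
    apply hS0
    have h1 : (2 : D) * S = 0 := by rw [two_mul]; nth_rewrite 1 [h]; exact neg_add_cancel S
    exact (mul_eq_zero.mp h1).resolve_left hD2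
  have hdE : ¬ IsSquare (algebraMap k E (d : k)) := by
    rintro ⟨r, hr⟩
    have h1 : (j r - S) * (j r + S) = 0 := by
      have h2 : j r * j r = S * S := by
        rw [← map_mul, ← hr, AlgHom.commutes, hSS]
      rw [sub_mul, mul_add, mul_add, h2, hSc (j r)]
      abel
    rcases mul_eq_zero.mp h1 with h | h
    · have h2 := hstarj r
      rw [sub_eq_zero.mp h, hSs] at h2
      exact hSne h2.symm
    · have h2 := hstarj r
      rw [eq_neg_of_add_eq_zero_left h, star_neg, hSs, neg_neg] at h2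
      exact hSne h2
  have hmonic : (minpoly k η).Monic := minpoly.monic (Algebra.IsIntegral.isIntegral η)
  -- the coordinates of `t`
  have htη : (t : D) * η = η * (t : D) := by
    rw [hηdef, mul_add, add_mul, htt, htt']
  obtain ⟨P₀, P₁, hP⟩ := mem_cent hS hn0 hdeg f hη hli htη
  set p₀ : E := aeval γ P₀ with hp₀
  set p₁ : E := aeval γ P₁ with hp₁
  have htp : (t : D) = j p₀ + j p₁ * S := by rw [hp₀, hp₁, hjp, hjp, ← hP]
  have hstp : star (t : D) = j p₀ - j p₁ * S := by
    rw [htp, star_add, star_mul, hstarj, hstarj, hSs, neg_mul, hSc, sub_eq_add_neg]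
  have hγ2 : γ = 2 * p₀ := by
    apply hjinj
    rw [hjγ, map_mul, map_ofNat, hηdef, hstp, htp, two_mul]
    abel
  have hnrm : p₀ ^ 2 - algebraMap k E d * p₁ ^ 2 = 1 := by
    apply hjinj
    have h1 : j p₁ * S * (j p₁ * S) = j (algebraMap k E d * p₁ ^ 2) := by
      rw [map_mul, AlgHom.commutes, ← hSS, pow_two, map_mul]
      calc j p₁ * S * (j p₁ * S) = j p₁ * (S * j p₁) * S := by simp only [mul_assoc]
        _ = j p₁ * j p₁ * (S * S) := by rw [hSc]; simp only [mul_assoc]
        _ = S * S * (j p₁ * j p₁) := by rw [hSS, Algebra.commutes]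
    have hpc : j p₀ * j p₁ = j p₁ * j p₀ := by
      have := congrArg j (mul_comm p₀ p₁)
      rwa [map_mul, map_mul] at this
    have h2 : j p₀ * (j p₁ * S) = j p₁ * S * j p₀ := by
      rw [← mul_assoc, hpc, mul_assoc, ← hSc, ← mul_assoc]
    rw [map_one, ← htt, hstp, htp, add_mul, mul_sub, mul_sub, h1, h2, map_sub, pow_two p₀,
      map_mul j p₀ p₀]
    abel
  -- places above the primes of `V`
  have hV' : ∀ v ∈ V, TotSplit E v ∧ ∃ w : HeightOneSpectrum (𝓞 E), Ab w v ∧
      w.valuation E (2 - γ) < w.valuation E (algebraMap k E (c : k)) := by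
    intro v hv
    exact (hfin v hv).2 E γ hE (by rw [hγmin]; exact hmn) (by rw [hγmin]; exact minpoly.aeval k η)
  have habv : ∀ v : HeightOneSpectrum (𝓞 k), ∃ w : HeightOneSpectrum (𝓞 E), Ab w v ∧
      (v ∈ V → w.valuation E (2 - γ) < w.valuation E (algebraMap k E (c : k))) := by
    intro v
    by_cases hv : v ∈ V
    · obtain ⟨w, hw1, hw2⟩ := (hV' v hv).2
      exact ⟨w, hw1, fun _ => hw2⟩
    · obtain ⟨w, hw⟩ := exists_above (E := E) v
      exact ⟨w, hw, fun h => absurd h hv⟩
  choose ab hab hab2 using habv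
  -- real places
  have hroots : ∀ φ : k →+* ℝ, φ d < 0 → ∃ ρ : Fin n → ℝ, Function.Injective ρ ∧
      (minpoly k η).map φ = ∏ i, (X - C (ρ i)) := fun φ hφ =>
    (hreal φ hφ).2 _ hmonic hmn (minpoly.aeval k η)
  have hpsi : ∀ (φ : k →+* ℝ) (ρ : Fin n → ℝ), (minpoly k η).map φ = ∏ i, (X - C (ρ i)) →
      ∀ i, ∃ ψ : E →+* ℝ, ψ.comp (algebraMap k E) = φ ∧
        ∀ p : k[X], ψ (aeval γ p) = p.eval₂ φ (ρ i) := by
    intro φ ρ hρ i
    apply exists_psi_root hgen
    rw [hγmin, ← Polynomial.eval_map, hρ, eval_prod]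
    apply Finset.prod_eq_zero (Finset.mem_univ i)
    rw [eval_sub, eval_X, eval_C, sub_self]
  have hpat : ∀ φ : k →+* ℝ, ∃ (ρ ε : Fin n → ℝ), (∀ i, ε i ≠ 0) ∧ (φ d < 0 →
      Function.Injective ρ ∧ (minpoly k η).map φ = ∏ i, (X - C (ρ i)) ∧
      ∀ p : k[X], (∀ i, 0 < ε i * (p.map φ).eval (ρ i)) →
      ∀ R : RData K D n, (∀ a, R.s (algebraMap k K a) = ((φ a : ℝ) : ℂ)) →
        R.CongAt g (aeval η p)) := by
    intro φ
    by_cases hφ : φ d < 0
    · obtain ⟨ρ, hρi, hρ⟩ := hroots φ hφ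
      obtain ⟨ε, hε, h⟩ := real_pattern hS hn0 hdeg hg hg0 hη hφ hρi hρ
      exact ⟨ρ, ε, hε, fun _ => ⟨hρi, hρ, h⟩⟩
    · exact ⟨0, 1, fun i => one_ne_zero, fun h => absurd h hφ⟩
  choose ρ ε hε hpat using hpat
  -- signs
  let r : (E →+* ℝ) → ℝ := fun ψ =>
    if h : ∃ i, ψ γ = ρ (ψ.comp (algebraMap k E)) i then
      ε (ψ.comp (algebraMap k E)) h.choose else 1
  obtain ⟨x, hx⟩ := exists_signs r (fun ψ => by
    change (if h : ∃ i, ψ γ = ρ (ψ.comp (algebraMap k E)) i then
      ε (ψ.comp (algebraMap k E)) h.choose else 1) ≠ 0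
    split_ifs with h
    · exact hε _ _
    · exact one_ne_zero)
  -- elements with these signs have the right signature
  have hcong : ∀ y : Eˣ, (∀ ψ : E →+* ℝ, ψ (algebraMap k E d) < 0 → 0 < ψ (y : E) * ψ (x : E)) →
      ∀ R : RData K D n, R.CongAt g (j (y : E)) := by
    intro y hy R
    obtain ⟨φ, hφ, hφd⟩ := exists_phi hS R
    obtain ⟨hρi, hρ, hp⟩ := hpat φ hφd
    obtain ⟨p, hpy⟩ := hgen (y : E)
    rw [hpy, hjp]
    refine hp p (fun i => ?_) R hφ
    obtain ⟨ψ, hψ, hψp⟩ := hpsi φ (ρ φ) hρ i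
    have h1 : ψ (algebraMap k E d) < 0 := by
      have h2 : ψ (algebraMap k E d) = φ d := RingHom.congr_fun hψ _
      rw [h2]
      exact hφd
    have h2 := hy ψ h1
    have h3 := hx ψ
    have hψγ : ψ γ = ρ φ i := by
      have := hψp X
      rwa [aeval_X, eval₂_X] at this
    have h4 : r ψ = ε φ i := by
      have h5 : ∃ i, ψ γ = ρ (ψ.comp (algebraMap k E)) i := ⟨i, by rw [hψ]; exact hψγ⟩
      change (if h : ∃ i, ψ γ = ρ (ψ.comp (algebraMap k E)) i then
        ε (ψ.comp (algebraMap k E)) h.choose else 1) = _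
      rw [dif_pos h5]
      have h6 := h5.choose_spec
      have h7 : h5.choose = i := by
        apply hρi
        exact (congrFun (congrArg ρ hψ) h5.choose).symm.trans (h6.symm.trans hψγ)
      exact (congrFun (congrArg ε hψ) h5.choose).trans (congrArg (ε φ) h7)
    rw [eval_map, ← hψp, ← hpy, ← h4]
    have h8 : 0 < (r ψ * ψ (x : E)) * (ψ (y : E) * ψ (x : E)) := mul_pos h3 h2
    have h9 : 0 < ψ (x : E) ^ 2 := by
      have : ψ (x : E) ≠ 0 := (_root_.map_ne_zero ψ).mpr x.ne_zero
      positivity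
    have h10 : (r ψ * ψ (x : E)) * (ψ (y : E) * ψ (x : E)) =
        (r ψ * ψ (y : E)) * ψ (x : E) ^ 2 := by ring
    rw [h10] at h8
    exact (mul_pos_iff_of_pos_right h9).mp h8
  -- norms
  have hdet : ∀ y : E, (f (j y)).det = algebraMap K (AlgebraicClosure K)
      (algebraMap k K (Algebra.norm k y)) := by
    intro y
    obtain ⟨p, rfl⟩ := hgen y
    rw [hjp]
    exact det_sub hS hn0 hdeg f (c0 := 1) one_ne_zero hz hli hE hγmin p
  have hnormneg : ∀ y : E, Algebra.norm k (-y) = (-1) ^ n * Algebra.norm k y := by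
    intro y
    have h1 : -y = algebraMap k E (-1) * y := by rw [map_neg, map_one, neg_one_mul]
    rw [h1, map_mul, Algebra.norm_algebraMap, hE]
  obtain ⟨μ, hμN, hμbad, hμpos⟩ := pnc_ab (E := E) hdE hV (fun v hv => (hV' v hv).1)
    (fun φ hφ => by
      obtain ⟨ρ, -, hρ⟩ := hroots φ hφ
      obtain ⟨ψ, hψ, -⟩ := hpsi φ ρ hρ ⟨0, hn0⟩
      exact ⟨ψ, hψ⟩) ab hab (-x)
    (fun φ hφ => by
      obtain ⟨R, hR⟩ := exists_rdata_of (D := D) hS hn0 hdeg hφ
      have hNx : Algebra.norm k (x : E) ≠ 0 := Algebra.norm_ne_zero_iff.mpr x.ne_zero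
      have h1 := nrd_pos hS hn0 hdeg f R hR (hcong x (fun ψ _ => by
        have : ψ (x : E) ≠ 0 := (_root_.map_ne_zero ψ).mpr x.ne_zero
        exact mul_self_pos.mpr this) R) hν (ν' := Units.mk0 _ hNx) (hdet x)
      rw [Units.val_mk0] at h1
      rw [Units.val_neg, hnormneg, Units.val_mul, Units.val_pow_eq_pow_val, Units.val_neg,
        Units.val_one, map_mul, map_mul]
      have h2 : φ ((-1) ^ n) * φ (Algebra.norm k (x : E)) * (φ ((-1) ^ n) * φ ν) =
          (φ ((-1) ^ n)) ^ 2 * (φ (Algebra.norm k (x : E)) * φ ν) := by ring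
      rw [h2]
      have h3 : φ ((-1) ^ n) ≠ 0 :=
        (_root_.map_ne_zero φ).mpr (pow_ne_zero _ (neg_ne_zero.mpr one_ne_zero))
      exact mul_pos (by positivity) h1)
  -- the length of the second vector
  have hcong' : ∀ R : RData K D n, R.CongAt g (j ((-μ : Eˣ) : E)) := hcong (-μ) fun ψ hψ => by
    have h1 := hμpos ψ hψ
    rw [Units.val_neg, map_neg] at h1 ⊢
    linarith
  have hμ0 : j ((-μ : Eˣ) : E) ≠ 0 := (_root_.map_ne_zero j).mpr (-μ : Eˣ).ne_zero
  have hK : ∃ x : K, star x ≠ x := by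
    refine ⟨s, ?_⟩
    rw [hS.star_s]
    intro h
    apply hSne
    have := congrArg (algebraMap K D) h
    rw [map_neg] at this
    exact this.symm
  obtain ⟨δ, hδ0, hδ⟩ := hasR1 hK hn0 hdeg (AlgebraicClosure K) f g (j ((-μ : Eˣ) : E)) hg
    (hstarj _) hg0 hμ0 (by
      obtain ⟨X', Y', hXY⟩ := hμN
      have hXY' : Algebra.norm k (μ : E) * ((-1) ^ n * (ν : k)) = X' ^ 2 - d * Y' ^ 2 := by
        rw [← hXY]
        rw [Units.val_mul, Units.val_mul, Units.val_pow_eq_pow_val, Units.val_neg, Units.val_one]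
        rfl
      have hN0 : Algebra.norm k (μ : E) * ((-1) ^ n * (ν : k)) ≠ 0 :=
        mul_ne_zero (Algebra.norm_ne_zero_iff.mpr μ.ne_zero)
          (mul_ne_zero (pow_ne_zero _ (neg_ne_zero.mpr one_ne_zero)) ν.ne_zero)
      have hfixk : ∀ a : k, star (algebraMap k K a) = algebraMap k K a := fun a =>
        (hS.fix _).mpr ⟨a, rfl⟩
      have hν0 : algebraMap k K (ν : k) ≠ 0 := (_root_.map_ne_zero _).mpr ν.ne_zero
      set w : K := (algebraMap k K X' + algebraMap k K Y' * s) * (algebraMap k K ν)⁻¹ with hw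
      have hws : w * star w = algebraMap k K (Algebra.norm k (((-μ : Eˣ) : E))) *
          (algebraMap k K ν)⁻¹ := by
        have h1 : star w = (algebraMap k K X' - algebraMap k K Y' * s) *
            (algebraMap k K ν)⁻¹ := by
          rw [hw, star_mul', star_inv₀, star_add, star_mul', hfixk, hfixk, hfixk, hS.star_s,
            mul_neg, sub_eq_add_neg]
        have h2 : (algebraMap k K X' + algebraMap k K Y' * s) *
            (algebraMap k K X' - algebraMap k K Y' * s) =
            algebraMap k K (Algebra.norm k (μ : E) * ((-1) ^ n * (ν : k))) := by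
          rw [hXY', map_sub, map_mul, map_pow, map_pow, ← hS.sq]
          ring
        rw [h1, hw, Units.val_neg, hnormneg]
        field_simp
        rw [h2, map_mul, map_mul, map_mul]
        ring
      refine ⟨w, ?_, ?_⟩
      · intro h0
        rw [h0, zero_mul, Units.val_neg, hnormneg] at hws
        refine mul_ne_zero ((_root_.map_ne_zero _).mpr ?_) (inv_ne_zero hν0) hws.symm
        exact mul_ne_zero (pow_ne_zero _ (neg_ne_zero.mpr one_ne_zero))
          (Algebra.norm_ne_zero_iff.mpr μ.ne_zero)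
      · rw [hdet, hν, hws, ← map_mul, mul_assoc, inv_mul_cancel₀ hν0, mul_one]) hcong'
  -- the isometry
  have ht'0 : δ⁻¹ * star (t : D) * δ ≠ 0 := mul_ne_zero (mul_ne_zero (inv_ne_zero hδ0)
    (star_ne_zero.mpr ht0)) hδ0
  refine ⟨δ⁻¹ * star (t : D) * δ, dgL (t : D) _ ht0 ht'0, ?_, ?_, ?_⟩
  · refine hHQ E j (-μ) p₀ p₁ 0 0 (1, 0) (0, δ) _ ?_ ?_
    · refine ⟨hstarj, ?_, ?_, ?_, ?_, ?_, ?_⟩
      · simp [hh]
      · simp [hh]
      · rw [hδ]
        simp [hh]
      · rw [hnrm]
        ring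
      · rw [dgL_apply]
        simp only [map_zero, zero_mul, add_zero, zero_smul, Prod.smul_mk, smul_eq_mul, mul_one,
          one_mul, mul_zero]
        rw [← htp]
      · rw [dgL_apply]
        simp only [map_zero, zero_mul, sub_zero, zero_smul, Prod.smul_mk, smul_eq_mul, neg_zero,
          mul_zero, zero_add]
        rw [← hstp, ← mul_assoc, ← mul_assoc, mul_inv_cancel₀ hδ0, one_mul]
    · intro ω hω
      rw [neg_neg] at hω
      obtain ⟨v, hv, rfl⟩ := hμbad ω hω
      have h1 := hab2 v hv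
      rw [hγ2, hc, map_mul, map_pow, map_ofNat, map_natCast] at h1
      exact h1
  · rw [dgL_apply, one_mul, zero_mul]
  · rw [dgL_apply, zero_mul, one_mul]

end Vale.Agent.P011.Two
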