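import Vale.Agent.P011.Even.DiagPair

/-!
The unitary group of a nondegenerate hermitian matrix over a quadratic extension is generated by
quasi-reflections.
-/

open Module Matrix
open Vale.Agent.P011.T2 Vale.Agent.P011.Even

namespace Vale.Agent.P011.Two

section basis

variable {E L : Type} [Field E] [Field L] [CharZero L] [StarRing L] [Algebra E L]

/-- Orthogonal bases with prescribed first vector. -/
theorem exists_orth_basis_cons {d : E} (hQ : QuadL E L d) {n : ℕ} (V : Type) [AddCommGroup V]
    [Module L V] [FiniteDimensional L V] (b : HF L V) (hb : b.Nondeg)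
    (hV : finrank L V = n + 1) {x : V} (hx : b.h x x ≠ 0) :
    ∃ w : Basis (Fin (n + 1)) L V, w 0 = x ∧
      (∀ i j, i ≠ j → b.h (w i) (w j) = 0) ∧ ∀ i, b.h (w i) (w i) ≠ 0 := by
  let U : Submodule L V := LinearMap.ker (b.lin x)
  have hU : ∀ y, y ∈ U ↔ b.h y x = 0 := fun y => LinearMap.mem_ker
  have hdec : ∀ y : V, y - (b.h y x / b.h x x) • x ∈ U := by
    intro y
    rw [hU, b.sub_left, b.smul_left, div_mul_cancel₀ _ hx, sub_self]
  have hUn : finrank L U = n := by
    have h1 : finrank L (LinearMap.range (b.lin x)) + finrank L U = finrank L V :=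
      LinearMap.finrank_range_add_finrank_ker (b.lin x)
    have h2 : LinearMap.range (b.lin x) = ⊤ := by
      rw [LinearMap.range_eq_top]
      intro l
      refine ⟨(l / b.h x x) • x, ?_⟩
      rw [b.lin_apply, b.smul_left, div_mul_cancel₀ _ hx]
    rw [h2, finrank_top, Module.finrank_self] at h1
    omega
  obtain ⟨w, hw1, hw2⟩ := RP.exists_orth_basis hQ n U (b.sub U) (by
    rintro ⟨y, hy⟩ h
    apply Subtype.ext
    apply hb
    intro z
    have h1 := h ⟨_, hdec z⟩
    have h2 : b.h y (z - (b.h z x / b.h x x) • x) = 0 := h1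
    rw [b.sub_right, b.smul_right, (hU y).mp hy, zero_mul, sub_zero] at h2
    exact h2) hUn
  let w' : Basis (Fin (n + 1)) L V := Module.Basis.mkFinCons x w (by
      intro c y hy h
      have h3 := (hU y).mp hy
      have h4 : y = -(c • x) := by
        rw [← add_eq_zero_iff_eq_neg, add_comm]; exact h
      rw [h4, b.neg_left, b.smul_left, neg_eq_zero] at h3
      exact (mul_eq_zero.mp h3).resolve_right hx) (by
      intro z
      refine ⟨-(b.h z x / b.h x x), ?_⟩
      have := hdec z
      rwa [sub_eq_add_neg, ← neg_smul] at this)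
  have hw' : (w' : Fin (n + 1) → V) = Fin.cons x (fun i => (w i : V)) :=
    Module.Basis.coe_mkFinCons x w _ _
  refine ⟨w', ?_, ?_, ?_⟩
  · rw [hw']
    rfl
  · intro i j hij
    rw [hw']
    induction i using Fin.cases with
    | zero =>
      induction j using Fin.cases with
      | zero => exact absurd rfl hij
      | succ j =>
        change b.h x (w j) = 0
        rw [← b.star_h, (hU _).mp (w j).2, star_zero]
    | succ i =>
      induction j using Fin.cases with
      | zero => exact (hU _).mp (w i).2
      | succ j => exact hw1 i j (fun h => hij (by rw [h]))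
  · intro i
    rw [hw']
    induction i using Fin.cases with
    | zero => exact hx
    | succ i => exact hw2 i

end basis

section refl

variable {L : Type} [Field L] [StarRing L] {n : ℕ}

/-- the form of a matrix -/
def bh (H : Matrix (Fin n) (Fin n) L) (x y : Fin n → L) : L := x ⬝ᵥ (H *ᵥ star y)

theorem bh_eq (H : Matrix (Fin n) (Fin n) L) (hH : Hᴴ = H) (x y : Fin n → L) :
    (rowHF H hH).h x y = bh H x y := by
  change ∑ i, ∑ j, x i * H i j * star (y j) = ∑ i, x i * ∑ j, H i j * star (y j)
  refine Finset.sum_congr rfl fun i _ => ?_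
  rw [Finset.mul_sum]
  exact Finset.sum_congr rfl fun j _ => mul_assoc _ _ _

theorem bh_sub_left (H : Matrix (Fin n) (Fin n) L) (x y z : Fin n → L) :
    bh H (x - y) z = bh H x z - bh H y z := sub_dotProduct _ _ _

theorem bh_add_left (H : Matrix (Fin n) (Fin n) L) (x y z : Fin n → L) :
    bh H (x + y) z = bh H x z + bh H y z := add_dotProduct _ _ _

theorem bh_smul_left (H : Matrix (Fin n) (Fin n) L) (c : L) (x z : Fin n → L) :
    bh H (c • x) z = c * bh H x z := smul_dotProduct _ _ _

theorem star_bh {H : Matrix (Fin n) (Fin n) L} (hH : Hᴴ = H) (x y : Fin n → L) :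
    star (bh H x y) = bh H y x := by
  rw [← bh_eq H hH, ← bh_eq H hH]
  exact (rowHF H hH).star_h x y

/-- isometries -/
theorem bh_vecMul {H T : Matrix (Fin n) (Fin n) L} (hT : T * H * Tᴴ = H) (x y : Fin n → L) :
    bh H (x ᵥ* T) (y ᵥ* T) = bh H x y := by
  unfold bh
  rw [star_vecMul, mulVec_mulVec, dotProduct_mulVec, vecMul_vecMul, ← mul_assoc, hT,
    ← dotProduct_mulVec]

/-- The quasi-reflection. -/
def refl (H : Matrix (Fin n) (Fin n) L) (x : Fin n → L) (θ : L) : Matrix (Fin n) (Fin n) L :=
  1 + ((θ - 1) / bh H x x) • vecMulVec (H *ᵥ star x) x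

theorem vecMul_refl (H : Matrix (Fin n) (Fin n) L) (x y : Fin n → L) (θ : L) :
    y ᵥ* refl H x θ = y + ((θ - 1) / bh H x x * bh H y x) • x := by
  unfold refl
  rw [vecMul_add, vecMul_one, vecMul_smul, vecMul_vecMulVec, smul_smul]
  rfl

theorem refl_mul (H : Matrix (Fin n) (Fin n) L) {x : Fin n → L} (hx : bh H x x ≠ 0) (θ θ' : L) :
    refl H x θ * refl H x θ' = refl H x (θ * θ') := by
  refine Matrix.ext_of_single_vecMul fun i => ?_
  rw [← vecMul_vecMul, vecMul_refl, vecMul_refl, vecMul_refl, bh_add_left, bh_smul_left, add_assoc,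
    ← add_smul]
  congr 2
  field_simp
  ring

theorem refl_one (H : Matrix (Fin n) (Fin n) L) (x : Fin n → L) : refl H x 1 = 1 := by
  unfold refl
  rw [sub_self, zero_div, zero_smul, add_zero]

/-- The quasi-reflection as a unit. -/
def reflU (H : Matrix (Fin n) (Fin n) L) {x : Fin n → L} (hx : bh H x x ≠ 0) {θ : L}
    (hθ : θ * star θ = 1) : (Matrix (Fin n) (Fin n) L)ˣ where
  val := refl H x θ
  inv := refl H x (star θ)
  val_inv := by rw [refl_mul H hx, hθ, refl_one]
  inv_val := by rw [refl_mul H hx, mul_comm, hθ, refl_one]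

theorem refl_isometry {H : Matrix (Fin n) (Fin n) L} (hH : Hᴴ = H) {x : Fin n → L}
    (hx : bh H x x ≠ 0) {θ : L} (hθ : θ * star θ = 1) :
    refl H x θ * H * (refl H x θ)ᴴ = H := by
  have hstar : star (bh H x x) = bh H x x := star_bh hH x x
  refine Matrix.ext_of_single_vecMul fun i => ?_
  have key : ∀ y z : Fin n → L, bh H (y ᵥ* refl H x θ) (z ᵥ* refl H x θ) = bh H y z := by
    intro y z
    rw [vecMul_refl, vecMul_refl, bh_add_left, bh_smul_left]
    rw [← star_bh hH (z + _) y, ← star_bh hH (z + _) x, bh_add_left, bh_add_left, bh_smul_left,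
      bh_smul_left, star_add, star_add, star_mul', star_mul', star_mul', star_mul', star_div₀,
      star_sub, star_one, hstar, star_bh hH, star_bh hH, star_bh hH]
    have h1 : star θ * θ = 1 := by rw [mul_comm]; exact hθ
    field_simp
    linear_combination (bh H y x * bh H x z) * h1
  have h2 : ∀ y z : Fin n → L, (y ᵥ* (refl H x θ * H * (refl H x θ)ᴴ)) ⬝ᵥ star z =
      (y ᵥ* H) ⬝ᵥ star z := by
    intro y z
    have h3 := key y z
    unfold bh at h3
    rw [star_vecMul, mulVec_mulVec, dotProduct_mulVec, vecMul_vecMul, ← mul_assoc] at h3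
    rw [h3, dotProduct_mulVec]
  ext j
  have h4 := h2 (Pi.single i 1) (Pi.single j 1)
  simpa [Pi.star_single] using h4

end refl

section main

variable {F L : Type} [Field F] [Field L] [CharZero L] [StarRing L] [Algebra F L] {d : F} {n : ℕ}

omit [CharZero L] in
/-- The matrix `T` is the quasi-reflection with factor `θ` along a vector of an orthogonal basis of
the hermitian form `H`. -/
def Simple (F : Type) {L : Type} [Field F] [Field L] [StarRing L] [Algebra F L] {n : ℕ}
    (H T : Matrix (Fin n) (Fin n) L) (θ : L) : Prop :=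
  ∃ (P : Matrix (Fin n) (Fin n) L) (α : Fin n → Fˣ) (i₀ : Fin n), IsUnit P ∧
    P * H * Pᴴ = diagonal (fun i => algebraMap F L (α i)) ∧
    P * T = diagonal (Function.update 1 i₀ θ) * P

/-- quasi-reflections are simple -/
theorem simple_refl (hQ : QuadL F L d) {H : Matrix (Fin n) (Fin n) L} (hH : Hᴴ = H)
    (hd : H.det ≠ 0) {x : Fin n → L} (hx : bh H x x ≠ 0) (θ : L) :
    Simple F H (refl H x θ) θ := by
  rcases n with _ | n
  · exact absurd (by simp [bh]) hx
  obtain ⟨w, hw0, hw1, hw2⟩ := exists_orth_basis_cons hQ (n := n) (Fin (n + 1) → L) (rowHF H hH)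
    (rowHF_nondeg H hH hd) (Module.finrank_fin_fun L) (x := x) (by rwa [bh_eq])
  choose δ hδ using fun i => hQ.fix _ ((rowHF H hH).star_h (w i) (w i))
  have hδ0 : ∀ i, δ i ≠ 0 := by
    intro i h0
    apply hw2 i
    rw [← hδ, h0, map_zero]
  let P : Matrix (Fin (n + 1)) (Fin (n + 1)) L := Matrix.of fun i => w i
  refine ⟨P, fun i => Units.mk0 (δ i) (hδ0 i), 0, ?_, ?_, ?_⟩
  · have h1 : P.transpose = (Pi.basisFun L (Fin (n + 1))).toMatrix w := by
      ext i j
      rw [Matrix.transpose_apply, Basis.toMatrix_apply, Pi.basisFun_repr]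
      rfl
    rw [← Matrix.isUnit_transpose, h1]
    exact ⟨⟨_, _, (Pi.basisFun L (Fin (n + 1))).toMatrix_mul_toMatrix_flip w,
      w.toMatrix_mul_toMatrix_flip (Pi.basisFun L (Fin (n + 1)))⟩, rfl⟩
  · ext i j
    have h1 : (P * H * Pᴴ) i j = (rowHF H hH).h (w i) (w j) := by
      rw [Matrix.mul_apply]
      simp only [Matrix.mul_apply, Finset.sum_mul, Matrix.conjTranspose_apply]
      rw [Finset.sum_comm]
      rfl
    rw [h1, Matrix.diagonal_apply]
    split_ifs with hij
    · subst hij
      rw [← hδ]
      rfl
    · exact hw1 i j hij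
  · refine Matrix.ext_of_single_vecMul fun i => ?_
    have hrow : ∀ A : Matrix (Fin (n + 1)) (Fin (n + 1)) L, Pi.single i 1 ᵥ* A = A i := by
      intro A
      rw [single_one_vecMul]
      rfl
    rw [hrow, hrow]
    have h1 : (P * refl H x θ) i = (w i) ᵥ* refl H x θ := by
      funext j
      rfl
    have h2 : ((diagonal (Function.update (1 : Fin (n + 1) → L) 0 θ) * P :
        Matrix (Fin (n + 1)) (Fin (n + 1)) L)) i =
        (Function.update (1 : Fin (n + 1) → L) 0 θ i) • w i := by
      funext j
      rw [diagonal_mul]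
      rfl
    rw [h1, h2, vecMul_refl]
    by_cases hi : i = 0
    · subst hi
      rw [Function.update_self, hw0, div_mul_cancel₀ _ hx, sub_smul, one_smul, add_sub_cancel]
    · rw [Function.update_of_ne hi, Pi.one_apply, one_smul]
      have h3 : bh H (w i) x = 0 := by
        have := hw1 i 0 hi
        rwa [bh_eq, hw0] at this
      rw [h3, mul_zero, zero_smul, add_zero]

/-- G1. The unitary group is generated by quasi-reflections. -/
theorem mem_of_simple (hQ : QuadL F L d) (H : Matrix (Fin n) (Fin n) L) (hH : Hᴴ = H)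
    (hd : H.det ≠ 0) (G : Subgroup (Matrix (Fin n) (Fin n) L)ˣ)
    (hG : ∀ (T : (Matrix (Fin n) (Fin n) L)ˣ) (θ : L), θ * star θ = 1 → θ ≠ -1 →
      Simple F H T θ → T ∈ G)
    (T : (Matrix (Fin n) (Fin n) L)ˣ)
    (hT : (T : Matrix (Fin n) (Fin n) L) * H * (T : Matrix (Fin n) (Fin n) L)ᴴ = H) : T ∈ G := by
  -- all quasi-reflections are in `G`
  have hR : ∀ (x : Fin n → L) (hx : bh H x x ≠ 0) (θ : L) (hθ : θ * star θ = 1),
      reflU H hx hθ ∈ G := by
    intro x hx θ hθ
    by_cases h1 : θ = -1
    · subst h1
      obtain ⟨θ₀, hθ0, hθs, -⟩ := hQ.gen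
      have h1p : (1 : L) + θ₀ ≠ 0 := by
        intro h
        have h2 : θ₀ = -1 := by linear_combination h
        rw [h2, star_neg, star_one, neg_neg] at hθs
        have h3 : (2 : L) = 0 := by linear_combination -hθs
        exact two_ne_zero h3
      have h1m : (1 : L) - θ₀ ≠ 0 := by
        intro h
        apply h1p
        have h2 : star (1 - θ₀) = 0 := by rw [h, star_zero]
        rwa [star_sub, star_one, hθs, sub_neg_eq_add] at h2
      let a : L := (1 + θ₀) / (1 - θ₀)
      have ha : star a = (1 - θ₀) / (1 + θ₀) := by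
        change star ((1 + θ₀) / (1 - θ₀)) = _
        rw [star_div₀, star_add, star_sub, star_one, hθs, sub_neg_eq_add, ← sub_eq_add_neg]
      have ha1 : a * star a = 1 := by
        rw [ha]
        change (1 + θ₀) / (1 - θ₀) * _ = 1
        field_simp
      have ha0 : a ≠ 0 := left_ne_zero_of_mul_eq_one ha1
      have hane : a ≠ -1 := by
        intro h
        rw [div_eq_iff h1m] at h
        have h3 : (2 : L) = 0 := by linear_combination h
        exact two_ne_zero h3
      have hane' : -star a ≠ -1 := by
        intro h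
        have h2 : star a = 1 := neg_injective h
        have h3 : a = 1 := by rw [← star_star a, h2, star_one]
        rw [div_eq_iff h1m] at h3
        have h4 : (2 : L) * θ₀ = 0 := by linear_combination h3
        exact hθ0 ((mul_eq_zero.mp h4).resolve_left two_ne_zero)
      have hb1 : (-star a) * star (-star a) = 1 := by
        rw [star_neg, star_star, neg_mul_neg, mul_comm]; exact ha1
      have e : reflU H hx hθ = reflU H hx ha1 * reflU H hx hb1 := by
        apply Units.ext
        change refl H x (-1) = refl H x a * refl H x (-star a)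
        rw [refl_mul H hx, mul_neg, ha1]
      rw [e]
      exact G.mul_mem (hG _ a ha1 hane (simple_refl hQ hH hd hx a))
        (hG _ _ hb1 hane' (simple_refl hQ hH hd hx _))
    · exact hG _ θ hθ h1 (simple_refl hQ hH hd hx θ)
  obtain ⟨v, hv1, hv2⟩ := RP.exists_orth_basis hQ n (Fin n → L) (rowHF H hH)
    (rowHF_nondeg H hH hd) (Module.finrank_fin_fun L)
  have hv1' : ∀ i j, i ≠ j → bh H (v i) (v j) = 0 := fun i j hij => by
    rw [← bh_eq H hH]; exact hv1 i j hij
  have hv2' : ∀ i, bh H (v i) (v i) ≠ 0 := fun i => by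
    rw [← bh_eq H hH]; exact hv2 i
  -- downward induction
  have main : ∀ m : ℕ, ∀ j : ℕ, j + m = n → ∀ T : (Matrix (Fin n) (Fin n) L)ˣ,
      (T : Matrix (Fin n) (Fin n) L) * H * (T : Matrix (Fin n) (Fin n) L)ᴴ = H →
      (∀ i : Fin n, (i : ℕ) < j → v i ᵥ* (T : Matrix (Fin n) (Fin n) L) = v i) → T ∈ G := by
    intro m
    induction m with
    | zero =>
      intro j hj T hT hfix
      have h1 : T = 1 := by
        apply Units.ext
        apply (Matrix.ext_iff_vecMul (A := (T : Matrix (Fin n) (Fin n) L)) (B := 1)).mpr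
        intro y
        have h2 : (Matrix.vecMulLinear (T : Matrix (Fin n) (Fin n) L)) = LinearMap.id := by
          refine v.ext fun i => ?_
          rw [vecMulLinear_apply, hfix i (by omega), LinearMap.id_apply]
        rw [vecMul_one]
        exact LinearMap.congr_fun h2 y
      rw [h1]
      exact G.one_mem
    | succ m ih =>
      intro j hj T hT hfix
      let j' : Fin n := ⟨j, by omega⟩
      let x : Fin n → L := v j'
      let w : Fin n → L := x ᵥ* (T : Matrix (Fin n) (Fin n) L)
      have hxx : bh H x x ≠ 0 := hv2' j'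
      have hww : bh H w w = bh H x x := bh_vecMul hT x x
      have horx : ∀ i : Fin n, (i : ℕ) < j → bh H (v i) x = 0 := fun i hi =>
        hv1' i j' (fun h => by rw [h] at hi; exact lt_irrefl _ hi)
      have horw : ∀ i : Fin n, (i : ℕ) < j → bh H (v i) w = 0 := by
        intro i hi
        have h1 : bh H (v i ᵥ* (T : Matrix (Fin n) (Fin n) L)) w = bh H (v i) x :=
          bh_vecMul hT (v i) x
        rw [hfix i hi, horx i hi] at h1
        exact h1
      -- it is enough to find an element of `G` with the same effect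
      have reduce : ∀ R : (Matrix (Fin n) (Fin n) L)ˣ, R ∈ G →
          (R : Matrix (Fin n) (Fin n) L) * H * (R : Matrix (Fin n) (Fin n) L)ᴴ = H →
          (∀ i : Fin n, (i : ℕ) < j → v i ᵥ* (R : Matrix (Fin n) (Fin n) L) = v i) →
          x ᵥ* (R : Matrix (Fin n) (Fin n) L) = w → T ∈ G := by
        intro R hRG hRi hRf hRx
        have hinv : ∀ y z : Fin n → L, y ᵥ* (R : Matrix (Fin n) (Fin n) L) = z →
            z ᵥ* ((R⁻¹ : (Matrix (Fin n) (Fin n) L)ˣ) : Matrix (Fin n) (Fin n) L) = y := by
          intro y z h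
          rw [← h, vecMul_vecMul, R.mul_inv, vecMul_one]
        have hRi' : ((R⁻¹ : (Matrix (Fin n) (Fin n) L)ˣ) : Matrix (Fin n) (Fin n) L) * H *
            ((R⁻¹ : (Matrix (Fin n) (Fin n) L)ˣ) : Matrix (Fin n) (Fin n) L)ᴴ = H := by
          have h2 : (R : Matrix (Fin n) (Fin n) L)ᴴ *
              ((R⁻¹ : (Matrix (Fin n) (Fin n) L)ˣ) : Matrix (Fin n) (Fin n) L)ᴴ = 1 := by
            rw [← conjTranspose_mul, R.inv_mul, conjTranspose_one]
          calc ((R⁻¹ : (Matrix (Fin n) (Fin n) L)ˣ) : Matrix (Fin n) (Fin n) L) * H *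
                ((R⁻¹ : (Matrix (Fin n) (Fin n) L)ˣ) : Matrix (Fin n) (Fin n) L)ᴴ
              = ((R⁻¹ : (Matrix (Fin n) (Fin n) L)ˣ) : Matrix (Fin n) (Fin n) L) *
                ((R : Matrix (Fin n) (Fin n) L) * H * (R : Matrix (Fin n) (Fin n) L)ᴴ) *
                ((R⁻¹ : (Matrix (Fin n) (Fin n) L)ˣ) : Matrix (Fin n) (Fin n) L)ᴴ := by rw [hRi]
            _ = (((R⁻¹ : (Matrix (Fin n) (Fin n) L)ˣ) : Matrix (Fin n) (Fin n) L) *
                (R : Matrix (Fin n) (Fin n) L)) * H * ((R : Matrix (Fin n) (Fin n) L)ᴴ *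
                ((R⁻¹ : (Matrix (Fin n) (Fin n) L)ˣ) : Matrix (Fin n) (Fin n) L)ᴴ) := by
              simp only [mul_assoc]
            _ = H := by rw [R.inv_mul, h2, one_mul, mul_one]
        have h3 : T * R⁻¹ ∈ G := by
          refine ih (j + 1) (by omega) (T * R⁻¹) ?_ ?_
          · rw [Units.val_mul, conjTranspose_mul]
            calc (T : Matrix (Fin n) (Fin n) L) *
                  ((R⁻¹ : (Matrix (Fin n) (Fin n) L)ˣ) : Matrix (Fin n) (Fin n) L) * H *
                  (((R⁻¹ : (Matrix (Fin n) (Fin n) L)ˣ) : Matrix (Fin n) (Fin n) L)ᴴ *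
                  (T : Matrix (Fin n) (Fin n) L)ᴴ)
                = (T : Matrix (Fin n) (Fin n) L) *
                  (((R⁻¹ : (Matrix (Fin n) (Fin n) L)ˣ) : Matrix (Fin n) (Fin n) L) * H *
                  ((R⁻¹ : (Matrix (Fin n) (Fin n) L)ˣ) : Matrix (Fin n) (Fin n) L)ᴴ) *
                  (T : Matrix (Fin n) (Fin n) L)ᴴ := by simp only [mul_assoc]
              _ = H := by rw [hRi', hT]
          · intro i hi
            rw [Units.val_mul, ← vecMul_vecMul]
            rcases Nat.lt_succ_iff_lt_or_eq.mp hi with hi | hi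
            · rw [hfix i hi]
              exact hinv _ _ (hRf i hi)
            · have hij : i = j' := Fin.ext hi
              rw [hij]
              exact hinv x w hRx
        have h4 := G.mul_mem h3 hRG
        rwa [inv_mul_cancel_right] at h4
      have hsx : star (bh H x x) = bh H x x := star_bh hH x x
      have hsw : star (bh H x w) = bh H w x := star_bh hH x w
      have hsw' : star (bh H w x) = bh H x w := star_bh hH w x
      -- the general step: the reflection along `x - w`
      have step : ∀ w' : Fin n → L, bh H w' w' = bh H x x → bh H (x - w') (x - w') ≠ 0 →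
          (∀ i : Fin n, (i : ℕ) < j → bh H (v i) w' = 0) →
          ∃ R : (Matrix (Fin n) (Fin n) L)ˣ, R ∈ G ∧
          (R : Matrix (Fin n) (Fin n) L) * H * (R : Matrix (Fin n) (Fin n) L)ᴴ = H ∧
          (∀ i : Fin n, (i : ℕ) < j → v i ᵥ* (R : Matrix (Fin n) (Fin n) L) = v i) ∧
          x ᵥ* (R : Matrix (Fin n) (Fin n) L) = w' := by
        intro w' hw' hne hor
        have hsub : ∀ y a c : Fin n → L, bh H y (a - c) = bh H y a - bh H y c := by
          intro y a c
          rw [← star_bh hH, bh_sub_left, star_sub, star_bh hH, star_bh hH]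
        let γ : L := bh H x (x - w')
        have hγs : γ + star γ = bh H (x - w') (x - w') := by
          change bh H x (x - w') + star (bh H x (x - w')) = _
          rw [star_bh hH, bh_sub_left, bh_sub_left, hsub, hsub, hw']
          ring
        have hγ0 : γ ≠ 0 := by
          intro h
          apply hne
          rw [← hγs, h, star_zero, add_zero]
        have hγ0' : star γ ≠ 0 := star_ne_zero.mpr hγ0
        have hθ : (-(star γ / γ)) * star (-(star γ / γ)) = 1 := by
          rw [star_neg, star_div₀, star_star]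
          field_simp
        refine ⟨reflU H hne hθ, hR _ hne _ hθ, refl_isometry hH hne hθ, ?_, ?_⟩
        · intro i hi
          change v i ᵥ* refl H (x - w') _ = v i
          have h5 : bh H (v i) (x - w') = 0 := by rw [hsub, horx i hi, hor i hi, sub_zero]
          rw [vecMul_refl, h5, mul_zero, zero_smul, add_zero]
        · change x ᵥ* refl H (x - w') _ = w'
          rw [vecMul_refl]
          have h5 : (-(star γ / γ) - 1) / bh H (x - w') (x - w') * bh H x (x - w') = -1 := by
            rw [← hγs]
            change (-(star γ / γ) - 1) / (γ + star γ) * γ = -1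
            have h6 : γ + star γ ≠ 0 := by rw [hγs]; exact hne
            field_simp
            ring
          rw [h5, neg_one_smul, neg_sub, add_sub_cancel]
      by_cases hc : bh H (x - w) (x - w) ≠ 0
      · obtain ⟨R, h1, h2, h3, h4⟩ := step w hww hc horw
        exact reduce R h1 h2 h3 h4
      · rw [not_not] at hc
        have hneg : bh H (-w) (-w) = bh H x x := by
          rw [← hww]
          unfold bh
          rw [star_neg, mulVec_neg, neg_dotProduct_neg]
        have hsub : ∀ y a c : Fin n → L, bh H y (a - c) = bh H y a - bh H y c := by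
          intro y a c
          rw [← star_bh hH, bh_sub_left, star_sub, star_bh hH, star_bh hH]
        have hnegr : ∀ y a : Fin n → L, bh H y (-a) = -bh H y a := by
          intro y a
          have := hsub y 0 a
          rw [zero_sub] at this
          rw [this]
          have h0 : bh H y 0 = 0 := by simp [bh]
          rw [h0, zero_sub]
        have hc' : bh H (x - -w) (x - -w) ≠ 0 := by
          intro h
          have h5 : bh H (x - w) (x - w) + bh H (x - -w) (x - -w) = 4 * bh H x x := by
            rw [sub_neg_eq_add, bh_sub_left, bh_add_left, hsub, hsub]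
            have hadd : ∀ y : Fin n → L, bh H y (x + w) = bh H y x + bh H y w := by
              intro y
              rw [← sub_neg_eq_add, hsub, hnegr, sub_neg_eq_add]
            rw [hadd, hadd, hww]
            ring
          rw [hc, h, add_zero] at h5
          exact hxx ((mul_eq_zero.mp h5.symm).resolve_left (by norm_num))
        obtain ⟨R, h1, h2, h3, h4⟩ := step (-w) hneg hc' (fun i hi => by
          rw [hnegr, horw i hi, neg_zero])
        have hw0 : bh H w w ≠ 0 := by rw [hww]; exact hxx
        have hm1 : (-1 : L) * star (-1) = 1 := by rw [star_neg, star_one]; ring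
        have hiso := refl_isometry hH hw0 hm1
        refine reduce (R * reflU H hw0 hm1) (G.mul_mem h1 (hR w hw0 (-1) hm1)) ?_ ?_ ?_
        · rw [Units.val_mul, conjTranspose_mul]
          change (R : Matrix (Fin n) (Fin n) L) * refl H w (-1) * H *
            ((refl H w (-1))ᴴ * (R : Matrix (Fin n) (Fin n) L)ᴴ) = H
          calc (R : Matrix (Fin n) (Fin n) L) * refl H w (-1) * H *
                ((refl H w (-1))ᴴ * (R : Matrix (Fin n) (Fin n) L)ᴴ)
              = (R : Matrix (Fin n) (Fin n) L) * (refl H w (-1) * H * (refl H w (-1))ᴴ) *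
                (R : Matrix (Fin n) (Fin n) L)ᴴ := by simp only [mul_assoc]
            _ = H := by rw [hiso, h2]
        · intro i hi
          rw [Units.val_mul, ← vecMul_vecMul, h3 i hi]
          change v i ᵥ* refl H w (-1) = v i
          rw [vecMul_refl, horw i hi, mul_zero, zero_smul, add_zero]
        · rw [Units.val_mul, ← vecMul_vecMul, h4]
          change (-w) ᵥ* refl H w (-1) = w
          rw [vecMul_refl]
          have h6 : bh H (-w) w = -bh H w w := by
            rw [← star_bh hH, hnegr, star_neg, star_bh hH]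
          rw [h6]
          have h7 : (-1 - 1) / bh H w w * -bh H w w = (2 : L) := by
            field_simp
            norm_num
          rw [h7, two_smul]
          abel
  exact main n 0 (by omega) T hT (fun i hi => absurd hi (Nat.not_lt_zero _))

end main

end Vale.Agent.P011.Two
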