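import Vale.Agent.P011.Two.Defs
import Vale.Agent.P011.MPQ.Defs
import Vale.Agent.P011.Even.GNorm

/-!
Statements of the blocks of the theorem in rank two. This file is not imported by anything.
-/

open NumberField IsDedekindDomain Module

namespace Vale.Agent.P011.Two.Spec

open Vale.Agent.P011.Arith Vale.Agent.P011.Even Vale.Agent.P011.MPQ

variable {k K D : Type} [Field k] [NumberField k] [Field K] [StarRing K]
  [DivisionRing D] [StarRing D] [Algebra k K] [Algebra k D] [Algebra K D] [IsScalarTower k K D]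
  {d : kˣ} {s : K}

/-- The statement of the theorem for quaternion algebras (target of MPQ). -/
def MPQStatement : Prop :=
  ∀ (F : Type) [Field F] [NumberField F] (a b : Fˣ) (_ : Aniso a b) (N : Subgroup (SL1 a b))
    (_ : N.Normal) (_ : N.index ≠ 0) (e : ℕ) (_ : 0 < e) (_ : ∀ g : SL1 a b, g ^ e ∈ N)
    (g : SL1 a b), (∀ w : HeightOneSpectrum (𝓞 F), Ram a b w → ∀ ε : Z0, ε ≠ 0 →
      ∃ h ∈ Subgroup.closure {x : SL1 a b | ∃ y : SL1 a b, x = y ^ e},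
        w.valuation F (nrd (((g : (Qt a b)ˣ) : Qt a b) - ((h : (Qt a b)ˣ) : Qt a b))) < ε) → g ∈ N

/-- 2A0. Quaternions of norm one close to one at a ramified place are close to `e`-th powers. -/
theorem near_pow {F : Type} [Field F] [NumberField F] {a b : Fˣ} (hab : Aniso a b) (e : ℕ)
    (he : 0 < e) (g : SL1 a b) (w : HeightOneSpectrum (𝓞 F)) (hw : Ram a b w)
    (hg : w.valuation F (2 - 2 * ((g : (Qt a b)ˣ) : Qt a b).re) < w.valuation F (4 * (e : F) ^ 4))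
    (ε : Z0) (hε : ε ≠ 0) : ∃ h : SL1 a b, w.valuation F
      (nrd (((g : (Qt a b)ˣ) : Qt a b) - (((h ^ e : SL1 a b) : (Qt a b)ˣ) : Qt a b))) < ε := sorry

/-- 2A. The core of a subgroup of finite index has the property `HQ`. -/
theorem hq_core (hM : MPQStatement) (hS : Setting k K D d s) {g : D} (hg : star g = g)
    (han : An g) (G₀ N₀ : Subgroup ((D × D) ≃ₗ[D] (D × D))) (hG : G₀ ≤ Uh g)
    (hGn : ∀ v ∈ Uh g, ∀ x ∈ G₀, v * x * v⁻¹ ∈ G₀)
    (hGp : ∀ (F : Type) [Field F] [NumberField F] [Algebra k F] (ι : F →ₐ[k] D) (b : Fˣ)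
      (p₀ p₁ q₀ q₁ : F) (y w : D × D) (u : (D × D) ≃ₗ[D] (D × D)),
      PlaneElt d s g ι b p₀ p₁ q₀ q₁ y w u → u ∈ G₀)
    (hN : N₀ ≤ G₀) (hNn : ∀ v ∈ G₀, ∀ x ∈ N₀, v * x * v⁻¹ ∈ N₀) (hfin : N₀.relIndex G₀ ≠ 0)
    (e : ℕ) (he : 0 < e) (hexp : ∀ x ∈ G₀, x ^ e ∈ N₀) :
    ∃ N ≤ N₀, (∀ v ∈ Uh g, ∀ x ∈ N, v * x * v⁻¹ ∈ N) ∧ HQ d s g e N := sorry

/-- 2B. Rotations. -/
theorem step (hS : Setting k K D d s) {g : D} (hg : star g = g) (han : An g) {e : ℕ} (he : 0 < e)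
    {N : Subgroup ((D × D) ≃ₗ[D] (D × D))} (hHQ : HQ d s g e N) {y y' : D × D}
    (hy : hh g y y = 1) (hy' : hh g y' y' = 1)
    (hrel : Rel k d e (hh g y y' * star (hh g y y'))) : ∃ u ∈ N, ∃ δ : D, δ ≠ 0 ∧ u y = δ • y' := sorry

/-- 2C0. An element with split support which is large at infinity. -/
theorem exists_split_elt (d : kˣ) (S : Finset (HeightOneSpectrum (𝓞 k))) :
    ∃ a : k, (∀ v : HeightOneSpectrum (𝓞 k), d ∉ LS (v.valuation k) → v.valuation k a = 1) ∧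
      ∀ w : InfinitePlace k, 2 ≤ w a := sorry

/-- 2C. Approximation at finitely many finite nonsplit places and all real places, with
integrality at all other finite nonsplit places. -/
theorem ssa (d : kˣ) (S : Finset (HeightOneSpectrum (𝓞 k))) (z : Pl k → k) (δ : Pl k → ℝ)
    (hδ : ∀ p, 0 < δ p) : ∃ x : k,
      (∀ v ∈ S, d ∉ LS (v.valuation k) → plAbv (.inl v) (x - z (.inl v)) < δ (.inl v)) ∧
      (∀ φ : k →+* ℝ, plAbv (.inr φ) (x - z (.inr φ)) < δ (.inr φ)) ∧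
      ∀ v ∉ S, d ∉ LS (v.valuation k) → v.valuation k x ≤ 1 := sorry

/-- 2T. The orbit of the first unit vector. -/
theorem transitive (hS : Setting k K D d s) {n : ℕ} (hn : 2 ≤ n) (hdeg : finrank K D = n ^ 2)
    {g : D} (hg : star g = g) (han : An g) {e : ℕ} (he : 0 < e)
    {N : Subgroup ((D × D) ≃ₗ[D] (D × D))} (hN : ∀ v ∈ Uh g, ∀ x ∈ N, v * x * v⁻¹ ∈ N)
    (hHQ : HQ d s g e N) (y : D × D) (hy : hh g y y = 1) :
    ∃ u ∈ N, ∃ δ : D, δ ≠ 0 ∧ u e₁ = δ • y := sorry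

/-- 2G. Matched pairs. -/
theorem matched (hS : Setting k K D d s) {n : ℕ} (hn : 2 ≤ n) (hdeg : finrank K D = n ^ 2)
    {g : D} (hg : star g = g) (han : An g) {e : ℕ} (he : 0 < e)
    {N : Subgroup ((D × D) ≃ₗ[D] (D × D))} (hHQ : HQ d s g e N) (t : D) (ht : t * star t = 1) :
    ∃ t' : D, ∃ u ∈ N, IsDiag t t' u := sorry

/-- 2H. The conclusion. -/
theorem commutators (hS : Setting k K D d s) {n : ℕ} (hn : 2 ≤ n) (hdeg : finrank K D = n ^ 2)
    {g : D} (hg : star g = g) (han : An g) {e : ℕ} (he : 0 < e)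
    {N : Subgroup ((D × D) ≃ₗ[D] (D × D))} (hN' : N ≤ Uh g)
    (hN : ∀ v ∈ Uh g, ∀ x ∈ N, v * x * v⁻¹ ∈ N)
    (hHQ : HQ d s g e N) : ∀ u ∈ Uh g, ∀ v ∈ Uh g, u * v * u⁻¹ * v⁻¹ ∈ N := sorry

end Vale.Agent.P011.Two.Spec
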